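import Vale.Agent.P254.MathlibUsed

open MeasureTheory Set

namespace Vale.Agent.P254

/-- `K` is a convex body in `ℝⁿ`: compact, convex, nonempty interior. -/
def IsConvexBody {n : ℕ} (K : Set (Fin n → ℝ)) : Prop :=
  Convex ℝ K ∧ IsCompact K ∧ (interior K).Nonempty

/-- The centroid of `K`. -/
noncomputable def centroid {n : ℕ} (K : Set (Fin n → ℝ)) : Fin n → ℝ :=
  fun i => (volume K).toReal⁻¹ * ∫ x in K, x i

/-- The covariance matrix of (the uniform distribution on) `K`. -/
noncomputable def covMatrix {n : ℕ} (K : Set (Fin n → ℝ)) : Matrix (Fin n) (Fin n) ℝ :=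
  fun i j => (volume K).toReal⁻¹ * ∫ x in K, (x i - centroid K i) * (x j - centroid K j)

/-- The isotropic constant `L_K = (det Σ_K / |K|²)^(1/(2n))`. -/
noncomputable def isoConst {n : ℕ} (K : Set (Fin n → ℝ)) : ℝ :=
  ((covMatrix K).det / (volume K).toReal ^ 2) ^ (1 / (2 * (n : ℝ)))

/-- `S` is an `n`-simplex: the convex hull of `n+1` affinely independent points of `ℝⁿ`. -/
def IsSimplex {n : ℕ} (S : Set (Fin n → ℝ)) : Prop :=
  ∃ v : Fin (n + 1) → (Fin n → ℝ), AffineIndependent ℝ v ∧ S = convexHull ℝ (range v)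

end Vale.Agent.P254
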