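import Mathlib.Algebra.Order.Archimedean.Real.Hom
import Mathlib.Algebra.Ring.IsFormallyReal
import Mathlib.Analysis.Convex.Measure
import Mathlib.Analysis.InnerProductSpace.NormDet
import Mathlib.Analysis.SpecialFunctions.Gaussian.GaussianIntegral
import Mathlib.MeasureTheory.Integral.Pi
import Mathlib.Order.CompletePartialOrder
import Mathlib.RingTheory.Etale.Weakly
import Mathlib.RingTheory.Flat.TorsionFree
import Mathlib.RingTheory.TotallySplit
import Mathlib.Tactic
import Mathlib.Topology.Separation.CompletelyRegular

/-! The part of Mathlib that the development of this folder uses. -/
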