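import Vale.Agent.P254.Defs

open MeasureTheory Set Matrix

namespace Vale.Agent.P254

/-- The ellipsoid `{x : (x - b)ᵀ Σ⁻¹ (x - b) ≤ n + 2}`, where `b` and `Σ` are the centroid and
the covariance matrix of `T`. -/
noncomputable def momentEllipsoid {n : ℕ} (T : Set (Fin n → ℝ)) : Set (Fin n → ℝ) :=
  {x | (x - centroid T) ⬝ᵥ ((covMatrix T)⁻¹ *ᵥ (x - centroid T)) ≤ (n : ℝ) + 2}

end Vale.Agent.P254
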