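import Vale.Agent.P254.Criterion

open MeasureTheory Set Matrix
open scoped Pointwise

namespace Vale.Agent.P254

variable {n : ℕ} {K : Set (Fin n → ℝ)}

/-- The affine map `x ↦ A x + b`. -/
noncomputable def aff (A : Matrix (Fin n) (Fin n) ℝ) (b : Fin n → ℝ) (x : Fin n → ℝ) : Fin n → ℝ :=
  A *ᵥ x + b

lemma aff_apply (A : Matrix (Fin n) (Fin n) ℝ) (b x : Fin n → ℝ) (i : Fin n) :
    aff A b x i = ∑ j, A i j * x j + b i := rfl

lemma continuous_aff (A : Matrix (Fin n) (Fin n) ℝ) (b : Fin n → ℝ) : Continuous (aff A b) := by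
  unfold aff; fun_prop

lemma aff_injective {A : Matrix (Fin n) (Fin n) ℝ} (hA : A.det ≠ 0) (b : Fin n → ℝ) :
    Function.Injective (aff A b) := by
  intro x y hxy
  have h : A *ᵥ x = A *ᵥ y := by simpa [aff] using hxy
  have hu : IsUnit A := (Matrix.isUnit_iff_isUnit_det A).mpr (isUnit_iff_ne_zero.mpr hA)
  exact (Matrix.mulVec_injective_iff_isUnit.mpr hu) h

lemma hasFDerivAt_aff (A : Matrix (Fin n) (Fin n) ℝ) (b x : Fin n → ℝ) :
    HasFDerivAt (aff A b) (LinearMap.toContinuousLinearMap (Matrix.toLin' A)) x := by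
  have h := (LinearMap.toContinuousLinearMap (Matrix.toLin' A)).hasFDerivAt (x := x)
  have h2 := h.add_const b
  refine h2.congr_of_eventuallyEq (Filter.Eventually.of_forall (fun y => ?_))
  simp [aff]

lemma setIntegral_aff_image {A : Matrix (Fin n) (Fin n) ℝ} (hA : A.det ≠ 0) (b : Fin n → ℝ)
    {s : Set (Fin n → ℝ)} (hs : MeasurableSet s) (f : (Fin n → ℝ) → ℝ) :
    ∫ x in aff A b '' s, f x = |A.det| * ∫ x in s, f (aff A b x) := by
  have h := integral_image_eq_integral_abs_det_fderiv_smul (volume : Measure (Fin n → ℝ)) hs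
    (f' := fun _ => LinearMap.toContinuousLinearMap (Matrix.toLin' A))
    (fun x _ => (hasFDerivAt_aff A b x).hasFDerivWithinAt) (aff_injective hA b).injOn f
  rw [h]
  have hdet : (LinearMap.toContinuousLinearMap (Matrix.toLin' A)).det = A.det := by
    rw [ContinuousLinearMap.det]
    simp
  simp only [hdet, smul_eq_mul]
  rw [integral_const_mul]

lemma volume_aff_image {A : Matrix (Fin n) (Fin n) ℝ} (hA : A.det ≠ 0) (b : Fin n → ℝ)
    {s : Set (Fin n → ℝ)} (hs : MeasurableSet s) :
    (volume (aff A b '' s)).toReal = |A.det| * (volume s).toReal := by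
  have := setIntegral_aff_image hA b hs (fun _ => 1)
  simpa [Measure.real] using this

lemma isCompact_aff_image (A : Matrix (Fin n) (Fin n) ℝ) (b : Fin n → ℝ) (hK : IsCompact K) :
    IsCompact (aff A b '' K) := hK.image (continuous_aff A b)

lemma centroid_aff_image {A : Matrix (Fin n) (Fin n) ℝ} (hA : A.det ≠ 0) (b : Fin n → ℝ)
    (hK : IsCompact K) (hV : (volume K).toReal ≠ 0) :
    centroid (aff A b '' K) = aff A b (centroid K) := by
  ext i
  have hA' : |A.det| ≠ 0 := abs_ne_zero.mpr hA
  simp only [centroid]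
  rw [setIntegral_aff_image hA b hK.measurableSet, volume_aff_image hA b hK.measurableSet]
  simp_rw [aff_apply]
  rw [integral_add (intOn hK (by fun_prop)) (intOn hK (by fun_prop)),
    integral_finsetSum _ (fun i _ => intOn hK (by fun_prop)), setIntegral_const]
  simp_rw [integral_const_mul]
  simp only [Measure.real, smul_eq_mul]
  have : ∀ j, A i j * ((volume K).toReal⁻¹ * ∫ x in K, x j)
      = (volume K).toReal⁻¹ * (A i j * ∫ x in K, x j) := by intro j; ring
  simp only [centroid]
  simp_rw [this]
  rw [← Finset.mul_sum]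
  field_simp

lemma cov_aff_image {A : Matrix (Fin n) (Fin n) ℝ} (hA : A.det ≠ 0) (b : Fin n → ℝ)
    (hK : IsCompact K) (hV : (volume K).toReal ≠ 0) :
    covMatrix (aff A b '' K) = A * covMatrix K * Aᵀ := by
  ext i j
  have hA' : |A.det| ≠ 0 := abs_ne_zero.mpr hA
  simp only [covMatrix]
  rw [centroid_aff_image hA b hK hV, setIntegral_aff_image hA b hK.measurableSet,
    volume_aff_image hA b hK.measurableSet]
  have e : ∀ x, (aff A b x i - aff A b (centroid K) i) * (aff A b x j - aff A b (centroid K) j)
      = ∑ k, ∑ l, A i k * ((x k - centroid K k) * (x l - centroid K l)) * A j l := by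
    intro x
    simp only [aff_apply]
    have e1 : ∀ i, (∑ k, A i k * x k + b i) - (∑ k, A i k * centroid K k + b i)
        = ∑ k, A i k * (x k - centroid K k) := by
      intro i
      simp_rw [mul_sub]
      rw [Finset.sum_sub_distrib]
      ring
    rw [e1, e1, Finset.sum_mul_sum]
    refine Finset.sum_congr rfl (fun k _ => Finset.sum_congr rfl (fun l _ => ?_))
    ring
  simp_rw [e]
  rw [integral_finsetSum _ (fun i _ => intOn hK (by fun_prop))]
  have e2 : ∀ k, ∫ x in K, ∑ l, A i k * ((x k - centroid K k) * (x l - centroid K l)) * A j l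
      = ∑ l, A i k * (∫ x in K, (x k - centroid K k) * (x l - centroid K l)) * A j l := by
    intro k
    rw [integral_finsetSum _ (fun i _ => intOn hK (by fun_prop))]
    refine Finset.sum_congr rfl (fun l _ => ?_)
    rw [integral_mul_const, integral_const_mul]
  simp_rw [e2]
  simp only [mul_apply, transpose_apply, Finset.sum_mul, covMatrix, Finset.mul_sum]
  rw [Finset.sum_comm]
  refine Finset.sum_congr rfl (fun l _ => Finset.sum_congr rfl (fun k _ => ?_))
  field_simp

/-- Affine invariance of the isotropic constant. -/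
lemma isoConst_aff_image {A : Matrix (Fin n) (Fin n) ℝ} (hA : A.det ≠ 0) (b : Fin n → ℝ)
    (hK : IsCompact K) (hV : (volume K).toReal ≠ 0) :
    isoConst (aff A b '' K) = isoConst K := by
  simp only [isoConst]
  rw [cov_aff_image hA b hK hV, volume_aff_image hA b hK.measurableSet, det_mul, det_mul,
    det_transpose, mul_pow, sq_abs]
  congr 1
  field_simp

end Vale.Agent.P254
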