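import Vale.Agent.P254.Close

open MeasureTheory Set Matrix Filter Topology
open scoped Pointwise

namespace Vale.Agent.P254

variable {n : ℕ} {K : Set (Fin n → ℝ)}

/-- The conclusion of the facet analysis: this is the statement proved in the analytic part. -/
def RegionStatement (n : ℕ) (ε : ℝ) : Prop :=
  ∀ K : Set (Fin n → ℝ), IsCompact K → Convex ℝ K → K ⊆ stdS n →
    (fun _ => 1 / (n : ℝ)) ∈ K →
    (∀ j : Fin n, Function.update (fun _ => 1 / (n : ℝ)) j 0 ∈ K) →
    (∀ x ∈ stdS n, (1 + ε)⁻¹ • x + (1 - (1 + ε)⁻¹) • (fun _ => 1 / ((n : ℝ) + 1)) ∈ K) →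
    0 ≤ ∫ x in stdS n \ K, (qq x - 2 / ((n : ℝ) + 1))

lemma eq_stdS_of_volume (hKc : IsCompact K) (hsub : K ⊆ stdS n) (hint : (interior K).Nonempty)
    (hvol : (volume (stdS n)).toReal ≤ (volume K).toReal) : K = stdS n := by
  refine Subset.antisymm hsub (fun x hx => ?_)
  by_contra hxK
  have hfin : volume (stdS n) ≠ ⊤ := isCompact_stdS.measure_ne_top
  have hint' : (interior (stdS n)).Nonempty := hint.mono (interior_mono hsub)
  have hcl : x ∈ closure (interior (stdS n)) := by
    rw [convex_stdS.closure_interior_eq_closure_of_nonempty_interior hint']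
    exact subset_closure hx
  have hopen : IsOpen Kᶜ := hKc.isClosed.isOpen_compl
  obtain ⟨y, hy1, hy2⟩ := mem_closure_iff.mp hcl Kᶜ hopen hxK
  have hU : IsOpen (Kᶜ ∩ interior (stdS n)) := hopen.inter isOpen_interior
  have hpos : 0 < volume (Kᶜ ∩ interior (stdS n)) := hU.measure_pos _ ⟨y, hy1, hy2⟩
  have h1 : volume K + volume (Kᶜ ∩ interior (stdS n)) ≤ volume (stdS n) := by
    rw [← measure_union (disjoint_compl_right.mono_right inter_subset_left) hU.measurableSet]
    exact measure_mono (union_subset hsub (inter_subset_right.trans interior_subset))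
  have hKfin : volume K ≠ ⊤ := hKc.measure_ne_top
  have h2 : volume K < volume (stdS n) :=
    lt_of_lt_of_le (ENNReal.lt_add_right hKfin hpos.ne') h1
  have h3 := (ENNReal.toReal_lt_toReal hKfin hfin).mpr h2
  linarith

lemma isoConst_simplex {S : Set (Fin n → ℝ)} (hS : IsSimplex S) :
    isoConst S = isoConst (stdS n) := by
  obtain ⟨A, b, hA, rfl⟩ := hS.exists_aff
  exact isoConst_aff_image hA b isCompact_stdS volume_stdS_pos.ne'

lemma isSimplex_of_aff_image {A : Matrix (Fin n) (Fin n) ℝ} (hA : A.det ≠ 0) (b : Fin n → ℝ)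
    (h : aff A b '' K = stdS n) : IsSimplex K := by
  have hu : IsUnit A.det := isUnit_iff_ne_zero.mpr hA
  have hu' : (A⁻¹).det ≠ 0 := by
    rw [det_nonsing_inv, Ring.inverse_eq_inv']
    exact inv_ne_zero hA
  have e : K = aff A⁻¹ (-(A⁻¹ *ᵥ b)) '' stdS n := by
    rw [← h, ← image_comp]
    have : aff A⁻¹ (-(A⁻¹ *ᵥ b)) ∘ aff A b = id := by
      ext1 x
      rw [Function.comp_apply, aff_aff, nonsing_inv_mul _ hu]
      simp [aff]
    rw [this, image_id]
  rw [e]
  exact isSimplex_image hu' _

/-- Assembly of the local maximality theorem from the facet analysis. -/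
theorem assembly (hn : 0 < n) {ε : ℝ} (hε : 0 < ε) (hR : RegionStatement n ε) {δ : ℝ}
    (hδ : δ < (ε / (n + 1 + ε)) ^ n)
    {T S : Set (Fin n → ℝ)} (hK : IsConvexBody K) (hT : IsSimplex T) (hKT : K ⊆ T)
    (hvol : (1 - δ) * (volume T).toReal ≤ (volume K).toReal) (hS : IsSimplex S) :
    isoConst K ≤ isoConst S ∧ (isoConst K = isoConst S ↔ IsSimplex K) := by
  obtain ⟨A, b, hA, hmax, hbest⟩ := exists_position hn hK
  obtain ⟨hKv, hKc, hKi⟩ := hK
  set K' := aff A b '' K with hK'
  have hV : 0 < (volume K).toReal := volume_pos_of_interior hKi hKc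
  have hK'c : IsCompact K' := isCompact_aff_image A b hKc
  have hK'v : Convex ℝ K' := by
    rw [hK', ← coe_affMap]; exact hKv.affine_image _
  have hV' : (volume K').toReal = |A.det| * (volume K).toReal :=
    volume_aff_image hA b hKc.measurableSet
  have hV'0 : 0 < (volume K').toReal := by
    rw [hV']; exact mul_pos (abs_pos.mpr hA) hV
  have hTpos : 0 < (volume T).toReal := by
    obtain ⟨A0, b0, hA0, rfl⟩ := hT.exists_aff
    rw [volume_aff_image hA0 b0 isCompact_stdS.measurableSet]
    exact mul_pos (abs_pos.mpr hA0) volume_stdS_pos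
  have hW : 0 < (volume (stdS n)).toReal := volume_stdS_pos
  have h1 := hbest T hT hKT
  have h2 : (1 - δ) * (volume (stdS n)).toReal ≤ (volume K').toReal := by
    have h3 : (1 - δ) * (volume T).toReal * (volume (stdS n)).toReal
        ≤ (volume K).toReal * (volume (stdS n)).toReal := mul_le_mul_of_nonneg_right hvol hW.le
    have h4 : ((1 - δ) * (volume (stdS n)).toReal) * (volume T).toReal
        ≤ (volume K').toReal * (volume T).toReal := by linarith
    exact le_of_mul_le_mul_right h4 hTpos
  have hfin : volume (stdS n) ≠ ⊤ := isCompact_stdS.measure_ne_top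
  have h5 : (volume (stdS n \ K')).toReal = (volume (stdS n)).toReal - (volume K').toReal := by
    rw [measure_sdiff hmax.1 hK'c.measurableSet.nullMeasurableSet hK'c.measure_ne_top,
      ENNReal.toReal_sub_of_le (measure_mono hmax.1) hfin]
  have h6 : (volume (stdS n \ K')).toReal < (ε / (n + 1 + ε)) ^ n * (volume (stdS n)).toReal := by
    rw [h5]
    have := mul_lt_mul_of_pos_right hδ hW
    linarith
  have hc0 := hmax.centroid_mem hn hK'c hK'v
  have hcj := hmax.centroids_mem hn hK'c hK'v
  have hH := hR K' hK'c hK'v hmax.1 hc0 hcj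
    (fun x hx => shrunk_subset hn hK'v hc0 hcj hε h6 hx)
  obtain ⟨hle, hlt⟩ := isoConst_criterion hn hK'c hV'0 hmax.1 hH
  have e1 : isoConst K' = isoConst K := isoConst_aff_image hA b hKc hV.ne'
  rw [isoConst_simplex hS]
  rw [e1] at hle hlt
  refine ⟨hle, fun heq => ?_, fun hs => isoConst_simplex hs⟩
  have h7 : ¬ (volume K').toReal < (volume (stdS n)).toReal := fun h => (hlt h).ne heq
  have hK'i : (interior K').Nonempty := by
    by_contra hne
    rw [not_nonempty_iff_eq_empty] at hne
    -- a convex set with empty interior is null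
    have : volume K' = 0 := by
      have h8 := hK'v.addHaar_frontier (volume : Measure (Fin n → ℝ))
      have h9 : K' ⊆ frontier K' := by
        rw [hK'c.isClosed.frontier_eq, hne, sdiff_empty]
      exact measure_mono_null h9 h8
    rw [this] at hV'0
    simp at hV'0
  exact isSimplex_of_aff_image hA b (eq_stdS_of_volume hK'c hmax.1 hK'i (not_lt.mp h7))

end Vale.Agent.P254
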