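import Mathlib
import Vale.Agent.P254.Defs

open MeasureTheory Set Real
open scoped Pointwise

namespace Vale.Agent.P254

variable {n : ℕ}

/-- The closed positive orthant. -/
def orth (n : ℕ) : Set (Fin n → ℝ) := {v | ∀ i, 0 ≤ v i}

lemma isClosed_orth : IsClosed (orth n) := by
  have : orth n = ⋂ i, {v : Fin n → ℝ | 0 ≤ v i} := by ext; simp [orth]
  rw [this]
  exact isClosed_iInter fun i => isClosed_le continuous_const (continuous_apply i)

lemma measurableSet_orth : MeasurableSet (orth n) := isClosed_orth.measurableSet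

lemma orth_smul {t : ℝ} (ht : 0 < t) : t • orth n = orth n := by
  ext v
  rw [Set.mem_smul_set_iff_inv_smul_mem₀ ht.ne']
  simp only [orth, mem_ofPred_eq, Pi.smul_apply, smul_eq_mul]
  refine forall_congr' fun i => ?_
  constructor
  · intro h
    have := mul_nonneg ht.le h
    rwa [mul_inv_cancel_left₀ ht.ne'] at this
  · intro h
    exact mul_nonneg (inv_nonneg.2 ht.le) h

lemma sum_nonneg_of_orth {v : Fin n → ℝ} (hv : v ∈ orth n) : 0 ≤ ∑ i, v i :=
  Finset.sum_nonneg fun i _ => hv i

/-- integrability of `exp (-a * sum)` on the orthant. -/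
lemma integrableOn_exp_sum {a : ℝ} (ha : 0 < a) :
    IntegrableOn (fun v : Fin n → ℝ => Real.exp (-(a * ∑ i, v i))) (orth n) := by
  have h1 : Integrable (fun v : Fin n → ℝ => ∏ i, (Ici (0:ℝ)).indicator (fun t => Real.exp (-(a * t))) (v i)) := by
    apply Integrable.fintype_prod (f := fun _ : Fin n => (Ici (0:ℝ)).indicator (fun t => Real.exp (-(a * t))))
    intro i
    rw [integrable_indicator_iff measurableSet_Ici, integrableOn_Ici_iff_integrableOn_Ioi]
    have := integrableOn_exp_mul_Ioi (a := -a) (by linarith) 0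
    refine this.congr_fun (fun x _ => ?_) measurableSet_Ioi
    simp
  rw [← integrable_indicator_iff measurableSet_orth]
  refine h1.congr (Filter.Eventually.of_forall fun v => ?_)
  simp only
  by_cases hv : v ∈ orth n
  · rw [indicator_of_mem hv, Finset.mul_sum, ← Finset.sum_neg_distrib, Real.exp_sum]
    refine Finset.prod_congr rfl fun i _ => ?_
    rw [indicator_of_mem]
    exact hv i
  · rw [indicator_of_notMem hv]
    simp only [orth, mem_ofPred_eq, not_forall, not_le] at hv
    obtain ⟨i, hi⟩ := hv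
    refine Finset.prod_eq_zero (Finset.mem_univ i) ?_
    rw [indicator_of_notMem]
    simpa using hi

/-- polynomial times exponential bound -/
lemma pow_mul_exp_le (k : ℕ) : ∃ C : ℝ, 0 ≤ C ∧ ∀ s : ℝ, 0 ≤ s → (1 + s) ^ k * Real.exp (-s) ≤ C * Real.exp (-(1 / 2 * s)) := by
  have h := tendsto_pow_mul_exp_neg_atTop_nhds_zero k
  refine ⟨(2 ^ k * k.factorial) * Real.exp (1/2), by positivity, fun s hs => ?_⟩
  have h2 : ((1 + s) / 2) ^ k / k.factorial ≤ Real.exp ((1 + s) / 2) :=
    Real.pow_div_factorial_le_exp _ (by linarith) k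
  have h3 : (1 + s) ^ k ≤ (2 ^ k * k.factorial) * Real.exp ((1 + s) / 2) := by
    rw [div_le_iff₀ (by positivity), div_pow, div_le_iff₀ (by positivity)] at h2
    linarith
  calc (1 + s) ^ k * Real.exp (-s) ≤ (2 ^ k * k.factorial) * Real.exp ((1 + s) / 2) * Real.exp (-s) := by
        gcongr
    _ = (2 ^ k * k.factorial) * Real.exp (1/2) * Real.exp (-(1 / 2 * s)) := by
        rw [mul_assoc, mul_assoc (2 ^ k * (k.factorial : ℝ)) (Real.exp (1/2)), ← Real.exp_add, ← Real.exp_add]
        congr 2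
        ring

lemma integrableOn_of_bound {f : (Fin n → ℝ) → ℝ} (hf : AEStronglyMeasurable f (volume.restrict (orth n)))
    (C : ℝ) (k : ℕ) (hb : ∀ v ∈ orth n, |f v| ≤ C * (1 + ∑ i, v i) ^ k * Real.exp (-∑ i, v i)) :
    IntegrableOn f (orth n) := by
  obtain ⟨D, hD0, hD⟩ := pow_mul_exp_le k
  have hC : 0 ≤ C ∨ C < 0 := le_or_gt 0 C
  have h1 := (integrableOn_exp_sum (n := n) (a := 1/2) (by norm_num)).const_mul (|C| * D)
  refine Integrable.mono' h1 hf ?_
  rw [ae_restrict_iff' measurableSet_orth]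
  refine Filter.Eventually.of_forall fun v hv => ?_
  have hs := sum_nonneg_of_orth hv
  have h2 := hD _ hs
  have h3 := hb v hv
  rw [Real.norm_eq_abs]
  calc |f v| ≤ C * (1 + ∑ i, v i) ^ k * Real.exp (-∑ i, v i) := h3
    _ ≤ |C| * ((1 + ∑ i, v i) ^ k * Real.exp (-∑ i, v i)) := by
        rw [mul_assoc]
        gcongr
        exact le_abs_self C
    _ ≤ |C| * (D * Real.exp (-(1/2 * ∑ i, v i))) := by gcongr
    _ = |C| * D * Real.exp (-(1/2 * ∑ i, v i)) := by ring

/-- Scaling identity. -/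
lemma integral_scale {f : (Fin n → ℝ) → ℝ} {t : ℝ} (ht : 0 < t) :
    ∫ v in orth n, f (t • v) = (t ^ n)⁻¹ * ∫ v in orth n, f v := by
  have := MeasureTheory.Measure.setIntegral_comp_smul_of_pos (volume : Measure (Fin n → ℝ)) f (orth n) ht
  rw [orth_smul ht] at this
  simpa using this

lemma integrableOn_scale {f : (Fin n → ℝ) → ℝ} {t : ℝ} (ht : 0 < t) (hf : IntegrableOn f (orth n)) :
    IntegrableOn (fun v => f (t • v)) (orth n) := by
  rw [← integrable_indicator_iff measurableSet_orth] at hf ⊢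
  have := (integrable_comp_smul_iff (volume : Measure (Fin n → ℝ)) ((orth n).indicator f) ht.ne').2 hf
  refine this.congr (Filter.Eventually.of_forall fun v => ?_)
  simp only
  by_cases hv : v ∈ orth n
  · rw [indicator_of_mem hv, indicator_of_mem]
    rw [← orth_smul ht]
    exact smul_mem_smul_set hv
  · rw [indicator_of_notMem hv, indicator_of_notMem]
    rw [← orth_smul ht, smul_mem_smul_set_iff₀ ht.ne']
    exact hv

/-- Homogeneity identity: `∫ ℓ f e^{-ℓ} = (n+k) ∫ f e^{-ℓ}` for `f` homogeneous of degree `k`. -/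
lemma homog_ibp (ℓ f : (Fin n → ℝ) → ℝ) (k : ℕ)
    (hℓ : ∀ t : ℝ, ∀ v, ℓ (t • v) = t * ℓ v)
    (hf : ∀ t : ℝ, 0 < t → ∀ v ∈ orth n, f (t • v) = t ^ k * f v)
    (hfn : ∀ v ∈ orth n, 0 ≤ f v)
    (h1 : IntegrableOn (fun v => f v * Real.exp (-ℓ v)) (orth n))
    (h2 : IntegrableOn (fun v => ℓ v * (f v * Real.exp (-ℓ v))) (orth n)) :
    ∫ v in orth n, ℓ v * (f v * Real.exp (-ℓ v)) = (n + k) * ∫ v in orth n, f v * Real.exp (-ℓ v) := by
  set I := ∫ v in orth n, f v * Real.exp (-ℓ v) with hI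
  set J := ∫ v in orth n, ℓ v * (f v * Real.exp (-ℓ v)) with hJ
  have key : ∀ t : ℝ, 0 < t → 0 ≤ (t ^ (n + k))⁻¹ * I - I + (t - 1) * J := by
    intro t ht
    have hs := integral_scale (f := fun v => f v * Real.exp (-ℓ v)) ht
    have hi := integrableOn_scale ht h1
    have e1 : ∫ v in orth n, f (t • v) * Real.exp (-ℓ (t • v)) = t ^ k * ∫ v in orth n, f v * Real.exp (-(t * ℓ v)) := by
      rw [← integral_const_mul]
      refine setIntegral_congr_fun measurableSet_orth fun v hv => ?_
      beta_reduce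
      rw [hf t ht v hv, hℓ]
      ring
    have hi2 : IntegrableOn (fun v => f v * Real.exp (-(t * ℓ v))) (orth n) := by
      have := hi.const_mul ((t ^ k)⁻¹)
      refine IntegrableOn.congr_fun this (fun v hv => ?_) measurableSet_orth
      beta_reduce
      rw [hf t ht v hv, hℓ]
      field_simp
    have e2 : ∫ v in orth n, f v * Real.exp (-(t * ℓ v)) = (t ^ (n + k))⁻¹ * I := by
      rw [e1] at hs
      have : t ^ k ≠ 0 := by positivity
      rw [pow_add, mul_inv, hI]
      field_simp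
      field_simp at hs
      linarith
    have e3 : ∫ v in orth n, (f v * Real.exp (-ℓ v) - (t - 1) * (ℓ v * (f v * Real.exp (-ℓ v))))
        ≤ ∫ v in orth n, f v * Real.exp (-(t * ℓ v)) := by
      refine setIntegral_mono_on (h1.sub (h2.const_mul (t - 1))) hi2 measurableSet_orth fun v hv => ?_
      have h3 : -((t - 1) * ℓ v) + 1 ≤ Real.exp (-((t - 1) * ℓ v)) := Real.add_one_le_exp _
      have h4 : Real.exp (-(t * ℓ v)) = Real.exp (-ℓ v) * Real.exp (-((t - 1) * ℓ v)) := by
        rw [← Real.exp_add]; congr 1; ring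
      rw [h4]
      have h5 : 0 ≤ f v * Real.exp (-ℓ v) := mul_nonneg (hfn v hv) (Real.exp_pos _).le
      nlinarith
    rw [integral_sub h1 (h2.const_mul (t - 1)), integral_const_mul, e2, ← hI, ← hJ] at e3
    linarith
  -- derivative at 1
  have hd : HasDerivAt (fun t : ℝ => (t ^ (n + k))⁻¹ * I - I + (t - 1) * J) (-((n + k : ℕ) : ℝ) * I + J) 1 := by
    have h3 : HasDerivAt (fun t : ℝ => (t ^ (n + k))⁻¹) (-((n + k : ℕ) : ℝ)) 1 := by
      have := (hasDerivAt_pow (n + k) (1 : ℝ)).fun_inv (by simp)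
      simpa using this
    have h4 : HasDerivAt (fun t : ℝ => (t - 1) * J) (1 * J) 1 :=
      ((hasDerivAt_id (1:ℝ)).sub_const 1).mul_const J
    have h5 := ((h3.mul_const I).sub_const I).fun_add h4
    simpa using h5
  have hmin : IsLocalMin (fun t : ℝ => (t ^ (n + k))⁻¹ * I - I + (t - 1) * J) 1 := by
    filter_upwards [lt_mem_nhds (show (0:ℝ) < 1 by norm_num)] with t ht
    simpa using key t ht
  have := hmin.hasDerivAt_eq_zero hd
  push_cast at this
  linarith

end Vale.Agent.P254
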