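import Mathlib

namespace Vale.Agent.P254

open Matrix
open scoped MatrixOrder ComplexOrder

/-- AM-GM for the eigenvalues of a positive semidefinite matrix. -/
lemma det_le_trace_pow {n : ℕ} (hn : 0 < n) {M : Matrix (Fin n) (Fin n) ℝ} (hM : M.PosSemidef) :
    M.det ≤ (M.trace / n) ^ n := by
  have hn' : (0 : ℝ) < n := by exact_mod_cast hn
  have h1 : M.det = ∏ i, hM.1.eigenvalues i := by
    have := hM.1.det_eq_prod_eigenvalues
    simpa using this
  have h2 : M.trace = ∑ i, hM.1.eigenvalues i := by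
    have := hM.1.trace_eq_sum_eigenvalues
    simpa using this
  have h0 : ∀ i, 0 ≤ hM.1.eigenvalues i := hM.eigenvalues_nonneg
  have h3 := Real.geom_mean_le_arith_mean_weighted Finset.univ (fun _ : Fin n => (1 : ℝ) / n)
    (fun i => hM.1.eigenvalues i) (fun _ _ => by positivity)
    (by simp [hn'.ne']) (fun i _ => h0 i)
  have h4 : ∏ i, (hM.1.eigenvalues i) ^ ((1 : ℝ) / n) = (∏ i, hM.1.eigenvalues i) ^ ((1 : ℝ) / n) :=
    Real.finsetProd_rpow _ _ (fun i _ => h0 i) _
  rw [h4] at h3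
  have h5 : ∑ i, (1 : ℝ) / n * hM.1.eigenvalues i = M.trace / n := by
    rw [h2, ← Finset.mul_sum]; ring
  rw [h5] at h3
  have hp : 0 ≤ ∏ i, hM.1.eigenvalues i := Finset.prod_nonneg (fun i _ => h0 i)
  rw [h1]
  calc ∏ i, hM.1.eigenvalues i = ((∏ i, hM.1.eigenvalues i) ^ ((1 : ℝ) / n)) ^ n := by
        rw [← Real.rpow_natCast, ← Real.rpow_mul hp]
        rw [one_div, inv_mul_cancel₀ hn'.ne', Real.rpow_one]
    _ ≤ (M.trace / n) ^ n := pow_le_pow_left₀ (Real.rpow_nonneg hp _) h3 n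

/-- `det B * det C ≤ (tr (B C) / n) ^ n` for positive semidefinite `B`, `C`. -/
lemma det_mul_det_le {n : ℕ} (hn : 0 < n) {B C : Matrix (Fin n) (Fin n) ℝ}
    (hB : B.PosSemidef) (hC : C.PosSemidef) :
    B.det * C.det ≤ ((B * C).trace / n) ^ n := by
  obtain ⟨S, rfl⟩ := CStarAlgebra.nonneg_iff_eq_star_mul_self.mp hB.nonneg
  have h1 : (S * C * Sᴴ).PosSemidef := hC.mul_mul_conjTranspose_same S
  have h2 := det_le_trace_pow hn h1
  have h3 : (star S * S).det * C.det = (S * C * Sᴴ).det := by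
    rw [star_eq_conjTranspose]
    simp only [det_mul]
    ring
  have h4 : (star S * S * C).trace = (S * C * Sᴴ).trace := by
    rw [star_eq_conjTranspose, Matrix.mul_assoc, Matrix.trace_mul_comm]
  rw [h3, h4]
  exact h2

end Vale.Agent.P254
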