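import Vale.Agent.P254.MaxPos

open MeasureTheory Set Matrix Filter Topology
open scoped Pointwise

namespace Vale.Agent.P254

variable {n : ℕ} {K : Set (Fin n → ℝ)}

/-- Barycentric coordinates with respect to the standard simplex. -/
noncomputable def lam (x : Fin n → ℝ) : Fin (n + 1) → ℝ := Fin.cons (1 - ∑ i, x i) x

lemma lam_zero (x : Fin n → ℝ) : lam x 0 = 1 - ∑ i, x i := rfl

lemma lam_succ (x : Fin n → ℝ) (i : Fin n) : lam x i.succ = x i := rfl

lemma lam_comb {a b : ℝ} (hab : a + b = 1) (x y : Fin n → ℝ) (l : Fin (n + 1)) :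
    lam (a • x + b • y) l = a * lam x l + b * lam y l := by
  refine Fin.cases ?_ (fun i => ?_) l
  · simp only [lam_zero, Pi.add_apply, Pi.smul_apply, smul_eq_mul, Finset.sum_add_distrib,
      ← Finset.mul_sum]
    linear_combination (-1 : ℝ) * hab
  · simp [lam_succ]

lemma mem_stdS_iff {x : Fin n → ℝ} : x ∈ stdS n ↔ ∀ l, 0 ≤ lam x l := by
  constructor
  · intro h l
    refine Fin.cases ?_ (fun i => ?_) l
    · rw [lam_zero]; linarith [h.2]
    · rw [lam_succ]; exact h.1 i
  · intro h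
    refine ⟨fun i => h i.succ, ?_⟩
    have := h 0
    rw [lam_zero] at this
    linarith

lemma sum_lam (x : Fin n → ℝ) : ∑ l, lam x l = 1 := by
  rw [Fin.sum_univ_succ]
  simp [lam_zero, lam_succ]

lemma lam_le_one {x : Fin n → ℝ} (hx : x ∈ stdS n) (l : Fin (n + 1)) : lam x l ≤ 1 := by
  rw [← sum_lam x]
  exact Finset.single_le_sum (f := lam x) (fun j _ => mem_stdS_iff.mp hx j) (Finset.mem_univ l)

lemma lam_stdV (k l : Fin (n + 1)) : lam (stdV n k) l = if l = k then 1 else 0 := by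
  refine Fin.cases ?_ (fun i => ?_) k
  · refine Fin.cases ?_ (fun j => ?_) l
    · simp [lam_zero, stdV_zero]
    · simp [lam_succ, stdV_zero]
  · refine Fin.cases ?_ (fun j => ?_) l
    · simp [lam_zero, stdV_succ, (Fin.succ_ne_zero i).symm]
    · simp [lam_succ, stdV_succ, Pi.single_apply]

lemma eq_sum_lam (x : Fin n → ℝ) : x = ∑ l, lam x l • stdV n l := by
  rw [Fin.sum_univ_succ]
  simp only [lam_zero, stdV_zero, smul_zero, zero_add, lam_succ, stdV_succ]
  ext j
  rw [Finset.sum_apply]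
  simp [Pi.single_apply]

/-- The simplex spanned by the facet centroids is `{all barycentric coordinates ≤ 1/n}`. -/
lemma inner_mem (hn : 0 < n) (hKv : Convex ℝ K) (h0 : (fun _ => 1 / (n : ℝ)) ∈ K)
    (hj : ∀ j : Fin n, Function.update (fun _ => 1 / (n : ℝ)) j 0 ∈ K)
    {z : Fin n → ℝ} (hz : ∀ l, lam z l ≤ 1 / (n : ℝ)) : z ∈ K := by
  have hn0 : (0 : ℝ) < n := by exact_mod_cast hn
  set γ : Fin (n + 1) → ℝ := fun l => 1 - n * lam z l with hγ
  set cc : Fin (n + 1) → (Fin n → ℝ) :=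
    Fin.cons (fun _ => 1 / (n : ℝ)) (fun j => Function.update (fun _ => 1 / (n : ℝ)) j 0) with hcc
  have hγ0 : ∀ l, 0 ≤ γ l := by
    intro l
    have := mul_le_mul_of_nonneg_left (hz l) hn0.le
    rw [mul_one_div_cancel hn0.ne'] at this
    simp only [hγ]; linarith
  have hγ1 : ∑ l, γ l = 1 := by
    simp only [hγ, Finset.sum_sub_distrib, ← Finset.mul_sum, sum_lam]
    simp
  have hccK : ∀ l, cc l ∈ K := by
    intro l
    refine Fin.cases ?_ (fun j => ?_) l
    · exact h0
    · exact hj j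
  have h := hKv.sum_mem (t := Finset.univ) (w := γ) (z := cc) (fun l _ => hγ0 l) hγ1
    (fun l _ => hccK l)
  convert h using 1
  ext i
  rw [Finset.sum_apply]
  have e : ∀ l, (γ l • cc l) i = γ l * (1 / n) - if l = i.succ then γ l * (1 / n) else 0 := by
    intro l
    refine Fin.cases ?_ (fun j => ?_) l
    · simp [hcc, (Fin.succ_ne_zero i).symm]
    · by_cases hji : j = i
      · subst hji; simp [hcc]
      · have : i ≠ j := fun h => hji h.symm
        simp [hcc, hji, this]
  simp_rw [e]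
  rw [Finset.sum_sub_distrib, ← Finset.sum_mul, hγ1]
  simp only [Finset.sum_ite_eq', Finset.mem_univ, if_true, hγ, lam_succ]
  field_simp
  ring

/-- `K` meets every corner of the simplex if the missing volume is small. -/
lemma exists_corner {τ : ℝ} (hτ0 : 0 < τ) (hτ1 : τ ≤ 1)
    (hvol : (volume (stdS n \ K)).toReal < τ ^ n * (volume (stdS n)).toReal) (k : Fin (n + 1)) :
    ∃ y ∈ K, y ∈ stdS n ∧ 1 - τ ≤ lam y k := by
  by_contra hcon
  push Not at hcon
  have hdet : (τ • (1 : Matrix (Fin n) (Fin n) ℝ)).det = τ ^ n := by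
    rw [det_smul, det_one, mul_one, Fintype.card_fin]
  have hdet0 : (τ • (1 : Matrix (Fin n) (Fin n) ℝ)).det ≠ 0 := by rw [hdet]; positivity
  have haff : ∀ x, aff (τ • (1 : Matrix (Fin n) (Fin n) ℝ)) ((1 - τ) • stdV n k) x
      = τ • x + (1 - τ) • stdV n k := by
    intro x; simp [aff, smul_mulVec]
  have hsub : aff (τ • (1 : Matrix (Fin n) (Fin n) ℝ)) ((1 - τ) • stdV n k) '' stdS n
      ⊆ stdS n \ K := by
    rintro _ ⟨x, hx, rfl⟩
    rw [haff]
    have hl : ∀ l, lam (τ • x + (1 - τ) • stdV n k) l = τ * lam x l + (1 - τ) * (if l = k then 1 else 0) := by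
      intro l; rw [lam_comb (by ring), lam_stdV]
    have hmem : τ • x + (1 - τ) • stdV n k ∈ stdS n := by
      rw [mem_stdS_iff]
      intro l
      rw [hl]
      have h1 := mem_stdS_iff.mp hx l
      have h2 : 0 ≤ (1 - τ) := by linarith
      split_ifs <;> positivity
    refine ⟨hmem, fun hK => ?_⟩
    have h3 := hcon _ hK hmem
    rw [hl, if_pos rfl] at h3
    have h1 := mem_stdS_iff.mp hx k
    nlinarith
  have hfin : volume (stdS n \ K) ≠ ⊤ :=
    ((measure_mono sdiff_subset).trans_lt (isCompact_stdS (n := n)).measure_lt_top).ne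
  have h1 := ENNReal.toReal_mono hfin (measure_mono hsub)
  rw [volume_aff_image hdet0 _ isCompact_stdS.measurableSet, hdet,
    abs_of_pos (by positivity)] at h1
  linarith

/-- If `K ⊆ stdS` is convex, contains all facet centroids and misses little volume, then `K`
contains the copy of the simplex shrunk by the factor `1/(1+ε)` about its centroid. -/
lemma shrunk_subset (hn : 0 < n) (hKv : Convex ℝ K)
    (h0 : (fun _ => 1 / (n : ℝ)) ∈ K)
    (hj : ∀ j : Fin n, Function.update (fun _ => 1 / (n : ℝ)) j 0 ∈ K) {ε : ℝ} (hε : 0 < ε)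
    (hvol : (volume (stdS n \ K)).toReal < (ε / (n + 1 + ε)) ^ n * (volume (stdS n)).toReal)
    {x : Fin n → ℝ} (hx : x ∈ stdS n) :
    (1 + ε)⁻¹ • x + (1 - (1 + ε)⁻¹) • (fun _ => 1 / ((n : ℝ) + 1)) ∈ K := by
  have hn0 : (0 : ℝ) < n := by exact_mod_cast hn
  set c : Fin n → ℝ := fun _ => 1 / ((n : ℝ) + 1) with hc
  set τ := ε / (n + 1 + ε) with hτ
  have hτ0 : 0 < τ := by positivity
  have hτ1 : τ ≤ 1 := by
    rw [hτ, div_le_one (by positivity)]; linarith
  have hlc : ∀ l, lam c l = 1 / ((n : ℝ) + 1) := by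
    intro l
    refine Fin.cases ?_ (fun i => ?_) l
    · simp only [lam_zero, hc, Finset.sum_const, Finset.card_univ, Fintype.card_fin, nsmul_eq_mul]
      field_simp
      ring
    · rfl
  set θ := ε / ((1 + ε) * (n + 1)) with hθ
  have hθ0 : 0 < θ := by positivity
  set α := 1 - n * θ with hα
  have h1ε : 0 < 1 + ε := by linarith
  have hnθ : n * θ < 1 := by
    rw [hθ, ← mul_div_assoc, div_lt_one (by positivity)]
    nlinarith
  have hα0 : 0 < α := by rw [hα]; linarith
  have hα1 : 1 - α = n * θ := by rw [hα]; ring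
  have hα1' : 0 < 1 - α := by rw [hα1]; positivity
  -- the shrunk vertices belong to K
  have hvert : ∀ k, (1 + ε)⁻¹ • stdV n k + (1 - (1 + ε)⁻¹) • c ∈ K := by
    intro k
    obtain ⟨y, hyK, hyS, hy⟩ := exists_corner hτ0 hτ1 hvol k
    set p := (1 + ε)⁻¹ • stdV n k + (1 - (1 + ε)⁻¹) • c with hp
    have hlp : ∀ l, lam p l = (1 + ε)⁻¹ * (if l = k then 1 else 0) + θ := by
      intro l
      rw [hp, lam_comb (by ring), lam_stdV, hlc, hθ]
      congr 1
      field_simp
      ring
    set z := (1 - α)⁻¹ • p + (1 - (1 - α)⁻¹) • y with hz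
    have hzK : z ∈ K := by
      refine inner_mem hn hKv h0 hj (fun l => ?_)
      rw [hz, lam_comb (by ring), hlp]
      have e : (1 - α)⁻¹ * ((1 + ε)⁻¹ * (if l = k then 1 else 0) + θ) + (1 - (1 - α)⁻¹) * lam y l
          = (1 - α)⁻¹ * ((1 + ε)⁻¹ * (if l = k then 1 else 0) + θ - α * lam y l) := by
        have : (1 : ℝ) = (1 - α)⁻¹ * (1 - α) := by rw [inv_mul_cancel₀ hα1'.ne']
        calc (1 - α)⁻¹ * ((1 + ε)⁻¹ * (if l = k then 1 else 0) + θ) + (1 - (1 - α)⁻¹) * lam y l
            = (1 - α)⁻¹ * ((1 + ε)⁻¹ * (if l = k then 1 else 0) + θ)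
              + ((1 - α)⁻¹ * (1 - α) - (1 - α)⁻¹) * lam y l := by rw [← this]
          _ = _ := by ring
      rw [e, inv_mul_le_iff₀ hα1', hα1]
      have hr : (n * θ) * (1 / (n : ℝ)) = θ := by field_simp
      rw [hr]
      by_cases hlk : l = k
      · subst hlk
        simp only [if_true, mul_one]
        have h3 : (1 + ε)⁻¹ + θ = α := by
          rw [hα, hθ]; field_simp; ring
        rw [h3]
        have h4 : α * (1 - τ) ≤ α * lam y l := mul_le_mul_of_nonneg_left hy hα0.le
        have h5 : α * τ = θ := by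
          rw [hα, hτ, hθ]; field_simp; ring
        nlinarith
      · simp only [if_neg hlk, mul_zero, zero_add]
        have := mem_stdS_iff.mp hyS l
        nlinarith [mul_nonneg hα0.le this]
    have hcomb := hKv hyK hzK hα0.le hα1'.le (by ring)
    have e2 : α • y + (1 - α) • z = p := by
      rw [hz]
      ext i
      simp only [Pi.add_apply, Pi.smul_apply, smul_eq_mul]
      field_simp
      ring
    rwa [e2] at hcomb
  have h := hKv.sum_mem (t := Finset.univ) (w := lam x)
    (z := fun k => (1 + ε)⁻¹ • stdV n k + (1 - (1 + ε)⁻¹) • c)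
    (fun l _ => mem_stdS_iff.mp hx l) (sum_lam x) (fun l _ => hvert l)
  convert h using 1
  simp_rw [smul_add]
  rw [Finset.sum_add_distrib]
  have e1 : ∑ l, lam x l • (1 + ε)⁻¹ • stdV n l = (1 + ε)⁻¹ • x := by
    conv_rhs => rw [eq_sum_lam x, Finset.smul_sum]
    refine Finset.sum_congr rfl (fun l _ => ?_)
    rw [smul_comm]
  have e2 : ∑ l, lam x l • (1 - (1 + ε)⁻¹) • c = (1 - (1 + ε)⁻¹) • c := by
    rw [← Finset.sum_smul, sum_lam, one_smul]
  rw [e1, e2]

end Vale.Agent.P254
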