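import Vale.Agent.P254.Moments
import Vale.Agent.P254.DetTrace

open MeasureTheory Set Matrix
open scoped Pointwise

namespace Vale.Agent.P254

variable {n : ℕ} {K : Set (Fin n → ℝ)}

lemma intOn (hK : IsCompact K) {f : (Fin n → ℝ) → ℝ} (hf : Continuous f) : IntegrableOn f K :=
  hf.continuousOn.integrableOn_compact hK

lemma cov_eq (hK : IsCompact K) (hV : (volume K).toReal ≠ 0) (i j : Fin n) :
    covMatrix K i j = (volume K).toReal⁻¹ * (∫ x in K, x i * x j) - centroid K i * centroid K j := by
  have e : ∫ x in K, (x i - centroid K i) * (x j - centroid K j)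
      = (∫ x in K, x i * x j) - centroid K j * (∫ x in K, x i) - centroid K i * (∫ x in K, x j)
        + (volume K).toReal * (centroid K i * centroid K j) := by
    have e1 : ∀ x : Fin n → ℝ, (x i - centroid K i) * (x j - centroid K j)
        = x i * x j - centroid K j * x i - centroid K i * x j + centroid K i * centroid K j := by
      intro x; ring
    simp_rw [e1]
    rw [integral_add, integral_sub, integral_sub, integral_const_mul, integral_const_mul,
      setIntegral_const, smul_eq_mul, Measure.real]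
    · exact intOn hK (by fun_prop)
    · exact intOn hK (by fun_prop)
    · exact intOn hK (by fun_prop)
    · exact intOn hK (by fun_prop)
    · exact intOn hK (by fun_prop)
    · exact intOn hK (by fun_prop)
  have hi : ∫ x in K, x i = (volume K).toReal * centroid K i := by
    simp only [centroid]; field_simp
  have hj : ∫ x in K, x j = (volume K).toReal * centroid K j := by
    simp only [centroid]; field_simp
  rw [covMatrix, e, hi, hj]
  field_simp
  ring

lemma covMatrix_symm (K : Set (Fin n → ℝ)) (i j : Fin n) : covMatrix K i j = covMatrix K j i := by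
  simp only [covMatrix]
  congr 1
  refine integral_congr_ae (Filter.Eventually.of_forall (fun x => ?_))
  simp only
  ring

lemma cov_quad (hK : IsCompact K) (y : Fin n → ℝ) :
    ∑ i, ∑ j, y i * covMatrix K i j * y j
      = (volume K).toReal⁻¹ * ∫ x in K, (∑ i, y i * (x i - centroid K i)) ^ 2 := by
  have e : ∀ x : Fin n → ℝ, (∑ i, y i * (x i - centroid K i)) ^ 2
      = ∑ i, ∑ j, y i * ((x i - centroid K i) * (x j - centroid K j)) * y j := by
    intro x
    rw [sq, Finset.sum_mul_sum]
    refine Finset.sum_congr rfl (fun i _ => Finset.sum_congr rfl (fun j _ => ?_))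
    ring
  simp_rw [e]
  rw [integral_finsetSum _ (fun i _ => intOn hK (by fun_prop)), Finset.mul_sum]
  refine Finset.sum_congr rfl (fun i _ => ?_)
  rw [integral_finsetSum _ (fun j _ => intOn hK (by fun_prop)), Finset.mul_sum]
  refine Finset.sum_congr rfl (fun j _ => ?_)
  simp only [covMatrix]
  rw [integral_mul_const, integral_const_mul]
  ring

lemma covMatrix_posSemidef (hK : IsCompact K) : (covMatrix K).PosSemidef := by
  refine PosSemidef.of_dotProduct_mulVec_nonneg ?_ (fun y => ?_)
  · ext i j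
    simp only [conjTranspose_apply, star_trivial]
    exact covMatrix_symm K j i
  · have e : star y ⬝ᵥ (covMatrix K *ᵥ y) = ∑ i, ∑ j, y i * covMatrix K i j * y j := by
      simp only [dotProduct, mulVec, star_trivial, Finset.mul_sum]
      refine Finset.sum_congr rfl (fun i _ => Finset.sum_congr rfl (fun j _ => ?_))
      ring
    rw [e, cov_quad hK]
    refine mul_nonneg (inv_nonneg.mpr ENNReal.toReal_nonneg) ?_
    exact integral_nonneg (fun x => sq_nonneg _)

/-- The inverse covariance matrix of the standard simplex. -/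
noncomputable def Bmat (n : ℕ) : Matrix (Fin n) (Fin n) ℝ :=
  fun i j => ((n : ℝ) + 1) * (n + 2) * (if i = j then 2 else 1)

lemma Bmat_posSemidef : (Bmat n).PosSemidef := by
  refine PosSemidef.of_dotProduct_mulVec_nonneg ?_ (fun y => ?_)
  · ext i j
    simp only [conjTranspose_apply, star_trivial, Bmat, eq_comm]
  · have e : star y ⬝ᵥ (Bmat n *ᵥ y) = ((n : ℝ) + 1) * (n + 2) * ((∑ i, y i) ^ 2 + ∑ i, y i ^ 2) := by
      simp only [dotProduct, mulVec, star_trivial, Bmat]
      have h1 : ∀ i, ∑ j, ((n : ℝ) + 1) * (n + 2) * (if i = j then 2 else 1) * y j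
          = ((n : ℝ) + 1) * (n + 2) * (∑ j, y j + y i) := by
        intro i
        have : ∀ j, ((n : ℝ) + 1) * (n + 2) * (if i = j then 2 else 1) * y j
            = ((n : ℝ) + 1) * (n + 2) * (y j + if i = j then y j else 0) := by
          intro j; split_ifs <;> ring
        simp_rw [this]
        rw [← Finset.mul_sum, Finset.sum_add_distrib]
        simp
      simp_rw [h1]
      have h2 : ∀ i, y i * (((n : ℝ) + 1) * (n + 2) * (∑ j, y j + y i))
          = ((n : ℝ) + 1) * (n + 2) * (y i * ∑ j, y j + y i ^ 2) := by intro i; ring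
      simp_rw [h2]
      rw [← Finset.mul_sum, Finset.sum_add_distrib, ← Finset.sum_mul]
      ring
    rw [e]
    have : 0 ≤ ∑ i, y i ^ 2 := Finset.sum_nonneg (fun i _ => sq_nonneg _)
    positivity

lemma trace_Bmat_mul (C : Matrix (Fin n) (Fin n) ℝ) :
    (Bmat n * C).trace = ((n : ℝ) + 1) * (n + 2) * (∑ i, C i i + ∑ i, ∑ j, C j i) := by
  simp only [trace, diag_apply, mul_apply, Bmat]
  have h1 : ∀ i, ∑ j, ((n : ℝ) + 1) * (n + 2) * (if i = j then 2 else 1) * C j i
      = ((n : ℝ) + 1) * (n + 2) * (C i i + ∑ j, C j i) := by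
    intro i
    have : ∀ j, ((n : ℝ) + 1) * (n + 2) * (if i = j then 2 else 1) * C j i
        = ((n : ℝ) + 1) * (n + 2) * ((if i = j then C j i else 0) + C j i) := by
      intro j; split_ifs <;> ring
    simp_rw [this]
    rw [← Finset.mul_sum, Finset.sum_add_distrib]
    simp
  simp_rw [h1]
  rw [← Finset.mul_sum, Finset.sum_add_distrib]

lemma centroid_stdS (i : Fin n) : centroid (stdS n) i = 1 / ((n : ℝ) + 1) := by
  simp only [centroid, volume_stdS, integral_stdS_x, Nat.factorial_succ]
  push_cast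
  have : (n.factorial : ℝ) ≠ 0 := by positivity
  field_simp

lemma cov_stdS (i j : Fin n) :
    covMatrix (stdS n) i j
      = (if i = j then 2 else 1) / (((n : ℝ) + 1) * (n + 2)) - 1 / ((n : ℝ) + 1) ^ 2 := by
  rw [cov_eq isCompact_stdS volume_stdS_pos.ne', centroid_stdS, centroid_stdS, integral_stdS_xx,
    volume_stdS]
  simp only [Nat.factorial_succ]
  push_cast
  have : (n.factorial : ℝ) ≠ 0 := by positivity
  split_ifs <;> field_simp <;> ring

lemma Bmat_mul_cov : Bmat n * covMatrix (stdS n) = 1 := by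
  ext i j
  rw [mul_apply]
  have hn1 : ((n : ℝ) + 1) ≠ 0 := by positivity
  have hn2 : ((n : ℝ) + 2) ≠ 0 := by positivity
  have : ∀ k, Bmat n i k * covMatrix (stdS n) k j
      = ((if k = j then 1 else 0) + (1 - ((n : ℝ) + 2) / (n + 1)))
        + (if i = k then ((if k = j then 1 else 0) + (1 - ((n : ℝ) + 2) / (n + 1))) else 0) := by
    intro k
    rw [cov_stdS, Bmat]
    split_ifs <;> field_simp <;> ring
  simp_rw [this]
  rw [Finset.sum_add_distrib, Finset.sum_add_distrib]
  simp only [Finset.sum_ite_eq, Finset.sum_ite_eq', Finset.mem_univ, if_true, Finset.sum_const,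
    Finset.card_univ, Fintype.card_fin, nsmul_eq_mul, one_apply]
  split_ifs <;> field_simp <;> ring

lemma det_B_mul_det_cov : (Bmat n).det * (covMatrix (stdS n)).det = 1 := by
  rw [← det_mul, Bmat_mul_cov, det_one]

/-- sum of squares of the barycentric coordinates with respect to `stdS n`. -/
noncomputable def qq (x : Fin n → ℝ) : ℝ := ∑ i, x i ^ 2 + (1 - ∑ i, x i) ^ 2

lemma continuous_qq : Continuous (qq : (Fin n → ℝ) → ℝ) := by
  unfold qq; fun_prop

lemma integral_stdS_qq :
    ∫ x in stdS n, qq x = (volume (stdS n)).toReal * (2 / ((n : ℝ) + 2)) := by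
  have e : ∀ x : Fin n → ℝ, qq x = ∑ i, x i * x i + ∑ i, ∑ j, x i * x j - 2 * ∑ i, x i + 1 := by
    intro x
    simp only [qq]
    rw [← Finset.sum_mul_sum]
    simp_rw [← sq]
    ring
  simp_rw [e]
  have hc := isCompact_stdS (n := n)
  rw [integral_add (intOn hc (by fun_prop)) (intOn hc (by fun_prop)),
    integral_sub (intOn hc (by fun_prop)) (intOn hc (by fun_prop)),
    integral_add (intOn hc (by fun_prop)) (intOn hc (by fun_prop)),
    integral_finsetSum _ (fun i _ => intOn hc (by fun_prop)),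
    integral_finsetSum _ (fun i _ => intOn hc (by fun_prop)),
    integral_const_mul,
    integral_finsetSum _ (fun i _ => intOn hc (by fun_prop)), setIntegral_const, smul_eq_mul]
  have h2 : ∀ i : Fin n, ∫ x in stdS n, ∑ j, x i * x j = ((n : ℝ) + 1) / ((n + 2).factorial : ℝ) := by
    intro i
    rw [integral_finsetSum _ (fun i _ => intOn hc (by fun_prop))]
    simp_rw [integral_stdS_xx]
    have : ∀ j : Fin n, (if i = j then (2 : ℝ) else 1) / ((n + 2).factorial : ℝ)
        = ((if i = j then 1 else 0) + 1) / ((n + 2).factorial : ℝ) := by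
      intro j; split_ifs <;> norm_num
    simp_rw [this]
    rw [← Finset.sum_div, Finset.sum_add_distrib]
    simp [add_comm]
  simp_rw [h2, integral_stdS_xx, integral_stdS_x]
  simp only [if_true, Finset.sum_const, Finset.card_univ, Fintype.card_fin, nsmul_eq_mul,
    Measure.real, volume_stdS, Nat.factorial_succ]
  push_cast
  have : (n.factorial : ℝ) ≠ 0 := by positivity
  field_simp
  ring

/-- The trace criterion. -/
lemma trace_le (hK : IsCompact K) (hV : 0 < (volume K).toReal) :
    (Bmat n * covMatrix K).trace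
      ≤ ((n : ℝ) + 1) * (n + 2) * ((volume K).toReal⁻¹ * (∫ x in K, qq x) - 1 / ((n : ℝ) + 1)) := by
  rw [trace_Bmat_mul]
  have hn1 : ((n : ℝ) + 1) ≠ 0 := by positivity
  refine mul_le_mul_of_nonneg_left ?_ (by positivity)
  set b := centroid K with hb
  set V := (volume K).toReal with hVd
  have hx : ∀ i, ∫ x in K, x i = V * b i := by
    intro i; simp only [hb, centroid, ← hVd]; field_simp
  have e : ∀ x : Fin n → ℝ, qq x = ∑ i, x i * x i + ∑ i, ∑ j, x j * x i - 2 * ∑ i, x i + 1 := by
    intro x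
    simp only [qq]
    rw [Finset.sum_comm, ← Finset.sum_mul_sum]
    simp_rw [← sq]
    ring
  have hq : V⁻¹ * ∫ x in K, qq x = ∑ i, V⁻¹ * (∫ x in K, x i * x i)
      + ∑ i, ∑ j, V⁻¹ * (∫ x in K, x j * x i) - 2 * ∑ i, b i + 1 := by
    simp_rw [e]
    rw [integral_add (intOn hK (by fun_prop)) (intOn hK (by fun_prop)),
      integral_sub (intOn hK (by fun_prop)) (intOn hK (by fun_prop)),
      integral_add (intOn hK (by fun_prop)) (intOn hK (by fun_prop)),
      integral_finsetSum _ (fun i _ => intOn hK (by fun_prop)),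
      integral_finsetSum _ (fun i _ => intOn hK (by fun_prop)),
      integral_const_mul,
      integral_finsetSum _ (fun i _ => intOn hK (by fun_prop)), setIntegral_const, smul_eq_mul]
    have : ∀ i : Fin n, ∫ x in K, ∑ j, x j * x i = ∑ j, ∫ x in K, x j * x i := by
      intro i
      rw [integral_finsetSum _ (fun i _ => intOn hK (by fun_prop))]
    simp_rw [this, hx, ← Finset.mul_sum]
    simp only [Measure.real, ← hVd]
    field_simp
  rw [hq]
  simp_rw [cov_eq hK hV.ne', ← hb, ← hVd]
  rw [Finset.sum_sub_distrib]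
  simp_rw [Finset.sum_sub_distrib]
  have h1 : ∑ i, ∑ j, b j * b i = (∑ i, b i) ^ 2 := by
    rw [Finset.sum_comm, ← Finset.sum_mul_sum, sq]
  have h2 : 0 ≤ ∑ i, (b i - 1 / ((n : ℝ) + 1)) ^ 2 + (∑ i, (b i - 1 / ((n : ℝ) + 1))) ^ 2 := by
    have : 0 ≤ ∑ i, (b i - 1 / ((n : ℝ) + 1)) ^ 2 := Finset.sum_nonneg (fun i _ => sq_nonneg _)
    positivity
  have h3 : ∑ i, (b i - 1 / ((n : ℝ) + 1)) ^ 2 + (∑ i, (b i - 1 / ((n : ℝ) + 1))) ^ 2
      = ∑ i, b i * b i + (∑ i, b i) ^ 2 - 2 * ∑ i, b i + 1 - 1 / ((n : ℝ) + 1) := by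
    have e4 : ∀ i, (b i - 1 / ((n : ℝ) + 1)) ^ 2
        = b i * b i - 2 / ((n : ℝ) + 1) * b i + 1 / ((n : ℝ) + 1) ^ 2 := by
      intro i; field_simp; ring
    simp_rw [e4]
    rw [Finset.sum_add_distrib, Finset.sum_sub_distrib, ← Finset.mul_sum, Finset.sum_sub_distrib]
    simp only [Finset.sum_const, Finset.card_univ, Fintype.card_fin, nsmul_eq_mul]
    field_simp
    ring
  rw [h1]
  rw [h3] at h2
  linarith

/-- **Criterion.** If `K ⊆ stdS` is compact with positive volume and the integral of
`qq - 2/(n+1)` over the missing part `stdS \ K` is nonnegative, then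
`det Σ_K / |K|² ≤ det Σ_Δ / |Δ|²`, with strict inequality as soon as `|K| < |Δ|`. -/
lemma criterion (hn : 0 < n) (hK : IsCompact K) (hV : 0 < (volume K).toReal) (hsub : K ⊆ stdS n)
    (H : 0 ≤ ∫ x in stdS n \ K, (qq x - 2 / ((n : ℝ) + 1))) :
    (covMatrix K).det / (volume K).toReal ^ 2
        ≤ (covMatrix (stdS n)).det / (volume (stdS n)).toReal ^ 2 ∧
      ((volume K).toReal < (volume (stdS n)).toReal →
        (covMatrix K).det / (volume K).toReal ^ 2
          < (covMatrix (stdS n)).det / (volume (stdS n)).toReal ^ 2) := by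
  set V := (volume K).toReal with hVd
  set W := (volume (stdS n)).toReal with hWd
  have hW : 0 < W := volume_stdS_pos
  have hn0 : (0 : ℝ) < n := by exact_mod_cast hn
  have hfin : volume (stdS n) ≠ ⊤ := isCompact_stdS.measure_ne_top
  have hVW : V ≤ W := ENNReal.toReal_mono hfin (measure_mono hsub)
  -- the integral of `qq` over `K`
  have hcq := continuous_qq (n := n)
  have hdiff : ∫ x in stdS n \ K, (qq x - 2 / ((n : ℝ) + 1))
      = (∫ x in stdS n, (qq x - 2 / ((n : ℝ) + 1))) - ∫ x in K, (qq x - 2 / ((n : ℝ) + 1)) :=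
    setIntegral_sdiff₀ hK.measurableSet.nullMeasurableSet
      (intOn isCompact_stdS (by fun_prop)) hsub
  rw [hdiff, integral_sub (intOn isCompact_stdS hcq) (intOn isCompact_stdS (by fun_prop)),
    integral_sub (intOn hK hcq) (intOn hK (by fun_prop)), setIntegral_const, setIntegral_const,
    integral_stdS_qq] at H
  simp only [Measure.real, smul_eq_mul, ← hVd, ← hWd] at H
  have hn1 : (0 : ℝ) < (n : ℝ) + 1 := by positivity
  have hn2 : (0 : ℝ) < (n : ℝ) + 2 := by positivity
  set Q := ∫ x in K, qq x with hQ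
  set p := V / W with hp
  have hp0 : 0 < p := div_pos hV hW
  have hp1 : p ≤ 1 := (div_le_one hW).mpr hVW
  have hVp : V = p * W := by rw [hp]; field_simp
  -- bound on the normalised trace
  set X := (Bmat n * covMatrix K).trace / n with hX
  have htr := trace_le hK hV
  have hX1 : X ≤ (1 / p) * (1 + (1 + 2 / (n : ℝ)) * (p - 1)) := by
    have h1 : V⁻¹ * Q - 1 / ((n : ℝ) + 1) ≤ (1 / ((n : ℝ) + 1)) * ((1 / p) * (p - 2 / ((n : ℝ) + 2))) := by
      have hQle : Q ≤ W * (2 / ((n : ℝ) + 2)) - W * (2 / ((n : ℝ) + 1)) + V * (2 / ((n : ℝ) + 1)) := by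
        linarith
      have : V⁻¹ * Q ≤ V⁻¹ * (W * (2 / ((n : ℝ) + 2)) - W * (2 / ((n : ℝ) + 1))
          + V * (2 / ((n : ℝ) + 1))) := mul_le_mul_of_nonneg_left hQle (inv_nonneg.mpr hV.le)
      refine (sub_le_sub_right this _).trans (le_of_eq ?_)
      rw [hVp]
      field_simp
      ring
    have h2 : (Bmat n * covMatrix K).trace
        ≤ ((n : ℝ) + 1) * (n + 2) * ((1 / ((n : ℝ) + 1)) * ((1 / p) * (p - 2 / ((n : ℝ) + 2)))) :=
      htr.trans (mul_le_mul_of_nonneg_left h1 (by positivity))
    rw [hX, div_le_iff₀ hn0]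
    refine h2.trans (le_of_eq ?_)
    field_simp
    ring
  have hC := covMatrix_posSemidef hK
  have hX0 : 0 ≤ X := by
    rw [hX, trace_Bmat_mul]
    have h1 : 0 ≤ ∑ i, covMatrix K i i := Finset.sum_nonneg (fun i _ => hC.diag_nonneg)
    have h2 : 0 ≤ ∑ i, ∑ j, covMatrix K j i := by
      have := cov_quad hK (fun _ => (1 : ℝ))
      simp only [one_mul, mul_one] at this
      rw [Finset.sum_comm, this]
      exact mul_nonneg (inv_nonneg.mpr ENNReal.toReal_nonneg) (integral_nonneg (fun x => sq_nonneg _))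
    positivity
  have hdet := det_mul_det_le hn Bmat_posSemidef hC
  rw [← hX] at hdet
  -- Bernoulli
  have hB : 1 + (1 + 2 / (n : ℝ)) * (p - 1) ≤ p ^ (1 + 2 / (n : ℝ)) := by
    have := one_add_mul_self_le_rpow_one_add (s := p - 1) (by linarith) (p := 1 + 2 / (n : ℝ))
      (by have : 0 < 2 / (n : ℝ) := by positivity
          linarith)
    rwa [add_sub_cancel] at this
  have hpow : (1 / p) * p ^ (1 + 2 / (n : ℝ)) = p ^ (2 / (n : ℝ)) := by
    rw [Real.rpow_add hp0, Real.rpow_one]; field_simp
  have hX2 : X ≤ p ^ (2 / (n : ℝ)) := by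
    rw [← hpow]
    exact hX1.trans (mul_le_mul_of_nonneg_left hB (by positivity))
  have hpn : (p ^ (2 / (n : ℝ))) ^ n = p ^ 2 := by
    rw [← Real.rpow_natCast, ← Real.rpow_mul hp0.le, div_mul_cancel₀ _ hn0.ne']
    norm_num
  have hdetB : 0 < (Bmat n).det := by
    have h1 := det_B_mul_det_cov (n := n)
    have h2 : 0 ≤ (Bmat n).det := Bmat_posSemidef.det_nonneg
    rcases h2.lt_or_eq with h | h
    · exact h
    · rw [← h, zero_mul] at h1; norm_num at h1
  have hdetC : (covMatrix (stdS n)).det = ((Bmat n).det)⁻¹ := by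
    exact eq_inv_of_mul_eq_one_right det_B_mul_det_cov
  have final : ∀ D : ℝ, (Bmat n).det * D ≤ p ^ 2 → D / V ^ 2 ≤ ((Bmat n).det)⁻¹ / W ^ 2 := by
    intro D hD
    rw [hVp, div_le_div_iff₀ (by positivity) (by positivity), inv_mul_eq_div, le_div_iff₀ hdetB]
    nlinarith [mul_le_mul_of_nonneg_right hD (sq_nonneg W)]
  have final' : ∀ D : ℝ, (Bmat n).det * D < p ^ 2 → D / V ^ 2 < ((Bmat n).det)⁻¹ / W ^ 2 := by
    intro D hD
    rw [hVp, div_lt_div_iff₀ (by positivity) (by positivity), inv_mul_eq_div, lt_div_iff₀ hdetB]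
    have hW2 : 0 < W ^ 2 := by positivity
    nlinarith [mul_lt_mul_of_pos_right hD hW2]
  rw [hdetC]
  refine ⟨final _ (hdet.trans ?_), fun hlt => final' _ (hdet.trans_lt ?_)⟩
  · rw [← hpn]
    exact pow_le_pow_left₀ hX0 hX2 n
  · rw [← hpn]
    have hp1' : p < 1 := (div_lt_one hW).mpr hlt
    have hB' : 1 + (1 + 2 / (n : ℝ)) * (p - 1) < p ^ (1 + 2 / (n : ℝ)) := by
      have := one_add_mul_self_lt_rpow_one_add (s := p - 1) (by linarith) (by linarith)
        (p := 1 + 2 / (n : ℝ)) (by have : 0 < 2 / (n : ℝ) := by positivity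
                                   linarith)
      rwa [add_sub_cancel] at this
    have hX3 : X < p ^ (2 / (n : ℝ)) := by
      rw [← hpow]
      exact hX1.trans_lt (mul_lt_mul_of_pos_left hB' (by positivity))
    exact pow_lt_pow_left₀ hX3 hX0 hn.ne'

/-- The criterion in terms of the isotropic constant. -/
lemma isoConst_criterion (hn : 0 < n) (hK : IsCompact K) (hV : 0 < (volume K).toReal)
    (hsub : K ⊆ stdS n) (H : 0 ≤ ∫ x in stdS n \ K, (qq x - 2 / ((n : ℝ) + 1))) :
    isoConst K ≤ isoConst (stdS n) ∧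
      ((volume K).toReal < (volume (stdS n)).toReal → isoConst K < isoConst (stdS n)) := by
  obtain ⟨h1, h2⟩ := criterion hn hK hV hsub H
  have hn0 : (0 : ℝ) < n := by exact_mod_cast hn
  have h0 : 0 ≤ (covMatrix K).det / (volume K).toReal ^ 2 :=
    div_nonneg (covMatrix_posSemidef hK).det_nonneg (by positivity)
  refine ⟨Real.rpow_le_rpow h0 h1 (by positivity), fun hlt => ?_⟩
  exact Real.rpow_lt_rpow h0 (h2 hlt) (by positivity)

end Vale.Agent.P254
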