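import Vale.Agent.P254.Main

open MeasureTheory Set Matrix Filter Topology
open scoped Pointwise

namespace Vale.Agent.P254

variable {n : ℕ} {K : Set (Fin n → ℝ)}

/-! ### Determinants of substochastic matrices -/

lemma abs_det_le_prod_sum {m : ℕ} (A : Matrix (Fin m) (Fin m) ℝ) :
    |A.det| ≤ ∏ i, ∑ j, |A i j| := by
  have h1 : |A.det| ≤ ∑ σ : Equiv.Perm (Fin m), ∏ i, |A i (σ i)| := by
    rw [← det_transpose, det_apply]
    refine (Finset.abs_sum_le_sum_abs _ _).trans (Finset.sum_le_sum fun σ _ => ?_)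
    have : |Equiv.Perm.sign σ • ∏ i, Aᵀ (σ i) i| = ∏ i, |A i (σ i)| := by
      rw [Units.smul_def, zsmul_eq_mul, abs_mul, Finset.abs_prod]
      have hs : |((Equiv.Perm.sign σ : ℤ) : ℝ)| = 1 := by
        rcases Int.units_eq_one_or (Equiv.Perm.sign σ) with h | h <;> rw [h] <;> simp
      rw [hs, one_mul]
      rfl
    rw [this]
  refine h1.trans ?_
  rw [Finset.prod_univ_sum]
  have h2 : ∑ σ : Equiv.Perm (Fin m), ∏ i, |A i (σ i)| =
      ∑ p ∈ Finset.image (fun (σ : Equiv.Perm (Fin m)) => (⇑σ : Fin m → Fin m)) Finset.univ,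
        ∏ i, |A i (p i)| := by
    rw [Finset.sum_image]
    intro σ _ τ _ h
    exact Equiv.coe_fn_injective h
  rw [h2]
  refine Finset.sum_le_sum_of_subset_of_nonneg ?_ fun p _ _ => Finset.prod_nonneg fun i _ => abs_nonneg _
  intro p _
  simp

/-- The probability that exactly one of a family of independent events of probability at most
`c ∈ [1/2, 1]` occurs is at most `c`. -/
lemma exactly_one_le {ι : Type*} [DecidableEq ι] (m : ι → ℝ) {c : ℝ} (hc : 1 / 2 ≤ c) (hc1 : c ≤ 1)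
    (s : Finset ι) (h0 : ∀ i ∈ s, 0 ≤ m i) (h1 : ∀ i ∈ s, m i ≤ c) :
    0 ≤ ∑ k ∈ s, m k * ∏ r ∈ s.erase k, (1 - m r) ∧
    0 ≤ ∏ r ∈ s, (1 - m r) ∧
    ∑ k ∈ s, m k * ∏ r ∈ s.erase k, (1 - m r) ≤ c ∧
    ∑ k ∈ s, m k * ∏ r ∈ s.erase k, (1 - m r) + ∏ r ∈ s, (1 - m r) ≤ 1 := by
  induction s using Finset.induction_on with
  | empty => simp; linarith
  | insert i s hi ih =>
    obtain ⟨hb0, ha0, hbc, hab⟩ := ih (fun j hj => h0 j (Finset.mem_insert_of_mem hj))
      (fun j hj => h1 j (Finset.mem_insert_of_mem hj))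
    have hm0 := h0 i (Finset.mem_insert_self i s)
    have hm1 := h1 i (Finset.mem_insert_self i s)
    set a := ∏ r ∈ s, (1 - m r) with ha
    set b := ∑ k ∈ s, m k * ∏ r ∈ s.erase k, (1 - m r) with hb
    have e1 : ∏ r ∈ insert i s, (1 - m r) = (1 - m i) * a := Finset.prod_insert hi
    have e2 : ∑ k ∈ insert i s, m k * ∏ r ∈ (insert i s).erase k, (1 - m r) = m i * a + (1 - m i) * b := by
      rw [Finset.sum_insert hi, Finset.erase_insert hi]
      congr 1
      rw [hb, Finset.mul_sum]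
      refine Finset.sum_congr rfl fun k hk => ?_
      have hik : i ≠ k := fun h => hi (h ▸ hk)
      have : (insert i s).erase k = insert i (s.erase k) := Finset.erase_insert_of_ne hik
      rw [this, Finset.prod_insert (fun h => hi (Finset.mem_of_mem_erase h))]
      ring
    rw [e1, e2]
    have hmi : 0 ≤ 1 - m i := by linarith
    refine ⟨by positivity, by positivity, ?_, ?_⟩
    · -- m a + (1-m) b ≤ m (1 - b) + (1 - m) b ≤ c
      have h2 : m i * a ≤ m i * (1 - b) := mul_le_mul_of_nonneg_left (by linarith) hm0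
      have h3 : m i * (1 - b) + (1 - m i) * b ≤ c := by
        -- m + b - 2 m b ≤ c  on [0,c]^2
        nlinarith [mul_nonneg (sub_nonneg.2 hm1) (sub_nonneg.2 hbc), mul_nonneg hm0 (sub_nonneg.2 hbc),
          mul_nonneg hb0 (sub_nonneg.2 hm1), mul_nonneg hm0 hb0,
          mul_nonneg (mul_nonneg hm0 hb0) (by linarith : (0:ℝ) ≤ 2 * c - 1)]
      linarith
    · nlinarith

lemma abs_det_le_of_col_le {M : Matrix (Fin (n + 1)) (Fin (n + 1)) ℝ} (h0 : ∀ k l, 0 ≤ M k l)
    (h1 : ∀ k, ∑ l, M k l = 1) (l : Fin (n + 1)) {c : ℝ} (hc : 1 / 2 ≤ c) (hc1 : c ≤ 1)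
    (hl : ∀ k, M k l ≤ c) : |M.det| ≤ c := by
  rw [det_succ_column M l]
  have key := (exactly_one_le (fun k => M k l) hc hc1 Finset.univ (fun k _ => h0 k l)
    (fun k _ => hl k)).2.2.1
  refine (Finset.abs_sum_le_sum_abs _ _).trans (le_trans (Finset.sum_le_sum fun k _ => ?_) key)
  rw [abs_mul, abs_mul, abs_pow, abs_neg, abs_one, one_pow, one_mul, abs_of_nonneg (h0 k l)]
  refine mul_le_mul_of_nonneg_left ?_ (h0 k l)
  refine (abs_det_le_prod_sum _).trans (le_of_eq ?_)
  have e1 : Finset.univ.erase k = Finset.univ.image k.succAbove := by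
    rw [Fin.image_succAbove_univ]
    ext x; simp
  rw [e1, Finset.prod_image (fun a _ b _ h => Fin.succAbove_right_injective h)]
  refine Finset.prod_congr rfl fun r _ => ?_
  have h2 := h1 (k.succAbove r)
  rw [Fin.sum_univ_succAbove _ l] at h2
  have : ∀ j, |M.submatrix k.succAbove l.succAbove r j| = M (k.succAbove r) (l.succAbove j) := by
    intro j
    rw [submatrix_apply, abs_of_nonneg (h0 _ _)]
  simp only [this]
  linarith

/-- The matrix of barycentric coordinates of the vertices of `aff A b '' stdS n`. -/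
noncomputable def baryM (A : Matrix (Fin n) (Fin n) ℝ) (b : Fin n → ℝ) :
    Matrix (Fin (n + 1)) (Fin (n + 1)) ℝ := fun k l => lam (aff A b (stdV n k)) l

lemma det_baryM (A : Matrix (Fin n) (Fin n) ℝ) (b : Fin n → ℝ) : (baryM A b).det = A.det := by
  set M := baryM A b with hM
  -- subtract the first row
  set B : Matrix (Fin (n + 1)) (Fin (n + 1)) ℝ := fun k l => if k = 0 then M 0 l else M k l - M 0 l with hB
  have h1 : M.det = B.det := by
    refine det_eq_of_forall_row_eq_smul_add_const (fun k => if k = 0 then 0 else 1) 0 (by simp) ?_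
    intro k l
    by_cases hk : k = 0
    · subst hk; simp [hB]
    · simp [hB, hk]
  have h2 := det_updateCol_sum B 0 (fun _ => 1)
  rw [one_smul] at h2
  rw [h1, ← h2, det_succ_column_zero, Fin.sum_univ_succ]
  have hrow : ∀ k : Fin n, ∀ l, B k.succ l = lam (aff A b (stdV n k.succ)) l - lam (aff A b (stdV n 0)) l := by
    intro k l
    simp only [hB, Fin.succ_ne_zero, if_false]
    rfl
  have hc0 : ∀ k : Fin (n + 1), (B.updateCol 0 fun k => ∑ i, (1:ℝ) • B k i) k 0 = if k = 0 then 1 else 0 := by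
    intro k
    rw [updateCol_self]
    simp only [one_smul]
    refine Fin.cases ?_ (fun k => ?_) k
    · rw [if_pos rfl]
      have : ∀ i, B 0 i = lam (aff A b (stdV n 0)) i := fun i => by simp [hB]; rfl
      simp only [this, sum_lam]
    · rw [if_neg (Fin.succ_ne_zero k)]
      simp only [hrow, Finset.sum_sub_distrib, sum_lam, sub_self]
  have hz : ∀ k : Fin n, (-1:ℝ) ^ ((k.succ : Fin (n+1)) : ℕ) *
      (B.updateCol 0 fun k => ∑ i, (1:ℝ) • B k i) k.succ 0 *
      ((B.updateCol 0 fun k => ∑ i, (1:ℝ) • B k i).submatrix k.succ.succAbove Fin.succ).det = 0 := by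
    intro k
    rw [hc0, if_neg (Fin.succ_ne_zero k)]
    ring
  rw [Finset.sum_eq_zero (fun k _ => hz k), add_zero, hc0, if_pos rfl]
  simp only [Fin.val_zero, pow_zero, one_mul]
  have : (B.updateCol 0 fun k => ∑ i, (1:ℝ) • B k i).submatrix (Fin.succAbove 0) Fin.succ = Aᵀ := by
    ext k l
    rw [submatrix_apply, Fin.zero_succAbove, updateCol_ne (Fin.succ_ne_zero l), hrow, lam_succ, lam_succ,
      stdV_zero, stdV_succ, aff_apply, aff_apply]
    simp [Pi.single_apply]
  rw [this, det_transpose]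

/-- A simplex inside `stdS` with almost the same volume has a vertex near each vertex. -/
lemma exists_vertex_near {A : Matrix (Fin n) (Fin n) ℝ} {b : Fin n → ℝ}
    (hsub : aff A b '' stdS n ⊆ stdS n) {τ : ℝ} (hτ0 : 0 ≤ τ) (hτ : τ ≤ 1 / 2) (hdet : 1 - τ < |A.det|)
    (l : Fin (n + 1)) : ∃ k, 1 - τ ≤ lam (aff A b (stdV n k)) l := by
  by_contra hcon
  push Not at hcon
  have hmem : ∀ k, aff A b (stdV n k) ∈ stdS n := by
    intro k
    refine hsub (mem_image_of_mem _ ?_)
    rw [mem_stdS_iff]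
    intro l
    rw [lam_stdV]
    split_ifs <;> norm_num
  have := abs_det_le_of_col_le (M := baryM A b) (fun k l => mem_stdS_iff.mp (hmem k) l)
    (fun k => sum_lam _) l (c := 1 - τ) (by linarith) (by linarith) (fun k => (hcon k).le)
  rw [det_baryM] at this
  linarith

/-- version of `shrunk_subset` with the corner condition as hypothesis -/
lemma shrunk_of_corner (hn : 0 < n) (hKv : Convex ℝ K)
    (h0 : (fun _ => 1 / (n : ℝ)) ∈ K)
    (hj : ∀ j : Fin n, Function.update (fun _ => 1 / (n : ℝ)) j 0 ∈ K) {ε : ℝ} (hε : 0 < ε)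
    (hcorner : ∀ k, ∃ y ∈ K, y ∈ stdS n ∧ 1 - ε / (n + 1 + ε) ≤ lam y k)
    {x : Fin n → ℝ} (hx : x ∈ stdS n) :
    (1 + ε)⁻¹ • x + (1 - (1 + ε)⁻¹) • (fun _ => 1 / ((n : ℝ) + 1)) ∈ K := by
  have hn0 : (0 : ℝ) < n := by exact_mod_cast hn
  set c : Fin n → ℝ := fun _ => 1 / ((n : ℝ) + 1) with hc
  set τ := ε / (n + 1 + ε) with hτ
  have hτ0 : 0 < τ := by positivity
  have hτ1 : τ ≤ 1 := by
    rw [hτ, div_le_one (by positivity)]; linarith
  have hlc : ∀ l, lam c l = 1 / ((n : ℝ) + 1) := by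
    intro l
    refine Fin.cases ?_ (fun i => ?_) l
    · simp only [lam_zero, hc, Finset.sum_const, Finset.card_univ, Fintype.card_fin, nsmul_eq_mul]
      field_simp
      ring
    · rfl
  set θ := ε / ((1 + ε) * (n + 1)) with hθ
  have hθ0 : 0 < θ := by positivity
  set α := 1 - n * θ with hα
  have h1ε : 0 < 1 + ε := by linarith
  have hnθ : n * θ < 1 := by
    rw [hθ, ← mul_div_assoc, div_lt_one (by positivity)]
    nlinarith
  have hα0 : 0 < α := by rw [hα]; linarith
  have hα1 : 1 - α = n * θ := by rw [hα]; ring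
  have hα1' : 0 < 1 - α := by rw [hα1]; positivity
  -- the shrunk vertices belong to K
  have hvert : ∀ k, (1 + ε)⁻¹ • stdV n k + (1 - (1 + ε)⁻¹) • c ∈ K := by
    intro k
    obtain ⟨y, hyK, hyS, hy⟩ := hcorner k
    set p := (1 + ε)⁻¹ • stdV n k + (1 - (1 + ε)⁻¹) • c with hp
    have hlp : ∀ l, lam p l = (1 + ε)⁻¹ * (if l = k then 1 else 0) + θ := by
      intro l
      rw [hp, lam_comb (by ring), lam_stdV, hlc, hθ]
      congr 1
      field_simp
      ring
    set z := (1 - α)⁻¹ • p + (1 - (1 - α)⁻¹) • y with hz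
    have hzK : z ∈ K := by
      refine inner_mem hn hKv h0 hj (fun l => ?_)
      rw [hz, lam_comb (by ring), hlp]
      have e : (1 - α)⁻¹ * ((1 + ε)⁻¹ * (if l = k then 1 else 0) + θ) + (1 - (1 - α)⁻¹) * lam y l
          = (1 - α)⁻¹ * ((1 + ε)⁻¹ * (if l = k then 1 else 0) + θ - α * lam y l) := by
        have : (1 : ℝ) = (1 - α)⁻¹ * (1 - α) := by rw [inv_mul_cancel₀ hα1'.ne']
        calc (1 - α)⁻¹ * ((1 + ε)⁻¹ * (if l = k then 1 else 0) + θ) + (1 - (1 - α)⁻¹) * lam y l
            = (1 - α)⁻¹ * ((1 + ε)⁻¹ * (if l = k then 1 else 0) + θ)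
              + ((1 - α)⁻¹ * (1 - α) - (1 - α)⁻¹) * lam y l := by rw [← this]
          _ = _ := by ring
      rw [e, inv_mul_le_iff₀ hα1', hα1]
      have hr : (n * θ) * (1 / (n : ℝ)) = θ := by field_simp
      rw [hr]
      by_cases hlk : l = k
      · subst hlk
        simp only [if_true, mul_one]
        have h3 : (1 + ε)⁻¹ + θ = α := by
          rw [hα, hθ]; field_simp; ring
        rw [h3]
        have h4 : α * (1 - τ) ≤ α * lam y l := mul_le_mul_of_nonneg_left hy hα0.le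
        have h5 : α * τ = θ := by
          rw [hα, hτ, hθ]; field_simp; ring
        nlinarith
      · simp only [if_neg hlk, mul_zero, zero_add]
        have := mem_stdS_iff.mp hyS l
        nlinarith [mul_nonneg hα0.le this]
    have hcomb := hKv hyK hzK hα0.le hα1'.le (by ring)
    have e2 : α • y + (1 - α) • z = p := by
      rw [hz]
      ext i
      simp only [Pi.add_apply, Pi.smul_apply, smul_eq_mul]
      field_simp
      ring
    rwa [e2] at hcomb
  have h := hKv.sum_mem (t := Finset.univ) (w := lam x)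
    (z := fun k => (1 + ε)⁻¹ • stdV n k + (1 - (1 + ε)⁻¹) • c)
    (fun l _ => mem_stdS_iff.mp hx l) (sum_lam x) (fun l _ => hvert l)
  convert h using 1
  simp_rw [smul_add]
  rw [Finset.sum_add_distrib]
  have e1 : ∑ l, lam x l • (1 + ε)⁻¹ • stdV n l = (1 + ε)⁻¹ • x := by
    conv_rhs => rw [eq_sum_lam x, Finset.smul_sum]
    refine Finset.sum_congr rfl (fun l _ => ?_)
    rw [smul_comm]
  have e2 : ∑ l, lam x l • (1 - (1 + ε)⁻¹) • c = (1 - (1 + ε)⁻¹) • c := by
    rw [← Finset.sum_smul, sum_lam, one_smul]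
  rw [e1, e2]

/-- **Quantitative criterion.** -/
lemma criterion_q (hn : 0 < n) (hK : IsCompact K) (hV : 0 < (volume K).toReal) (hsub : K ⊆ stdS n)
    (H : (1 / ((n:ℝ) * (n + 1) * (n + 2))) * (∫ _x in stdS n \ K, (1:ℝ)) ≤
      ∫ x in stdS n \ K, (qq x - 2 / ((n : ℝ) + 1))) :
    (covMatrix K).det / (volume K).toReal ^ 2
        ≤ (1 - (1 - (volume K).toReal / (volume (stdS n)).toReal) / (n:ℝ) ^ 2) ^ n *
          ((covMatrix (stdS n)).det / (volume (stdS n)).toReal ^ 2) := by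
  set V := (volume K).toReal with hVd
  set W := (volume (stdS n)).toReal with hWd
  have hW : 0 < W := volume_stdS_pos
  have hn0 : (0 : ℝ) < n := by exact_mod_cast hn
  have hn1' : (1 : ℝ) ≤ n := by exact_mod_cast hn
  have hfin : volume (stdS n) ≠ ⊤ := isCompact_stdS.measure_ne_top
  have hVW : V ≤ W := ENNReal.toReal_mono hfin (measure_mono hsub)
  -- the integral of `qq` over `K`
  have hcq := continuous_qq (n := n)
  have hdiff : ∫ x in stdS n \ K, (qq x - 2 / ((n : ℝ) + 1))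
      = (∫ x in stdS n, (qq x - 2 / ((n : ℝ) + 1))) - ∫ x in K, (qq x - 2 / ((n : ℝ) + 1)) :=
    setIntegral_sdiff₀ hK.measurableSet.nullMeasurableSet
      (intOn isCompact_stdS (by fun_prop)) hsub
  have hdiff1 : ∫ _x in stdS n \ K, (1:ℝ) = W - V := by
    rw [setIntegral_sdiff₀ hK.measurableSet.nullMeasurableSet
      (intOn isCompact_stdS (by fun_prop)) hsub, setIntegral_const, setIntegral_const]
    simp only [Measure.real, smul_eq_mul, ← hVd, ← hWd, mul_one]
  rw [hdiff, hdiff1, integral_sub (intOn isCompact_stdS hcq) (intOn isCompact_stdS (by fun_prop)),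
    integral_sub (intOn hK hcq) (intOn hK (by fun_prop)), setIntegral_const, setIntegral_const,
    integral_stdS_qq] at H
  simp only [Measure.real, smul_eq_mul, ← hVd, ← hWd] at H
  have hn1 : (0 : ℝ) < (n : ℝ) + 1 := by positivity
  have hn2 : (0 : ℝ) < (n : ℝ) + 2 := by positivity
  set Q := ∫ x in K, qq x with hQ
  set p := V / W with hp
  have hp0 : 0 < p := div_pos hV hW
  have hp1 : p ≤ 1 := (div_le_one hW).mpr hVW
  have hVp : V = p * W := by rw [hp]; field_simp
  -- bound on the normalised trace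
  set X := (Bmat n * covMatrix K).trace / n with hX
  have htr := trace_le hK hV
  have hX1 : X ≤ (1 / p) * ((1 + (1 + 2 / (n : ℝ)) * (p - 1)) - (1 - p) / (n:ℝ) ^ 2) := by
    have h1 : V⁻¹ * Q - 1 / ((n : ℝ) + 1) ≤ (1 / ((n : ℝ) + 1)) * ((1 / p) * (p - 2 / ((n : ℝ) + 2)))
        - (1 / ((n:ℝ) * (n + 1) * (n + 2))) * ((1 / p) * (1 - p)) := by
      have hQle : Q ≤ W * (2 / ((n : ℝ) + 2)) - W * (2 / ((n : ℝ) + 1)) + V * (2 / ((n : ℝ) + 1))
          - (1 / ((n:ℝ) * (n + 1) * (n + 2))) * (W - V) := by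
        linarith
      have : V⁻¹ * Q ≤ V⁻¹ * (W * (2 / ((n : ℝ) + 2)) - W * (2 / ((n : ℝ) + 1))
          + V * (2 / ((n : ℝ) + 1)) - (1 / ((n:ℝ) * (n + 1) * (n + 2))) * (W - V)) :=
        mul_le_mul_of_nonneg_left hQle (inv_nonneg.mpr hV.le)
      refine (sub_le_sub_right this _).trans (le_of_eq ?_)
      rw [hVp]
      field_simp
      ring
    have h2 : (Bmat n * covMatrix K).trace
        ≤ ((n : ℝ) + 1) * (n + 2) * ((1 / ((n : ℝ) + 1)) * ((1 / p) * (p - 2 / ((n : ℝ) + 2)))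
        - (1 / ((n:ℝ) * (n + 1) * (n + 2))) * ((1 / p) * (1 - p))) :=
      htr.trans (mul_le_mul_of_nonneg_left h1 (by positivity))
    rw [hX, div_le_iff₀ hn0]
    refine h2.trans (le_of_eq ?_)
    field_simp
    ring
  have hC := covMatrix_posSemidef hK
  have hX0 : 0 ≤ X := by
    rw [hX, trace_Bmat_mul]
    have h1 : 0 ≤ ∑ i, covMatrix K i i := Finset.sum_nonneg (fun i _ => hC.diag_nonneg)
    have h2 : 0 ≤ ∑ i, ∑ j, covMatrix K j i := by
      have := cov_quad hK (fun _ => (1 : ℝ))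
      simp only [one_mul, mul_one] at this
      rw [Finset.sum_comm, this]
      exact mul_nonneg (inv_nonneg.mpr ENNReal.toReal_nonneg) (integral_nonneg (fun x => sq_nonneg _))
    positivity
  have hdet := det_mul_det_le hn Bmat_posSemidef hC
  rw [← hX] at hdet
  -- Bernoulli
  have hB : 1 + (1 + 2 / (n : ℝ)) * (p - 1) ≤ p ^ (1 + 2 / (n : ℝ)) := by
    have := one_add_mul_self_le_rpow_one_add (s := p - 1) (by linarith) (p := 1 + 2 / (n : ℝ))
      (by have : 0 < 2 / (n : ℝ) := by positivity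
          linarith)
    rwa [add_sub_cancel] at this
  have hpow : (1 / p) * p ^ (1 + 2 / (n : ℝ)) = p ^ (2 / (n : ℝ)) := by
    rw [Real.rpow_add hp0, Real.rpow_one]; field_simp
  set g := 1 - (1 - p) / (n:ℝ) ^ 2 with hg
  have hpr1 : p ^ (1 + 2 / (n : ℝ)) ≤ 1 := Real.rpow_le_one hp0.le hp1 (by positivity)
  have hB2 : (1 + (1 + 2 / (n : ℝ)) * (p - 1)) - (1 - p) / (n:ℝ) ^ 2 ≤ p ^ (1 + 2 / (n : ℝ)) * g := by
    have h3 : 0 ≤ (1 - p) / (n:ℝ) ^ 2 := div_nonneg (by linarith) (by positivity)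
    have h4 : p ^ (1 + 2 / (n : ℝ)) * ((1 - p) / (n:ℝ) ^ 2) ≤ 1 * ((1 - p) / (n:ℝ) ^ 2) :=
      mul_le_mul_of_nonneg_right hpr1 h3
    rw [hg, mul_sub, mul_one]
    linarith
  have hX2 : X ≤ p ^ (2 / (n : ℝ)) * g := by
    rw [← hpow, mul_assoc]
    exact hX1.trans (mul_le_mul_of_nonneg_left hB2 (by positivity))
  have hpn : (p ^ (2 / (n : ℝ)) * g) ^ n = p ^ 2 * g ^ n := by
    rw [mul_pow, ← Real.rpow_natCast, ← Real.rpow_mul hp0.le, div_mul_cancel₀ _ hn0.ne']
    norm_num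
  have hdetB : 0 < (Bmat n).det := by
    have h1 := det_B_mul_det_cov (n := n)
    have h2 : 0 ≤ (Bmat n).det := Bmat_posSemidef.det_nonneg
    rcases h2.lt_or_eq with h | h
    · exact h
    · rw [← h, zero_mul] at h1; norm_num at h1
  have hdetC : (covMatrix (stdS n)).det = ((Bmat n).det)⁻¹ := by
    exact eq_inv_of_mul_eq_one_right det_B_mul_det_cov
  have h5 : (Bmat n).det * (covMatrix K).det ≤ p ^ 2 * g ^ n := by
    rw [← hpn]
    exact hdet.trans (pow_le_pow_left₀ hX0 hX2 n)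
  rw [hdetC, hVp, ← mul_div_assoc, div_le_div_iff₀ (by positivity) (by positivity)]
  have h6 : (covMatrix K).det ≤ ((Bmat n).det)⁻¹ * (p ^ 2 * g ^ n) := by
    rw [inv_mul_eq_div, le_div_iff₀ hdetB]
    linarith
  calc (covMatrix K).det * W ^ 2 ≤ ((Bmat n).det)⁻¹ * (p ^ 2 * g ^ n) * W ^ 2 :=
        mul_le_mul_of_nonneg_right h6 (sq_nonneg _)
    _ = _ := by ring

/-- The quantitative criterion in terms of the isotropic constant. -/
lemma isoConst_criterion_q (hn : 0 < n) (hK : IsCompact K) (hV : 0 < (volume K).toReal)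
    (hsub : K ⊆ stdS n)
    (H : (1 / ((n:ℝ) * (n + 1) * (n + 2))) * (∫ _x in stdS n \ K, (1:ℝ)) ≤
      ∫ x in stdS n \ K, (qq x - 2 / ((n : ℝ) + 1))) :
    isoConst K ≤ (1 - (1 - (volume K).toReal / (volume (stdS n)).toReal) / (2 * (n:ℝ) ^ 2)) *
      isoConst (stdS n) := by
  have h1 := criterion_q hn hK hV hsub H
  have hn0 : (0 : ℝ) < n := by exact_mod_cast hn
  have hn1' : (1 : ℝ) ≤ n := by exact_mod_cast hn
  have h0 : 0 ≤ (covMatrix K).det / (volume K).toReal ^ 2 :=
    div_nonneg (covMatrix_posSemidef hK).det_nonneg (by positivity)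
  have h0' : 0 ≤ (covMatrix (stdS n)).det / (volume (stdS n)).toReal ^ 2 :=
    div_nonneg (covMatrix_posSemidef isCompact_stdS).det_nonneg (by positivity)
  set p := (volume K).toReal / (volume (stdS n)).toReal with hp
  have hp0 : 0 < p := div_pos hV volume_stdS_pos
  have hfin : volume (stdS n) ≠ ⊤ := isCompact_stdS.measure_ne_top
  have hp1 : p ≤ 1 := (div_le_one volume_stdS_pos).mpr (ENNReal.toReal_mono hfin (measure_mono hsub))
  have hd0 : 0 ≤ (1 - p) / (n:ℝ) ^ 2 := div_nonneg (by linarith) (by positivity)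
  have hd1 : (1 - p) / (n:ℝ) ^ 2 ≤ 1 := by
    rw [div_le_one (by positivity)]
    nlinarith
  set d := (1 - p) / (n:ℝ) ^ 2 with hd
  have h2 : isoConst K ≤ ((1 - d) ^ n * ((covMatrix (stdS n)).det / (volume (stdS n)).toReal ^ 2)) ^
      (1 / (2 * (n : ℝ))) := Real.rpow_le_rpow h0 h1 (by positivity)
  refine h2.trans ?_
  rw [Real.mul_rpow (pow_nonneg (by linarith) n) h0']
  refine mul_le_mul_of_nonneg_right ?_ (Real.rpow_nonneg h0' _)
  have h3 : ((1 - d) ^ n) ^ (1 / (2 * (n : ℝ))) = (1 - d) ^ ((1:ℝ) / 2) := by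
    rw [← Real.rpow_natCast, ← Real.rpow_mul (by linarith)]
    congr 1
    field_simp
  rw [h3, ← Real.sqrt_eq_rpow]
  have h4 : (1 - p) / (2 * (n:ℝ) ^ 2) = d / 2 := by rw [hd]; field_simp
  rw [h4]
  refine Real.sqrt_le_iff.mpr ⟨by linarith, by nlinarith⟩

end Vale.Agent.P254
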