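import Vale.Agent.P254.Quant1
import Vale.Agent.P254.Quant2

open MeasureTheory Set Matrix Filter Topology
open scoped Pointwise

namespace Vale.Agent.P254

variable {n : ℕ} {K : Set (Fin n → ℝ)}

lemma region_q (hn : 0 < n) {ε : ℝ} (hε : 0 ≤ ε) (hε4 : ε * (((n:ℝ) + 3) * (n + 1) ^ 2) ≤ 1)
    (hKc : IsCompact K) (hKv : Convex ℝ K) (hsub : K ⊆ stdS n)
    (h0 : (fun _ => 1 / (n : ℝ)) ∈ K)
    (hj : ∀ j : Fin n, Function.update (fun _ => 1 / (n : ℝ)) j 0 ∈ K)
    (hnear : ∀ x ∈ stdS n, (1 + ε)⁻¹ • x + (1 - (1 + ε)⁻¹) • (fun _ => 1 / ((n : ℝ) + 1)) ∈ K) :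
    (1 / ((n:ℝ) * (n + 1) * (n + 2))) * (∫ _x in stdS n \ K, (1:ℝ)) ≤
      ∫ x in stdS n \ K, (qq x - 2 / ((n : ℝ) + 1)) := by
  rcases Nat.lt_or_ge n 2 with h2 | h2
  · -- dimension one: `K` is the whole segment
    have h1 : n = 1 := by omega
    subst h1
    have : stdS 1 ⊆ K := by
      intro x hx
      have hx0 := hx.1 0
      have hx1 : x 0 ≤ 1 := by have := hx.2; simpa using this
      have := hKv (hj 0) h0 (sub_nonneg.mpr hx1) hx0 (by ring)
      convert this using 1
      ext i
      have hi : i = 0 := Subsingleton.elim _ _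
      subst hi
      simp
    have e : stdS 1 \ K = ∅ := sdiff_eq_empty.mpr this
    rw [e]
    simp
  · have hP : Pos K ε := by
      refine ⟨hKv, hKc.isClosed, hsub, h0, hj, fun x hx => ?_⟩
      have := hnear x hx
      convert this using 1
      ext i
      simp only [bar, Pi.add_apply, Pi.smul_apply, Pi.sub_apply, smul_eq_mul]
      ring
    have := hP.total_q h2 hε hε4
    exact this

lemma isoConst_stdS_pos (hn : 0 < n) : 0 < isoConst (stdS n) := by
  have h1 : 0 < (covMatrix (stdS n)).det := by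
    have h2 := det_B_mul_det_cov (n := n)
    have h3 : 0 ≤ (covMatrix (stdS n)).det := (covMatrix_posSemidef isCompact_stdS).det_nonneg
    rcases h3.lt_or_eq with h | h
    · exact h
    · rw [← h, mul_zero] at h2; norm_num at h2
  have h4 : 0 < (volume (stdS n)).toReal := volume_stdS_pos
  exact Real.rpow_pos_of_pos (by positivity) _

/-- The quantitative theorem, given a maximal position and the corner condition. -/
lemma assembly_q (hn : 0 < n) {ε : ℝ} (hε : 0 < ε) (hε4 : ε * (((n:ℝ) + 3) * (n + 1) ^ 2) ≤ 1)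
    {S : Set (Fin n → ℝ)} (hK : IsConvexBody K) (hS : IsSimplex S)
    (hcor : ∀ (A : Matrix (Fin n) (Fin n) ℝ) (b : Fin n → ℝ), A.det ≠ 0 → IsMaxPos (aff A b '' K) →
      (∀ T : Set (Fin n → ℝ), IsSimplex T → K ⊆ T →
        (volume K).toReal * (volume (stdS n)).toReal
          ≤ (volume (aff A b '' K)).toReal * (volume T).toReal) →
      ∀ k, ∃ y ∈ aff A b '' K, y ∈ stdS n ∧ 1 - ε / (n + 1 + ε) ≤ lam y k) :
    (∃ T₀ : Set (Fin n → ℝ), IsSimplex T₀ ∧ K ⊆ T₀ ∧
      (∀ T : Set (Fin n → ℝ), IsSimplex T → K ⊆ T → (volume T₀).toReal ≤ (volume T).toReal) ∧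
      isoConst K ≤ (1 - (1 - (volume K).toReal / (volume T₀).toReal) / (2 * (n:ℝ) ^ 2)) * isoConst S) ∧
    (isoConst K = isoConst S ↔ IsSimplex K) := by
  obtain ⟨A, b, hA, hmax, hbest⟩ := exists_position hn hK
  have hcorner := hcor A b hA hmax hbest
  obtain ⟨hKv, hKc, hKi⟩ := hK
  set K' := aff A b '' K with hK'
  have hV : 0 < (volume K).toReal := volume_pos_of_interior hKi hKc
  have hK'c : IsCompact K' := isCompact_aff_image A b hKc
  have hK'v : Convex ℝ K' := by
    rw [hK', ← coe_affMap]; exact hKv.affine_image _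
  have hV' : (volume K').toReal = |A.det| * (volume K).toReal :=
    volume_aff_image hA b hKc.measurableSet
  have hA' : 0 < |A.det| := abs_pos.mpr hA
  have hV'0 : 0 < (volume K').toReal := by
    rw [hV']; exact mul_pos hA' hV
  have hW : 0 < (volume (stdS n)).toReal := volume_stdS_pos
  have hc0 := hmax.centroid_mem hn hK'c hK'v
  have hcj := hmax.centroids_mem hn hK'c hK'v
  have hH := region_q hn hε.le hε4 hK'c hK'v hmax.1 hc0 hcj
    (fun x hx => shrunk_of_corner hn hK'v hc0 hcj hε hcorner hx)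
  have hle := isoConst_criterion_q hn hK'c hV'0 hmax.1 hH
  have e1 : isoConst K' = isoConst K := isoConst_aff_image hA b hKc hV.ne'
  rw [e1] at hle
  -- the minimal simplex
  have hu : IsUnit A.det := isUnit_iff_ne_zero.mpr hA
  have hu' : (A⁻¹).det ≠ 0 := by
    rw [det_nonsing_inv, Ring.inverse_eq_inv']
    exact inv_ne_zero hA
  have hdetinv : |(A⁻¹).det| = |A.det|⁻¹ := by
    rw [det_nonsing_inv, Ring.inverse_eq_inv', abs_inv]
  set T₀ := aff A⁻¹ (-(A⁻¹ *ᵥ b)) '' stdS n with hT₀
  have hT₀s : IsSimplex T₀ := isSimplex_image hu' _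
  have hvT₀ : (volume T₀).toReal = |A.det|⁻¹ * (volume (stdS n)).toReal := by
    rw [hT₀, volume_aff_image hu' _ isCompact_stdS.measurableSet, hdetinv]
  have hKT₀ : K ⊆ T₀ := by
    intro x hx
    refine ⟨aff A b x, hmax.1 (mem_image_of_mem _ hx), ?_⟩
    rw [aff_aff, nonsing_inv_mul _ hu]
    simp [aff]
  have hmin : ∀ T : Set (Fin n → ℝ), IsSimplex T → K ⊆ T → (volume T₀).toReal ≤ (volume T).toReal := by
    intro T hT hKT
    have h1 := hbest T hT hKT
    rw [hV'] at h1
    rw [hvT₀, inv_mul_le_iff₀ hA']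
    have h2 : (volume K).toReal * (volume (stdS n)).toReal ≤
        (volume K).toReal * (|A.det| * (volume T).toReal) := by linarith
    exact le_of_mul_le_mul_left h2 hV
  have hratio : (volume K').toReal / (volume (stdS n)).toReal = (volume K).toReal / (volume T₀).toReal := by
    rw [hV', hvT₀]
    field_simp
  refine ⟨⟨T₀, hT₀s, hKT₀, hmin, ?_⟩, fun heq => ?_, fun hs => ?_⟩
  · rw [isoConst_simplex hS, ← hratio]
    exact hle
  · rw [isoConst_simplex hS] at heq
    have hpos := isoConst_stdS_pos hn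
    have hn0 : (0 : ℝ) < n := by exact_mod_cast hn
    rw [heq] at hle
    have h7 : (volume (stdS n)).toReal ≤ (volume K').toReal := by
      by_contra hlt
      push Not at hlt
      have h8 : (volume K').toReal / (volume (stdS n)).toReal < 1 := (div_lt_one hW).mpr hlt
      have h9 : 0 < (1 - (volume K').toReal / (volume (stdS n)).toReal) / (2 * (n:ℝ) ^ 2) :=
        div_pos (by linarith) (by positivity)
      nlinarith
    have hK'i : (interior K').Nonempty := by
      by_contra hne
      rw [not_nonempty_iff_eq_empty] at hne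
      have : volume K' = 0 := by
        have h8 := hK'v.addHaar_frontier (volume : Measure (Fin n → ℝ))
        have h9 : K' ⊆ frontier K' := by
          rw [hK'c.isClosed.frontier_eq, hne, sdiff_empty]
        exact measure_mono_null h9 h8
      rw [this] at hV'0
      simp at hV'0
    exact isSimplex_of_aff_image hA b (eq_stdS_of_volume hK'c hmax.1 hK'i h7)
  · rw [isoConst_simplex hS, isoConst_simplex hs]

/-- **Quantitative local maximality of the simplex.** -/
theorem main_q (hn : 1 ≤ n) {S : Set (Fin n → ℝ)} (hK : IsConvexBody K) (hS : IsSimplex S)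
    (h : (∃ T, IsSimplex T ∧ K ⊆ T ∧
        (1 - 1 / ((n : ℝ) + 2) ^ (4 * n)) * (volume T).toReal ≤ (volume K).toReal) ∨
      (∃ T, ∃ z : Fin n → ℝ, ∃ r : ℝ, 0 < r ∧ r ≤ 1 + 1 / ((n : ℝ) + 2) ^ 5 ∧ IsSimplex T ∧
        T ⊆ K ∧ K ⊆ (fun x => z + r • x) '' T)) :
    (∃ T₀ : Set (Fin n → ℝ), IsSimplex T₀ ∧ K ⊆ T₀ ∧
      (∀ T : Set (Fin n → ℝ), IsSimplex T → K ⊆ T → (volume T₀).toReal ≤ (volume T).toReal) ∧
      isoConst K ≤ (1 - (1 - (volume K).toReal / (volume T₀).toReal) / (2 * (n:ℝ) ^ 2)) * isoConst S) ∧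
    (isoConst K = isoConst S ↔ IsSimplex K) := by
  have hn1 : (1 : ℝ) ≤ n := by exact_mod_cast hn
  have hn0 : (0 : ℝ) < n := by linarith
  set ε : ℝ := 1 / (((n:ℝ) + 3) * (n + 1) ^ 2) with hεd
  have hε : 0 < ε := by positivity
  have hε4 : ε * (((n:ℝ) + 3) * (n + 1) ^ 2) ≤ 1 := by
    rw [hεd, div_mul_cancel₀]
    positivity
  set τ := ε / (n + 1 + ε) with hτ
  have hτ0 : 0 < τ := by positivity
  have e1 : τ = 1 / (((n:ℝ) + 3) * (n + 1) ^ 3 + 1) := by
    rw [hτ, hεd]; field_simp
  have h4 : 1 / ((n : ℝ) + 2) ^ 4 < τ := by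
    rw [e1, div_lt_div_iff₀ (by positivity) (by positivity)]
    nlinarith [pow_pos hn0 2, pow_pos hn0 3, pow_pos hn0 4]
  have hτ2 : τ ≤ 1 / 2 := by
    rw [e1, div_le_div_iff₀ (by positivity) (by positivity)]
    nlinarith [pow_pos hn0 2, pow_pos hn0 3, pow_pos hn0 4]
  refine assembly_q hn hε hε4 hK hS ?_
  intro A b hA hmax hbest k
  obtain ⟨hKv, hKc, hKi⟩ := hK
  set K' := aff A b '' K with hK'
  have hV : 0 < (volume K).toReal := volume_pos_of_interior hKi hKc
  have hK'c : IsCompact K' := isCompact_aff_image A b hKc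
  have hV' : (volume K').toReal = |A.det| * (volume K).toReal :=
    volume_aff_image hA b hKc.measurableSet
  have hA' : 0 < |A.det| := abs_pos.mpr hA
  have hW : 0 < (volume (stdS n)).toReal := volume_stdS_pos
  rcases h with ⟨T, hT, hKT, hvol⟩ | ⟨T, z, r, hr0, hr, hT, hTK, hKT⟩
  · -- volume closeness
    have hTpos : 0 < (volume T).toReal := by
      obtain ⟨A0, b0, hA0, rfl⟩ := hT.exists_aff
      rw [volume_aff_image hA0 b0 isCompact_stdS.measurableSet]
      exact mul_pos (abs_pos.mpr hA0) volume_stdS_pos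
    have h1 := hbest T hT hKT
    set δ := 1 / ((n : ℝ) + 2) ^ (4 * n) with hδ
    have h2 : (1 - δ) * (volume (stdS n)).toReal ≤ (volume K').toReal := by
      have h3 : (1 - δ) * (volume T).toReal * (volume (stdS n)).toReal
          ≤ (volume K).toReal * (volume (stdS n)).toReal := mul_le_mul_of_nonneg_right hvol hW.le
      have h4 : ((1 - δ) * (volume (stdS n)).toReal) * (volume T).toReal
          ≤ (volume K').toReal * (volume T).toReal := by linarith
      exact le_of_mul_le_mul_right h4 hTpos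
    have hfin : volume (stdS n) ≠ ⊤ := isCompact_stdS.measure_ne_top
    have h5 : (volume (stdS n \ K')).toReal = (volume (stdS n)).toReal - (volume K').toReal := by
      rw [measure_sdiff hmax.1 hK'c.measurableSet.nullMeasurableSet hK'c.measure_ne_top,
        ENNReal.toReal_sub_of_le (measure_mono hmax.1) hfin]
    have hδτ : δ < τ ^ n := by
      have h2 : δ = (1 / ((n : ℝ) + 2) ^ 4) ^ n := by
        rw [hδ, div_pow, one_pow, pow_mul]
      rw [h2]
      exact pow_lt_pow_left₀ h4 (by positivity) (by omega)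
    have h6 : (volume (stdS n \ K')).toReal < τ ^ n * (volume (stdS n)).toReal := by
      rw [h5]
      have := mul_lt_mul_of_pos_right hδτ hW
      linarith
    exact exists_corner hτ0 (by linarith) h6 k
  · -- Banach-Mazur closeness
    obtain ⟨A1, b1, hA1, rfl⟩ := hT.exists_aff
    have hA1' : 0 < |A1.det| := abs_pos.mpr hA1
    -- the outer simplex
    have hrdet : (r • A1).det ≠ 0 := by
      rw [det_smul]
      exact mul_ne_zero (pow_ne_zero _ hr0.ne') hA1
    have eT' : (fun x => z + r • x) '' (aff A1 b1 '' stdS n) = aff (r • A1) (r • b1 + z) '' stdS n := by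
      rw [← image_comp]
      refine image_congr fun x _ => ?_
      simp only [Function.comp_apply, aff, smul_add, smul_mulVec]
      abel
    have h1 := hbest _ (isSimplex_image hrdet (r • b1 + z)) (by rw [← eT']; exact hKT)
    rw [hV', volume_aff_image hrdet _ isCompact_stdS.measurableSet, det_smul, Fintype.card_fin,
      abs_mul, abs_pow, abs_of_pos hr0] at h1
    have h2 : 1 ≤ |A.det| * |A1.det| * r ^ n := by
      have h3 : ((volume K).toReal * (volume (stdS n)).toReal) * 1 ≤
          ((volume K).toReal * (volume (stdS n)).toReal) * (|A.det| * |A1.det| * r ^ n) := by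
        linarith
      exact le_of_mul_le_mul_left h3 (mul_pos hV hW)
    have hcomp : aff (A * A1) (A *ᵥ b1 + b) '' stdS n = aff A b '' (aff A1 b1 '' stdS n) := by
      rw [← image_comp]
      refine image_congr fun x _ => ?_
      rw [Function.comp_apply, aff_aff]
    have hsubK : aff (A * A1) (A *ᵥ b1 + b) '' stdS n ⊆ K' := by
      rw [hcomp]; exact image_mono hTK
    have hdet : 1 - τ < |(A * A1).det| := by
      rw [det_mul, abs_mul]
      set x : ℝ := 1 / ((n : ℝ) + 2) ^ 5 with hx
      have hx0 : 0 < x := by positivity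
      have hnx : n * x < τ := by
        refine lt_trans ?_ h4
        rw [hx, mul_one_div, div_lt_div_iff₀ (by positivity) (by positivity)]
        have : ((n:ℝ) + 2) ^ 5 = (n + 2) * (n + 2) ^ 4 := by ring
        rw [this]
        have h5 : 0 < ((n:ℝ) + 2) ^ 4 := by positivity
        nlinarith
      have hx1 : x ≤ 1 := by
        nlinarith
      have h6 : 1 - n * x ≤ (1 - x) ^ n := by
        have := one_add_mul_le_pow (a := -x) (by linarith) n
        calc 1 - n * x = 1 + n * (-x) := by ring
          _ ≤ (1 + -x) ^ n := this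
          _ = (1 - x) ^ n := by ring
      have h7 : r ^ n * (1 - x) ^ n ≤ 1 := by
        rw [← mul_pow]
        refine pow_le_one₀ (mul_nonneg hr0.le (by linarith)) ?_
        calc r * (1 - x) ≤ (1 + x) * (1 - x) := mul_le_mul_of_nonneg_right hr (by linarith)
          _ ≤ 1 := by nlinarith
      have hrn : 0 < r ^ n := pow_pos hr0 n
      have h8 : r ^ n * (1 - n * x) ≤ 1 :=
        (mul_le_mul_of_nonneg_left h6 hrn.le).trans h7
      have h9 : (1 - n * x) ≤ |A.det| * |A1.det| := by
        have : (1 - n * x) * r ^ n ≤ |A.det| * |A1.det| * r ^ n := by linarith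
        exact le_of_mul_le_mul_right this hrn
      linarith
    obtain ⟨l, hl⟩ := exists_vertex_near (hsubK.trans hmax.1) hτ0.le hτ2 hdet k
    have hmem : stdV n l ∈ stdS n := by
      rw [mem_stdS_iff]
      intro j
      rw [lam_stdV]
      split_ifs <;> norm_num
    exact ⟨_, hsubK (mem_image_of_mem _ hmem), hmax.1 (hsubK (mem_image_of_mem _ hmem)), hl⟩

end Vale.Agent.P254
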