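import Vale.Agent.P254.Assembly
import Vale.Agent.P254.EllDefs

open MeasureTheory Set Matrix
open scoped Pointwise

namespace Vale.Agent.P254

variable {n : ℕ} {K : Set (Fin n → ℝ)}

/-- General criterion: `K` need not be contained in the standard simplex. -/
lemma criterion' (hn : 0 < n) (hK : IsCompact K) (hV : 0 < (volume K).toReal)
    (H : ∫ x in K, (qq x - 2 / ((n : ℝ) + 1)) ≤ ∫ x in stdS n, (qq x - 2 / ((n : ℝ) + 1))) :
    (covMatrix K).det / (volume K).toReal ^ 2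
        ≤ (covMatrix (stdS n)).det / (volume (stdS n)).toReal ^ 2 ∧
      (∫ x in K, (qq x - 2 / ((n : ℝ) + 1)) < ∫ x in stdS n, (qq x - 2 / ((n : ℝ) + 1)) →
        (covMatrix K).det / (volume K).toReal ^ 2
          < (covMatrix (stdS n)).det / (volume (stdS n)).toReal ^ 2) := by
  set V := (volume K).toReal with hVd
  set W := (volume (stdS n)).toReal with hWd
  have hW : 0 < W := volume_stdS_pos
  have hn0 : (0 : ℝ) < n := by exact_mod_cast hn
  have hcq := continuous_qq (n := n)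
  rw [integral_sub (intOn isCompact_stdS hcq) (intOn isCompact_stdS (by fun_prop)),
    integral_sub (intOn hK hcq) (intOn hK (by fun_prop)), setIntegral_const, setIntegral_const,
    integral_stdS_qq] at H ⊢
  simp only [Measure.real, smul_eq_mul, ← hVd, ← hWd] at H ⊢
  have hn1 : (0 : ℝ) < (n : ℝ) + 1 := by positivity
  have hn2 : (0 : ℝ) < (n : ℝ) + 2 := by positivity
  set Q := ∫ x in K, qq x with hQ
  set p := V / W with hp
  have hp0 : 0 < p := div_pos hV hW
  have hVp : V = p * W := by rw [hp]; field_simp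
  -- bound on the normalised trace
  set X := (Bmat n * covMatrix K).trace / n with hX
  have htr := trace_le hK hV
  set P := W * (2 / ((n : ℝ) + 2)) - W * (2 / ((n : ℝ) + 1)) + V * (2 / ((n : ℝ) + 1)) with hP
  have hXQ : X ≤ ((n : ℝ) + 1) * (n + 2) / n * (V⁻¹ * Q - 1 / ((n : ℝ) + 1)) := by
    rw [hX, div_mul_eq_mul_div]
    exact div_le_div_of_nonneg_right htr hn0.le
  have hid : ((n : ℝ) + 1) * (n + 2) / n * (V⁻¹ * P - 1 / ((n : ℝ) + 1))
      = (1 / p) * (1 + (1 + 2 / (n : ℝ)) * (p - 1)) := by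
    rw [hP, hVp]
    field_simp
    ring
  have hC := covMatrix_posSemidef hK
  have hX0 : 0 ≤ X := by
    rw [hX, trace_Bmat_mul]
    have h1 : 0 ≤ ∑ i, covMatrix K i i := Finset.sum_nonneg (fun i _ => hC.diag_nonneg)
    have h2 : 0 ≤ ∑ i, ∑ j, covMatrix K j i := by
      have := cov_quad hK (fun _ => (1 : ℝ))
      simp only [one_mul, mul_one] at this
      rw [Finset.sum_comm, this]
      exact mul_nonneg (inv_nonneg.mpr ENNReal.toReal_nonneg) (integral_nonneg (fun x => sq_nonneg _))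
    positivity
  have hdet := det_mul_det_le hn Bmat_posSemidef hC
  rw [← hX] at hdet
  -- Bernoulli
  have hB : 1 + (1 + 2 / (n : ℝ)) * (p - 1) ≤ p ^ (1 + 2 / (n : ℝ)) := by
    have := one_add_mul_self_le_rpow_one_add (s := p - 1) (by linarith) (p := 1 + 2 / (n : ℝ))
      (by have : 0 < 2 / (n : ℝ) := by positivity
          linarith)
    rwa [add_sub_cancel] at this
  have hpow : (1 / p) * p ^ (1 + 2 / (n : ℝ)) = p ^ (2 / (n : ℝ)) := by
    rw [Real.rpow_add hp0, Real.rpow_one]; field_simp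
  have hP2 : ((n : ℝ) + 1) * (n + 2) / n * (V⁻¹ * P - 1 / ((n : ℝ) + 1)) ≤ p ^ (2 / (n : ℝ)) := by
    rw [hid, ← hpow]
    exact mul_le_mul_of_nonneg_left hB (by positivity)
  have hpn : (p ^ (2 / (n : ℝ))) ^ n = p ^ 2 := by
    rw [← Real.rpow_natCast, ← Real.rpow_mul hp0.le, div_mul_cancel₀ _ hn0.ne']
    norm_num
  have hdetB : 0 < (Bmat n).det := by
    have h1 := det_B_mul_det_cov (n := n)
    have h2 : 0 ≤ (Bmat n).det := Bmat_posSemidef.det_nonneg
    rcases h2.lt_or_eq with h | h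
    · exact h
    · rw [← h, zero_mul] at h1; norm_num at h1
  have hdetC : (covMatrix (stdS n)).det = ((Bmat n).det)⁻¹ := by
    exact eq_inv_of_mul_eq_one_right det_B_mul_det_cov
  have final : ∀ D : ℝ, (Bmat n).det * D ≤ p ^ 2 → D / V ^ 2 ≤ ((Bmat n).det)⁻¹ / W ^ 2 := by
    intro D hD
    rw [hVp, div_le_div_iff₀ (by positivity) (by positivity), inv_mul_eq_div, le_div_iff₀ hdetB]
    nlinarith [mul_le_mul_of_nonneg_right hD (sq_nonneg W)]
  have final' : ∀ D : ℝ, (Bmat n).det * D < p ^ 2 → D / V ^ 2 < ((Bmat n).det)⁻¹ / W ^ 2 := by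
    intro D hD
    rw [hVp, div_lt_div_iff₀ (by positivity) (by positivity), inv_mul_eq_div, lt_div_iff₀ hdetB]
    have hW2 : 0 < W ^ 2 := by positivity
    nlinarith [mul_lt_mul_of_pos_right hD hW2]
  rw [hdetC]
  refine ⟨final _ (hdet.trans ?_), fun hlt => final' _ (hdet.trans_lt ?_)⟩
  · have hQle : Q ≤ P := by rw [hP]; linarith
    have hX2 : X ≤ p ^ (2 / (n : ℝ)) := by
      refine hXQ.trans (le_trans ?_ hP2)
      have : V⁻¹ * Q ≤ V⁻¹ * P := mul_le_mul_of_nonneg_left hQle (inv_nonneg.mpr hV.le)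
      exact mul_le_mul_of_nonneg_left (sub_le_sub_right this _) (by positivity)
    rw [← hpn]
    exact pow_le_pow_left₀ hX0 hX2 n
  · have hQlt : Q < P := by rw [hP]; linarith
    have hX3 : X < p ^ (2 / (n : ℝ)) := by
      refine hXQ.trans_lt (lt_of_lt_of_le ?_ hP2)
      have : V⁻¹ * Q < V⁻¹ * P := mul_lt_mul_of_pos_left hQlt (inv_pos.mpr hV)
      exact mul_lt_mul_of_pos_left (sub_lt_sub_right this _) (by positivity)
    rw [← hpn]
    exact pow_lt_pow_left₀ hX3 hX0 hn.ne'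

lemma isoConst_criterion' (hn : 0 < n) (hK : IsCompact K) (hV : 0 < (volume K).toReal)
    (H : ∫ x in K, (qq x - 2 / ((n : ℝ) + 1)) ≤ ∫ x in stdS n, (qq x - 2 / ((n : ℝ) + 1))) :
    isoConst K ≤ isoConst (stdS n) ∧
      (∫ x in K, (qq x - 2 / ((n : ℝ) + 1)) < ∫ x in stdS n, (qq x - 2 / ((n : ℝ) + 1)) →
        isoConst K < isoConst (stdS n)) := by
  obtain ⟨h1, h2⟩ := criterion' hn hK hV H
  have hn0 : (0 : ℝ) < n := by exact_mod_cast hn
  have h0 : 0 ≤ (covMatrix K).det / (volume K).toReal ^ 2 :=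
    div_nonneg (covMatrix_posSemidef hK).det_nonneg (by positivity)
  refine ⟨Real.rpow_le_rpow h0 h1 (by positivity), fun hlt => ?_⟩
  exact Real.rpow_lt_rpow h0 (h2 hlt) (by positivity)

/-- The quadratic function of the criterion is strictly convex. -/
lemma qq_parallelogram (x h : Fin n → ℝ) :
    qq (x + h) + qq (x - h) = 2 * qq x + 2 * (∑ i, h i ^ 2 + (∑ i, h i) ^ 2) := by
  simp only [qq, Pi.add_apply, Pi.sub_apply, Finset.sum_add_distrib, Finset.sum_sub_distrib]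
  have e : ∀ i, (x i + h i) ^ 2 = x i ^ 2 + 2 * (x i * h i) + h i ^ 2 := by intro i; ring
  have e' : ∀ i, (x i - h i) ^ 2 = x i ^ 2 - 2 * (x i * h i) + h i ^ 2 := by intro i; ring
  simp_rw [e, e']
  simp only [Finset.sum_add_distrib, Finset.sum_sub_distrib]
  ring

lemma qq_lt_of_isOpen (hn : 0 < n) {U : Set (Fin n → ℝ)} (hU : IsOpen U) {c : ℝ}
    (h : ∀ x ∈ U, qq x ≤ c) : ∀ x ∈ U, qq x < c := by
  intro x hx
  refine lt_of_le_of_ne (h x hx) (fun heq => ?_)
  obtain ⟨r, hr, hball⟩ := Metric.isOpen_iff.mp hU x hx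
  set v : Fin n → ℝ := Pi.single ⟨0, hn⟩ (r / 2) with hv
  have hnorm : ‖v‖ < r := by
    rw [hv, Pi.norm_single, Real.norm_eq_abs, abs_of_pos (by positivity)]
    linarith
  have h1 : x + v ∈ U := hball (by simpa [Metric.mem_ball, dist_eq_norm] using hnorm)
  have h2 : x - v ∈ U := hball (by simpa [Metric.mem_ball, dist_eq_norm] using hnorm)
  have h3 := qq_parallelogram x v
  have h4 : 0 < ∑ i, v i ^ 2 := by
    refine Finset.sum_pos' (fun i _ => sq_nonneg _) ⟨⟨0, hn⟩, Finset.mem_univ _, ?_⟩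
    rw [hv, Pi.single_eq_same]
    positivity
  have h5 : 0 ≤ (∑ i, v i) ^ 2 := sq_nonneg _
  have h6 := h _ h1
  have h7 := h _ h2
  linarith

/-- A point of a convex body outside a closed set gives an open piece. -/
lemma exists_open_piece {C D : Set (Fin n → ℝ)} (hC : Convex ℝ C) (hCi : (interior C).Nonempty)
    (hD : IsClosed D) (h : ¬ C ⊆ D) :
    ∃ U : Set (Fin n → ℝ), IsOpen U ∧ U.Nonempty ∧ U ⊆ C \ D := by
  obtain ⟨x, hx, hxD⟩ := not_subset.mp h
  have hcl : x ∈ closure (interior C) := by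
    rw [hC.closure_interior_eq_closure_of_nonempty_interior hCi]
    exact subset_closure hx
  obtain ⟨y, hy1, hy2⟩ := mem_closure_iff.mp hcl Dᶜ hD.isOpen_compl hxD
  exact ⟨Dᶜ ∩ interior C, hD.isOpen_compl.inter isOpen_interior, ⟨y, hy1, hy2⟩,
    fun z hz => ⟨interior_subset hz.2, hz.1⟩⟩

lemma setIntegral_pos_of_open {s U : Set (Fin n → ℝ)} {f : (Fin n → ℝ) → ℝ}
    (hs : MeasurableSet s) (hf : IntegrableOn f s) (h0 : ∀ x ∈ s, 0 ≤ f x) (hU : IsOpen U)
    (hne : U.Nonempty) (hUs : U ⊆ s) (hpos : ∀ x ∈ U, 0 < f x) : 0 < ∫ x in s, f x := by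
  rw [setIntegral_pos_iff_support_of_nonneg_ae]
  · refine lt_of_lt_of_le (hU.measure_pos volume hne) (measure_mono (fun x hx => ⟨?_, hUs hx⟩))
    exact (hpos x hx).ne'
  · exact (ae_restrict_iff' hs).mpr (Filter.Eventually.of_forall h0)
  · exact hf

lemma interior_stdS_nonempty : (interior (stdS n)).Nonempty := by
  by_contra hne
  rw [not_nonempty_iff_eq_empty] at hne
  have h8 := (convex_stdS (n := n)).addHaar_frontier (volume : Measure (Fin n → ℝ))
  rw [isClosed_stdS.frontier_eq, hne, sdiff_empty] at h8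
  have := volume_stdS_pos (n := n)
  rw [h8] at this
  simp at this

lemma sandwich_std (hn : 0 < n) (hK : IsConvexBody K)
    (h1 : stdS n ∩ {x | qq x ≤ 2 / ((n : ℝ) + 1)} ⊆ K)
    (h2 : K ⊆ stdS n ∪ {x | qq x ≤ 2 / ((n : ℝ) + 1)}) :
    isoConst K ≤ isoConst (stdS n) ∧ (isoConst K = isoConst (stdS n) → K = stdS n) := by
  obtain ⟨hKv, hKc, hKi⟩ := hK
  have hV : 0 < (volume K).toReal := volume_pos_of_interior hKi hKc
  set f : (Fin n → ℝ) → ℝ := fun x => qq x - 2 / ((n : ℝ) + 1) with hf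
  have hfc : Continuous f := by rw [hf]; have := continuous_qq (n := n); fun_prop
  have hKm := hKc.measurableSet
  have hSm := isCompact_stdS (n := n).measurableSet
  have eK : ∫ x in K, f x = (∫ x in K ∩ stdS n, f x) + ∫ x in K \ stdS n, f x :=
    (integral_inter_add_sdiff hSm (intOn hKc hfc)).symm
  have eS : ∫ x in stdS n, f x = (∫ x in K ∩ stdS n, f x) + ∫ x in stdS n \ K, f x := by
    rw [inter_comm K]
    exact (integral_inter_add_sdiff hKm (intOn isCompact_stdS hfc)).symm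
  have p1 : ∀ x ∈ K \ stdS n, 0 ≤ -f x := by
    intro x hx
    rcases h2 hx.1 with h | h
    · exact absurd h hx.2
    · have : qq x ≤ 2 / ((n : ℝ) + 1) := h
      simp only [hf]; linarith
  have p2 : ∀ x ∈ stdS n \ K, 0 < f x := by
    intro x hx
    by_contra hlt
    refine hx.2 (h1 ⟨hx.1, ?_⟩)
    simp only [hf] at hlt
    show qq x ≤ _
    linarith
  have q1 : 0 ≤ ∫ x in K \ stdS n, -f x := setIntegral_nonneg (hKm.diff hSm) p1
  have q2 : 0 ≤ ∫ x in stdS n \ K, f x :=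
    setIntegral_nonneg (hSm.diff hKm) (fun x hx => (p2 x hx).le)
  rw [integral_neg] at q1
  have H : ∫ x in K, f x ≤ ∫ x in stdS n, f x := by rw [eK, eS]; linarith
  obtain ⟨r1, r2⟩ := isoConst_criterion' hn hKc hV H
  refine ⟨r1, fun heq => ?_⟩
  have hnlt : ¬ (∫ x in K, f x < ∫ x in stdS n, f x) := fun h => (r2 h).ne heq
  refine Subset.antisymm ?_ ?_
  · by_contra hns
    obtain ⟨U, hU, hne, hUs⟩ := exists_open_piece hKv hKi isClosed_stdS hns
    have hneg : ∀ x ∈ U, 0 < -f x := by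
      intro x hx
      have := qq_lt_of_isOpen hn hU (c := 2 / ((n : ℝ) + 1)) (fun y hy => by
        have := p1 y (hUs hy)
        simp only [hf] at this
        linarith) x hx
      simp only [hf]; linarith
    have := setIntegral_pos_of_open (f := fun x => -f x) (hKm.diff hSm)
      ((intOn hKc hfc).neg.mono_set sdiff_subset) p1 hU hne hUs hneg
    rw [integral_neg] at this
    apply hnlt
    rw [eK, eS]; linarith
  · by_contra hns
    obtain ⟨U, hU, hne, hUs⟩ := exists_open_piece convex_stdS interior_stdS_nonempty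
      hKc.isClosed hns
    have := setIntegral_pos_of_open (f := f) (hSm.diff hKm)
      ((intOn isCompact_stdS hfc).mono_set sdiff_subset) (fun x hx => (p2 x hx).le) hU hne hUs
      (fun x hx => p2 x (hUs hx))
    apply hnlt
    rw [eK, eS]; linarith

lemma cov_std_inv : (covMatrix (stdS n))⁻¹ = Bmat n :=
  Matrix.inv_eq_left_inv Bmat_mul_cov

lemma quad_Bmat (y : Fin n → ℝ) :
    y ⬝ᵥ (Bmat n *ᵥ y) = ((n : ℝ) + 1) * (n + 2) * ((∑ i, y i) ^ 2 + ∑ i, y i ^ 2) := by
  simp only [dotProduct, mulVec, Bmat]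
  have h1 : ∀ i, ∑ j, ((n : ℝ) + 1) * (n + 2) * (if i = j then 2 else 1) * y j
      = ((n : ℝ) + 1) * (n + 2) * (∑ j, y j + y i) := by
    intro i
    have : ∀ j, ((n : ℝ) + 1) * (n + 2) * (if i = j then 2 else 1) * y j
        = ((n : ℝ) + 1) * (n + 2) * (y j + if i = j then y j else 0) := by
      intro j; split_ifs <;> ring
    simp_rw [this]
    rw [← Finset.mul_sum, Finset.sum_add_distrib]
    simp
  simp_rw [h1]
  have h2 : ∀ i, y i * (((n : ℝ) + 1) * (n + 2) * (∑ j, y j + y i))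
      = ((n : ℝ) + 1) * (n + 2) * (y i * ∑ j, y j + y i ^ 2) := by intro i; ring
  simp_rw [h2]
  rw [← Finset.mul_sum, Finset.sum_add_distrib, ← Finset.sum_mul]
  ring

lemma quad_std (y : Fin n → ℝ) :
    (y - centroid (stdS n)) ⬝ᵥ (Bmat n *ᵥ (y - centroid (stdS n)))
      = ((n : ℝ) + 1) * (n + 2) * (qq y - 1 / ((n : ℝ) + 1)) := by
  rw [quad_Bmat]
  simp only [Pi.sub_apply, centroid_stdS]
  have e4 : ∀ i, (y i - 1 / ((n : ℝ) + 1)) ^ 2
      = y i ^ 2 - 2 / ((n : ℝ) + 1) * y i + 1 / ((n : ℝ) + 1) ^ 2 := by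
    intro i; field_simp; ring
  simp_rw [e4]
  rw [Finset.sum_sub_distrib, Finset.sum_add_distrib, Finset.sum_sub_distrib, ← Finset.mul_sum]
  simp only [Finset.sum_const, Finset.card_univ, Fintype.card_fin, nsmul_eq_mul, qq]
  field_simp
  ring

lemma mem_momentEllipsoid_std (y : Fin n → ℝ) :
    y ∈ momentEllipsoid (stdS n) ↔ qq y ≤ 2 / ((n : ℝ) + 1) := by
  simp only [momentEllipsoid, mem_ofPred_eq, cov_std_inv, quad_std]
  have hn1 : (0 : ℝ) < (n : ℝ) + 1 := by positivity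
  have hn2 : (0 : ℝ) < (n : ℝ) + 2 := by positivity
  have e : ((n : ℝ) + 1) * (n + 2) * (qq y - 1 / ((n : ℝ) + 1))
      = (n + 2) * (((n : ℝ) + 1) * qq y - 1) := by field_simp
  rw [e, le_div_iff₀ hn1]
  constructor
  · intro h
    have : ((n : ℝ) + 1) * qq y - 1 ≤ 1 := by
      by_contra hc
      push Not at hc
      nlinarith
    linarith
  · intro h
    have : ((n : ℝ) + 1) * qq y - 1 ≤ 1 := by linarith
    nlinarith

lemma mem_momentEllipsoid_aff {A : Matrix (Fin n) (Fin n) ℝ} (hA : A.det ≠ 0) (b : Fin n → ℝ)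
    {S : Set (Fin n → ℝ)} (hS : IsCompact S) (hV : (volume S).toReal ≠ 0) (y : Fin n → ℝ) :
    aff A b y ∈ momentEllipsoid (aff A b '' S) ↔ y ∈ momentEllipsoid S := by
  simp only [momentEllipsoid, mem_ofPred_eq]
  rw [cov_aff_image hA b hS hV, centroid_aff_image hA b hS hV]
  have e1 : aff A b y - aff A b (centroid S) = A *ᵥ (y - centroid S) := by
    simp [aff, mulVec_sub]
  have hu : IsUnit A.det := isUnit_iff_ne_zero.mpr hA
  have hu' : IsUnit (Aᵀ).det := by rw [det_transpose]; exact hu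
  rw [e1, Matrix.mul_inv_rev, Matrix.mul_inv_rev]
  have e2 : (A *ᵥ (y - centroid S)) ⬝ᵥ
      ((Aᵀ⁻¹ * ((covMatrix S)⁻¹ * A⁻¹)) *ᵥ (A *ᵥ (y - centroid S)))
      = (y - centroid S) ⬝ᵥ ((covMatrix S)⁻¹ *ᵥ (y - centroid S)) := by
    rw [mulVec_mulVec, ← vecMul_transpose A, ← dotProduct_mulVec, mulVec_mulVec]
    congr 2
    rw [Matrix.mul_assoc Aᵀ⁻¹, ← Matrix.mul_assoc Aᵀ, Matrix.mul_nonsing_inv _ hu', Matrix.one_mul,
      Matrix.mul_assoc, Matrix.nonsing_inv_mul _ hu, Matrix.mul_one]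
  rw [e2]

/-- **Sandwich theorem.** -/
theorem sandwich (hn : 1 ≤ n) {T : Set (Fin n → ℝ)} (hK : IsConvexBody K) (hT : IsSimplex T)
    (h1 : T ∩ momentEllipsoid T ⊆ K) (h2 : K ⊆ T ∪ momentEllipsoid T) :
    isoConst K ≤ isoConst T ∧ (isoConst K = isoConst T ↔ K = T) := by
  obtain ⟨A, b, hA, rfl⟩ := hT.exists_aff
  have hVS := (volume_stdS_pos (n := n)).ne'
  have hu : IsUnit A.det := isUnit_iff_ne_zero.mpr hA
  have hu' : (A⁻¹).det ≠ 0 := by
    rw [det_nonsing_inv, Ring.inverse_eq_inv']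
    exact inv_ne_zero hA
  set K' := aff A⁻¹ (-(A⁻¹ *ᵥ b)) '' K with hK'
  have eA : ∀ x, aff A b (aff A⁻¹ (-(A⁻¹ *ᵥ b)) x) = x := by
    intro x
    rw [aff_aff, mul_nonsing_inv _ hu]
    simp [aff, mulVec_neg, mulVec_mulVec, mul_nonsing_inv _ hu]
  have eA' : ∀ x, aff A⁻¹ (-(A⁻¹ *ᵥ b)) (aff A b x) = x := by
    intro x
    rw [aff_aff, nonsing_inv_mul _ hu]
    simp [aff]
  have eK : K = aff A b '' K' := by
    rw [hK', ← image_comp]
    have : aff A b ∘ aff A⁻¹ (-(A⁻¹ *ᵥ b)) = id := funext eA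
    rw [this, image_id]
  obtain ⟨hKv, hKc, hKi⟩ := hK
  have hV : 0 < (volume K).toReal := volume_pos_of_interior hKi hKc
  have hK'c : IsCompact K' := isCompact_aff_image _ _ hKc
  have hK'v : Convex ℝ K' := by
    rw [hK', ← coe_affMap]; exact hKv.affine_image _
  have hV' : 0 < (volume K').toReal := by
    rw [hK', volume_aff_image hu' _ hKc.measurableSet]
    exact mul_pos (abs_pos.mpr hu') hV
  have hK'i : (interior K').Nonempty := by
    by_contra hne
    rw [not_nonempty_iff_eq_empty] at hne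
    have h8 := hK'v.addHaar_frontier (volume : Measure (Fin n → ℝ))
    rw [hK'c.isClosed.frontier_eq, hne, sdiff_empty] at h8
    rw [h8] at hV'
    simp at hV'
  have g1 : stdS n ∩ {x | qq x ≤ 2 / ((n : ℝ) + 1)} ⊆ K' := by
    rintro x ⟨hx1, hx2⟩
    have hx3 : aff A b x ∈ K := h1 ⟨mem_image_of_mem _ hx1,
      (mem_momentEllipsoid_aff hA b isCompact_stdS hVS x).mpr ((mem_momentEllipsoid_std x).mpr hx2)⟩
    rw [hK']
    exact ⟨aff A b x, hx3, eA' x⟩
  have g2 : K' ⊆ stdS n ∪ {x | qq x ≤ 2 / ((n : ℝ) + 1)} := by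
    intro x hx
    have hx1 : aff A b x ∈ K := by rw [eK]; exact mem_image_of_mem _ hx
    rcases h2 hx1 with h | h
    · left
      obtain ⟨z, hz, hzx⟩ := h
      rwa [← aff_injective hA b hzx]
    · right
      exact (mem_momentEllipsoid_std x).mp ((mem_momentEllipsoid_aff hA b isCompact_stdS hVS x).mp h)
  obtain ⟨r1, r2⟩ := sandwich_std hn ⟨hK'v, hK'c, hK'i⟩ g1 g2
  have e1 : isoConst K = isoConst K' := by
    conv_lhs => rw [eK]
    exact isoConst_aff_image hA b hK'c hV'.ne'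
  rw [e1, isoConst_aff_image hA b isCompact_stdS hVS]
  refine ⟨r1, fun h => ?_, fun h => ?_⟩
  · rw [eK, r2 h]
  · rw [← isoConst_aff_image hA b hK'c hV'.ne', ← eK, h, isoConst_aff_image hA b isCompact_stdS hVS]

end Vale.Agent.P254
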