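import Vale.Agent.P254.KeyIneq2

open MeasureTheory Set Real Matrix
open scoped Pointwise

namespace Vale.Agent.P254

variable {n : ℕ}

lemma null_hyperplane (a : Fin n → ℝ) (ha : a ≠ 0) (c : ℝ) :
    volume {x : Fin n → ℝ | ∑ i, a i * x i = c} = 0 := by
  classical
  set L : (Fin n → ℝ) →ₗ[ℝ] ℝ := ∑ i, a i • LinearMap.proj i with hL
  have hLx : ∀ x, L x = ∑ i, a i * x i := by intro x; simp [hL]
  have hker : (LinearMap.ker L) ≠ ⊤ := by
    intro h
    apply ha
    ext i
    have : (Pi.single i 1 : Fin n → ℝ) ∈ LinearMap.ker L := by rw [h]; trivial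
    rw [LinearMap.mem_ker, hLx] at this
    simpa [Pi.single_apply] using this
  by_cases hne : ∃ x0 : Fin n → ℝ, ∑ i, a i * x0 i = c
  · obtain ⟨x0, hx0⟩ := hne
    have e : {x : Fin n → ℝ | ∑ i, a i * x i = c} = (fun x => x + (-x0)) ⁻¹' (LinearMap.ker L : Set (Fin n → ℝ)) := by
      ext x
      simp only [mem_ofPred_eq, mem_preimage, SetLike.mem_coe, LinearMap.mem_ker]
      rw [map_add, map_neg, hLx, hLx, hx0]
      constructor
      · intro h; linarith
      · intro h; linarith
    rw [e, measure_preimage_add_right]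
    exact Measure.addHaar_submodule volume _ hker
  · push Not at hne
    have : {x : Fin n → ℝ | ∑ i, a i * x i = c} = ∅ := by
      ext x; simp [hne x]
    rw [this, measure_empty]

lemma null_eq_coord {i j : Fin n} (hij : i ≠ j) : volume {x : Fin n → ℝ | x i = x j} = 0 := by
  have h := null_hyperplane (Pi.single i 1 - Pi.single j 1 : Fin n → ℝ) (by
    intro h
    have := congrFun h i
    simp [hij] at this) 0
  refine measure_mono_null (fun x hx => ?_) h
  simp only [mem_ofPred_eq] at hx ⊢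
  simp [Pi.single_apply, sub_mul, Finset.sum_sub_distrib, hx]

/-- matrix of the shear -/
def shMat (k : Fin n) : Matrix (Fin n) (Fin n) ℝ :=
  1 + vecMulVec (fun i => if i = k then 0 else 1) (Pi.single k 1)

lemma shMat_mulVec (k : Fin n) (v : Fin n → ℝ) : shMat k *ᵥ v = sh k v := by
  ext i
  simp only [shMat, add_mulVec, one_mulVec, Pi.add_apply, vecMulVec_mulVec, sh]
  simp [dotProduct, Pi.single_apply]

lemma det_shMat (k : Fin n) : (shMat k).det = 1 := by
  rw [shMat, det_rank_one]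
  have : ∀ x : Fin n, (Pi.single k (1:ℝ) : Fin n → ℝ) x * (if x = k then 0 else 1) = 0 := by
    intro x
    by_cases h : x = k <;> simp [h]
  simp [this]

lemma image_sh (k : Fin n) : (fun v => shMat k *ᵥ v + 0) '' orth n =
    orth n ∩ {u | ∀ i, u k ≤ u i} := by
  ext u
  simp only [mem_image, mem_inter_iff, mem_ofPred_eq, add_zero, shMat_mulVec]
  constructor
  · rintro ⟨v, hv, rfl⟩
    refine ⟨sh_mem_orth k hv, fun i => ?_⟩
    simp only [sh]
    have h1 := hv i
    split_ifs with h <;> simp_all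
  · rintro ⟨hu, hk⟩
    refine ⟨fun i => u i - if i = k then 0 else u k, fun i => ?_, ?_⟩
    · have := hk i
      have h2 := hu i
      simp only
      split_ifs <;> linarith
    · ext i
      simp only [sh]
      split_ifs with h <;> simp

namespace SubLin

variable {G : (Fin n → ℝ) → ℝ} {ε : ℝ} (hG : SubLin G ε)
include hG

lemma key_ineq (hn : 2 ≤ n) :
    0 ≤ W (fun v : Fin n → ℝ => ∑ i, v i) (fun v => (∑ i, (v i) ^ 2 - 2 * ((n:ℝ) + 1) ^ 2 / n) * G v) := by
  have hTq : Tame (fun v : Fin n → ℝ => ∑ i, (v i) ^ 2 - 2 * ((n:ℝ) + 1) ^ 2 / n) :=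
    (Tame.sum _ fun i _ => (Tame.coord i).pow 2).sub (Tame.const _)
  have hint : IntegrableOn (fun v => ((∑ i, (v i) ^ 2 - 2 * ((n:ℝ) + 1) ^ 2 / n) * G v) *
      Real.exp (-∑ i, v i)) (orth n) :=
    (hTq.mul hG.tame).integrable (ℓ := fun v => ∑ i, v i) (by fun_prop) (fun v _ => le_rfl)
  have h := integral_argmin (n := n) (m := n) (by omega) (fun k v => v k) (fun k => continuous_apply k)
    (fun i j hij => null_eq_coord hij) measurableSet_orth hint
  simp only [W]
  rw [h]
  refine Finset.sum_nonneg fun k _ => ?_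
  rw [← image_sh, integral_image_affine _ _ (by rw [det_shMat]; exact one_ne_zero) measurableSet_orth,
    det_shMat, abs_one, one_mul]
  have := hG.key_region hn k
  simp only [W] at this
  refine this.trans_eq ?_
  refine setIntegral_congr_fun measurableSet_orth fun v _ => ?_
  simp only [add_zero, shMat_mulVec]
  rfl

/-- second order version -/
lemma second_order (hn : 2 ≤ n) (hε : ε * ((n:ℝ) * (n + 1) * (n + 2) * (n + 3)) ≤ 4) :
    0 ≤ ∫ v in orth n, (∑ i, (v i) ^ 2 - (∑ i, v i) ^ 2 / (n + 1) - (n + 2)) *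
      (Real.exp (-∑ i, v i) - Real.exp (-(∑ i, v i + G v))) := by
  have hn' : (2:ℝ) ≤ n := by exact_mod_cast hn
  have hn0 : (0:ℝ) < n := by linarith
  set s : (Fin n → ℝ) → ℝ := fun v => ∑ i, v i with hs
  have hsc : Continuous s := by rw [hs]; fun_prop
  have hss : ∀ v ∈ orth n, ∑ i, v i ≤ s v := fun v _ => le_rfl
  have hst : Tame s := Tame.sum _ fun i _ => Tame.coord i
  have hGt : Tame G := hG.tame
  have hlin : ∀ t : ℝ, ∀ v, s (t • v) = t * s v := by intro t v; simp [hs, Finset.mul_sum]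
  have hGh : ∀ t : ℝ, 0 < t → ∀ v ∈ orth n, G (t • v) = t ^ 1 * G v := by
    intro t ht v _; rw [hG.smul t ht.le, pow_one]
  have hsn : ∀ v ∈ orth n, 0 ≤ s v := fun v hv => sum_nonneg_of_orth hv
  set I := W s G with hI
  have hI0 : 0 ≤ I := by
    refine setIntegral_nonneg measurableSet_orth fun v hv => ?_
    exact mul_nonneg (hG.nonneg v hv) (Real.exp_pos _).le
  have J1 : W s (fun v => s v * G v) = (n + 1) * I := by
    have := W_homog hsc hss 1 hGt hlin hst hGh hG.nonneg
    simpa using this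
  have J2 : W s (fun v => s v * (s v * G v)) = (n + 2) * ((n + 1) * I) := by
    have := W_homog hsc hss 2 (hst.mul hGt) hlin hst
      (fun t ht v hv => by rw [hlin, hGh t ht v hv]; ring)
      (fun v hv => mul_nonneg (hsn v hv) (hG.nonneg v hv))
    rw [this, J1]; norm_num
  have J3 : W s (fun v => s v * (s v * (s v * G v))) = (n + 3) * ((n + 2) * ((n + 1) * I)) := by
    have := W_homog hsc hss 3 (hst.mul (hst.mul hGt)) hlin hst
      (fun t ht v hv => by rw [hlin, hGh t ht v hv]; ring)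
      (fun v hv => mul_nonneg (hsn v hv) (mul_nonneg (hsn v hv) (hG.nonneg v hv)))
    rw [this, J2]; norm_num
  have hq : Tame (fun v : Fin n → ℝ => ∑ i, (v i) ^ 2) := Tame.sum _ fun i _ => (Tame.coord i).pow 2
  have K1 : 2 * ((n:ℝ) + 1) ^ 2 / n * I ≤ W s (fun v => (∑ i, (v i) ^ 2) * G v) := by
    have := hG.key_ineq hn
    have e : (fun v => (∑ i, (v i) ^ 2 - 2 * ((n:ℝ) + 1) ^ 2 / n) * G v) =
        fun v => (∑ i, (v i) ^ 2) * G v - 2 * ((n:ℝ) + 1) ^ 2 / n * G v := by
      ext v; ring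
    rw [e, W_sub hsc hss (hq.mul hGt) ((Tame.const _).mul hGt), W_const_mul] at this
    linarith
  -- lower bound
  set f : (Fin n → ℝ) → ℝ := fun v => (((∑ i, (v i) ^ 2) * G v - (1 / ((n:ℝ) + 1)) * (s v * (s v * G v)))
    - (n + 2) * G v) - ε / 2 * (s v * (s v * (s v * G v))) with hf
  have hft : Tame f := (((hq.mul hGt).sub ((Tame.const _).mul (hst.mul (hst.mul hGt)))).sub
    ((Tame.const _).mul hGt)).sub ((Tame.const _).mul (hst.mul (hst.mul (hst.mul hGt))))
  have hWf : 0 ≤ W s f := by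
    rw [hf, W_sub hsc hss (((hq.mul hGt).sub ((Tame.const _).mul (hst.mul (hst.mul hGt)))).sub
      ((Tame.const _).mul hGt)) ((Tame.const _).mul (hst.mul (hst.mul (hst.mul hGt)))),
      W_sub hsc hss ((hq.mul hGt).sub ((Tame.const _).mul (hst.mul (hst.mul hGt)))) ((Tame.const _).mul hGt),
      W_sub hsc hss (hq.mul hGt) ((Tame.const _).mul (hst.mul (hst.mul hGt))),
      W_const_mul, W_const_mul, W_const_mul, J2, J3]
    have h1 : 2 * ((n:ℝ) + 1) ^ 2 / n * I - 1 / ((n:ℝ) + 1) * ((n + 2) * ((n + 1) * I)) - (n + 2) * I =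
        2 / n * I := by
      field_simp
      ring
    have h2 : ε / 2 * ((n + 3) * ((n + 2) * ((n + 1) * I))) ≤ 2 / n * I := by
      have : ε / 2 * ((n + 3) * ((n + 2) * ((n + 1) * I))) =
          (ε * ((n:ℝ) * (n + 1) * (n + 2) * (n + 3))) * (I / (2 * n)) := by
        field_simp
      rw [this]
      have h3 : 2 / n * I = 4 * (I / (2 * n)) := by
        field_simp
        ring
      rw [h3]
      have : 0 ≤ I / (2 * n) := by positivity
      exact mul_le_mul_of_nonneg_right hε this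
    have hI2 : W s G = I := rfl
    rw [hI2]
    linarith
  refine hWf.trans ?_
  have hgi : IntegrableOn (fun v => (∑ i, (v i) ^ 2 - (∑ i, v i) ^ 2 / (n + 1) - (n + 2)) *
      (Real.exp (-∑ i, v i) - Real.exp (-(∑ i, v i + G v)))) (orth n) := by
    have hT : Tame (fun v : Fin n → ℝ => ∑ i, (v i) ^ 2 - (∑ i, v i) ^ 2 / (n + 1) - (n + 2)) := by
      have := (hq.sub ((Tame.const (1 / ((n:ℝ)+1))).mul (hst.pow 2))).sub (Tame.const ((n:ℝ) + 2))
      refine (by
        convert this using 2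
        simp only [hs]
        ring)
    have h1 := hT.integrable (ℓ := fun v => ∑ i, v i) (by fun_prop) (fun v _ => le_rfl)
    have h2 := hT.integrable (ℓ := fun v => ∑ i, v i + G v) (by have := hG.cont; fun_prop)
      (fun v hv => by have := hG.nonneg v hv; linarith)
    refine (h1.sub h2).congr_fun (fun v _ => ?_) measurableSet_orth
    simp only [Pi.sub_apply]
    ring
  refine setIntegral_mono_on (hft.integrable hsc hss) hgi measurableSet_orth fun v hv => ?_
  have hG0 := hG.nonneg v hv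
  have hG1 := hG.le v hv
  have hs0 := hsn v hv
  have e1 : Real.exp (-∑ i, v i) - Real.exp (-(∑ i, v i + G v)) =
      (1 - Real.exp (-G v)) * Real.exp (-s v) := by
    rw [sub_mul, one_mul, ← Real.exp_add]
    congr 2
    simp only [hs]; ring
  rw [e1, ← mul_assoc]
  refine mul_le_mul_of_nonneg_right ?_ (Real.exp_pos _).le
  have hup : 1 - Real.exp (-G v) ≤ G v := by
    have := Real.add_one_le_exp (-G v); linarith
  have hlo : G v - (G v) ^ 2 / 2 ≤ 1 - Real.exp (-G v) := by
    have h1 := Real.quadratic_le_exp_of_nonneg hG0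
    have h2 : Real.exp (-G v) * Real.exp (G v) = 1 := by rw [← Real.exp_add]; simp
    have h3 := Real.exp_pos (-G v)
    have h4 : Real.exp (-G v) ≤ 1 - G v + G v ^ 2 / 2 := by
      by_contra hcon
      push Not at hcon
      have h5 : 0 < 1 - G v + G v ^ 2 / 2 := by nlinarith [sq_nonneg (G v - 1)]
      have h6 : (1 - G v + G v ^ 2 / 2) * (1 + G v + G v ^ 2 / 2) < Real.exp (-G v) * Real.exp (G v) :=
        mul_lt_mul hcon h1 (by positivity) h3.le
      rw [h2] at h6
      nlinarith [sq_nonneg (G v), sq_nonneg (G v ^ 2)]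
    linarith
  set q := ∑ i, (v i) ^ 2 with hqd
  have hq0 : 0 ≤ q := Finset.sum_nonneg fun i _ => sq_nonneg _
  have hqs : q ≤ (s v) ^ 2 := Finset.sum_sq_le_sq_sum_of_nonneg (fun i _ => hv i)
  have hr : 0 ≤ (∑ i, v i) ^ 2 / ((n:ℝ) + 1) + (n + 2) := by positivity
  have h7 : q * (G v - (G v) ^ 2 / 2) ≤ q * (1 - Real.exp (-G v)) := mul_le_mul_of_nonneg_left hlo hq0
  have h8 : ((∑ i, v i) ^ 2 / ((n:ℝ) + 1) + (n + 2)) * (1 - Real.exp (-G v)) ≤
      ((∑ i, v i) ^ 2 / ((n:ℝ) + 1) + (n + 2)) * G v := mul_le_mul_of_nonneg_left hup hr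
  have h9 : q * (G v) ^ 2 ≤ ε * (s v * (s v * (s v * G v))) := by
    calc q * (G v) ^ 2 ≤ (s v) ^ 2 * (G v) ^ 2 := by gcongr
      _ = (s v) ^ 2 * G v * G v := by ring
      _ ≤ (s v) ^ 2 * G v * (ε * s v) := by gcongr
      _ = _ := by ring
  simp only [hf]
  have h10 : (∑ i, v i) = s v := rfl
  rw [h10] at h8 ⊢
  have e2 : 1 / ((n:ℝ) + 1) * (s v * (s v * G v)) = (s v) ^ 2 / (n + 1) * G v := by ring
  rw [e2]
  nlinarith

end SubLin

end Vale.Agent.P254
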