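import Vale.Agent.P254.Region

open MeasureTheory Set Real Matrix
open scoped Pointwise Topology

namespace Vale.Agent.P254

variable {n : ℕ}

/-- the barycenter of the standard simplex -/
noncomputable def bar (n : ℕ) : Fin n → ℝ := fun _ => 1 / ((n:ℝ) + 1)

/-- the linear map `u ↦ u - (∑ u)/(n+1) 1` -/
noncomputable def mM (u : Fin n → ℝ) : Fin n → ℝ := fun i => u i - (∑ j, u j) / (n + 1)

lemma mM_add (u v : Fin n → ℝ) : mM (u + v) = mM u + mM v := by
  ext i; simp only [mM, Pi.add_apply, Finset.sum_add_distrib]; ring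

lemma mM_smul (t : ℝ) (u : Fin n → ℝ) : mM (t • u) = t • mM u := by
  ext i; simp only [mM, Pi.smul_apply, smul_eq_mul, ← Finset.mul_sum]; ring

@[fun_prop]
lemma continuous_mM : Continuous (mM : (Fin n → ℝ) → _) := by
  refine continuous_pi fun i => ?_
  simp only [mM]
  fun_prop

lemma sum_mM (u : Fin n → ℝ) : ∑ i, mM u i = (∑ i, u i) / (n + 1) := by
  simp only [mM, Finset.sum_sub_distrib, Finset.sum_const, Finset.card_univ, Fintype.card_fin,
    nsmul_eq_mul]
  field_simp
  ring

lemma sum_bar : ∑ i, bar n i = n / ((n:ℝ) + 1) := by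
  simp only [bar, Finset.sum_const, Finset.card_univ, Fintype.card_fin, nsmul_eq_mul]
  ring

/-- `K` is a closed convex subset of the standard simplex touching the facet `∑ x = 1` at its
centroid and containing the `(1+ε)⁻¹`-copy of the simplex with respect to the barycenter. -/
structure Near (K : Set (Fin n → ℝ)) (ε : ℝ) : Prop where
  convex : Convex ℝ K
  closed : IsClosed K
  sub : K ⊆ stdS n
  c0 : (fun _ => 1 / (n:ℝ)) ∈ K
  near : ∀ x ∈ stdS n, bar n + (1 + ε)⁻¹ • (x - bar n) ∈ K

/-- the translated body -/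
def trans (K : Set (Fin n → ℝ)) : Set (Fin n → ℝ) := {y | bar n + y ∈ K}

namespace Near

variable {K : Set (Fin n → ℝ)} {ε : ℝ} (hK : Near K ε) (hε : 0 ≤ ε)
include hK

lemma convex_trans : Convex ℝ (trans K) := hK.convex.translate_preimage_right (bar n)

lemma closed_trans : IsClosed (trans K) :=
  hK.closed.preimage (continuous_const.add continuous_id)

include hε in
lemma nhds_trans : trans K ∈ 𝓝 (0 : Fin n → ℝ) := by
  have h1 : IsOpen {x : Fin n → ℝ | (∀ i, 0 < x i) ∧ ∑ i, x i < 1} := by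
    have : {x : Fin n → ℝ | (∀ i, 0 < x i) ∧ ∑ i, x i < 1} =
        (⋂ i, {x : Fin n → ℝ | 0 < x i}) ∩ {x | ∑ i, x i < 1} := by ext; simp
    rw [this]
    exact (isOpen_iInter_of_finite fun i => isOpen_lt continuous_const (continuous_apply i)).inter
      (isOpen_lt (by fun_prop) continuous_const)
  have h2 : (fun y : Fin n → ℝ => bar n + (1 + ε) • y) ⁻¹'
      {x : Fin n → ℝ | (∀ i, 0 < x i) ∧ ∑ i, x i < 1} ∈ 𝓝 (0 : Fin n → ℝ) := by
    refine (h1.preimage (by fun_prop)).mem_nhds ?_
    simp only [mem_preimage, smul_zero, add_zero, mem_ofPred_eq]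
    refine ⟨fun i => by simp only [bar]; positivity, ?_⟩
    rw [sum_bar, div_lt_one (by positivity)]
    linarith
  refine Filter.mem_of_superset h2 fun y hy => ?_
  have hy' : bar n + (1 + ε) • y ∈ stdS n := ⟨fun i => (hy.1 i).le, hy.2.le⟩
  have := hK.near _ hy'
  rw [add_sub_cancel_left, inv_smul_smul₀ (by positivity)] at this
  exact this

include hε in
lemma subLin (hn : 1 ≤ n) : SubLin (fun u => gauge (trans K) (mM u) - ∑ i, u i) ε := by
  have hnh := hK.nhds_trans hε
  have habs : Absorbent ℝ (trans K) := absorbent_nhds_zero hnh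
  have hn0 : (0:ℝ) < n := by exact_mod_cast hn
  refine ⟨?_, ?_, ?_, ?_, ?_, ?_⟩
  · exact ((continuous_gauge hK.convex_trans hnh).comp continuous_mM).sub (by fun_prop)
  · intro u v
    have := gauge_add_le hK.convex_trans habs (mM u) (mM v)
    rw [mM_add]
    simp only [Pi.add_apply, Finset.sum_add_distrib]
    linarith
  · intro t ht u
    have := gauge_smul_of_nonneg (s := trans K) ht (mM u)
    rw [mM_smul, this]
    simp only [Pi.smul_apply, smul_eq_mul, ← Finset.mul_sum]
    ring
  · intro u hu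
    by_contra hneg
    push Not at hneg
    have hlt : gauge (trans K) (mM u) < ∑ i, u i := by linarith
    obtain ⟨r, hr, hrs, hmem⟩ := exists_lt_of_gauge_lt habs hlt
    rw [mem_smul_set_iff_inv_smul_mem₀ hr.ne'] at hmem
    have h1 := (hK.sub hmem).2
    simp only [Pi.add_apply, Finset.sum_add_distrib, Pi.smul_apply, smul_eq_mul, ← Finset.mul_sum,
      sum_mM, sum_bar] at h1
    have h2 : (n:ℝ) / (n + 1) + r⁻¹ * ((∑ i, u i) / (n + 1)) = (n + r⁻¹ * ∑ i, u i) / (n + 1) := by ring
    rw [h2, div_le_one (by positivity)] at h1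
    have h3 : r⁻¹ * ∑ i, u i ≤ 1 := by linarith
    rw [inv_mul_le_iff₀ hr] at h3
    linarith
  · have h1 : mM (fun _ : Fin n => (1:ℝ)) ∈ (n:ℝ) • trans K := by
      rw [mem_smul_set_iff_inv_smul_mem₀ hn0.ne']
      show bar n + (n:ℝ)⁻¹ • mM (fun _ : Fin n => (1:ℝ)) ∈ K
      have : bar n + (n:ℝ)⁻¹ • mM (fun _ : Fin n => (1:ℝ)) = fun _ => 1 / (n:ℝ) := by
        ext i
        simp only [bar, mM, Pi.add_apply, Pi.smul_apply, smul_eq_mul, Finset.sum_const,
          Finset.card_univ, Fintype.card_fin, nsmul_eq_mul, mul_one]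
        field_simp
        ring
      rw [this]
      exact hK.c0
    have h2 := gauge_le_of_mem hn0.le h1
    simp only [Finset.sum_const, Finset.card_univ, Fintype.card_fin, nsmul_eq_mul, mul_one]
    linarith
  · intro u hu
    have hs := sum_nonneg_of_orth hu
    rcases hs.eq_or_lt with h0 | hpos
    · have hu0 : u = 0 := by
        ext i
        exact (Finset.sum_eq_zero_iff_of_nonneg (fun i _ => hu i)).1 h0.symm i (Finset.mem_univ i)
      subst hu0
      have : mM (0 : Fin n → ℝ) = 0 := by ext i; simp [mM]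
      simp [this]
    · set s := ∑ i, u i with hsd
      have h1 : bar n + s⁻¹ • mM u ∈ stdS n := by
        have hx : bar n + s⁻¹ • mM u = fun i => s⁻¹ * u i := by
          ext i
          simp only [bar, mM, Pi.add_apply, Pi.smul_apply, smul_eq_mul, ← hsd]
          field_simp
          ring
        rw [hx]
        refine ⟨fun i => mul_nonneg (inv_nonneg.2 hs) (hu i), ?_⟩
        rw [← Finset.mul_sum, ← hsd, inv_mul_cancel₀ hpos.ne']
      have h2 := hK.near _ h1
      rw [add_sub_cancel_left, smul_smul, ← mul_inv] at h2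
      have h3 : mM u ∈ ((1 + ε) * s) • trans K := by
        rw [mem_smul_set_iff_inv_smul_mem₀ (by positivity)]
        exact h2
      have h4 := gauge_le_of_mem (by positivity) h3
      linarith

/-- the matrix of `mM`. -/
noncomputable def _root_.Vale.Agent.P254.mMat (n : ℕ) : Matrix (Fin n) (Fin n) ℝ :=
  1 + vecMulVec (fun _ => -(1 / ((n:ℝ) + 1))) (fun _ => 1)

omit hK in
lemma _root_.Vale.Agent.P254.mMat_mulVec (v : Fin n → ℝ) : mMat n *ᵥ v = mM v := by
  ext i
  simp only [mMat, add_mulVec, one_mulVec, Pi.add_apply, vecMulVec_mulVec, mM]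
  simp [dotProduct]
  ring

omit hK in
lemma _root_.Vale.Agent.P254.det_mMat : (mMat n).det = 1 / ((n:ℝ) + 1) := by
  rw [mMat, det_rank_one]
  simp
  field_simp
  ring

include hε in
lemma image_theta :
    (fun v => mMat n *ᵥ v + bar n) '' (stdS n \ {v | ∑ i, v i + (gauge (trans K) (mM v) - ∑ i, v i) ≤ 1}) =
    (stdS n ∩ {x | ∀ i, 1 - ∑ j, x j ≤ x i}) \ K := by
  have hnh := hK.nhds_trans hε
  have hiff : ∀ v, ∑ i, v i + (gauge (trans K) (mM v) - ∑ i, v i) ≤ 1 ↔ mM v + bar n ∈ K := by
    intro v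
    rw [add_sub_cancel, gauge_le_one_iff_mem_closure hK.convex_trans hnh, hK.closed_trans.closure_eq]
    show bar n + mM v ∈ K ↔ _
    rw [add_comm]
  have hsum : ∀ v : Fin n → ℝ, 1 - ∑ j, (mM v + bar n) j = (1 - ∑ i, v i) / (n + 1) := by
    intro v
    simp only [Pi.add_apply, Finset.sum_add_distrib, sum_mM, sum_bar]
    field_simp
    ring
  have hco : ∀ (v : Fin n → ℝ) i, (mM v + bar n) i = v i + (1 - ∑ i, v i) / (n + 1) := by
    intro v i
    simp only [Pi.add_apply, mM, bar]
    ring
  ext x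
  simp only [mMat_mulVec, mem_image, mem_sdiff, mem_ofPred_eq, mem_inter_iff, hiff]
  constructor
  · rintro ⟨v, ⟨hv, hvK⟩, rfl⟩
    refine ⟨⟨⟨fun i => ?_, ?_⟩, fun i => ?_⟩, hvK⟩
    · rw [hco]
      have := hv.1 i
      have h2 : 0 ≤ (1 - ∑ i, v i) / ((n:ℝ) + 1) := div_nonneg (by linarith [hv.2]) (by positivity)
      linarith
    · have h2 : 0 ≤ (1 - ∑ i, v i) / ((n:ℝ) + 1) := div_nonneg (by linarith [hv.2]) (by positivity)
      have := hsum v
      linarith
    · rw [hsum, hco]
      have := hv.1 i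
      linarith
  · rintro ⟨⟨hx, hx2⟩, hxK⟩
    set l := 1 - ∑ j, x j with hl
    have hl0 : 0 ≤ l := by have := hx.2; linarith
    have hv : mM (fun i => x i - l) + bar n = x := by
      ext i
      rw [hco]
      have : ∑ i, (x i - l) = (1 - l) - n * l := by
        rw [Finset.sum_sub_distrib]
        simp
        linarith
      rw [this]
      field_simp
      ring
    refine ⟨fun i => x i - l, ⟨⟨fun i => ?_, ?_⟩, ?_⟩, hv⟩
    · have := hx2 i
      simp only
      linarith
    · have : ∑ i, (x i - l) = (1 - l) - n * l := by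
        rw [Finset.sum_sub_distrib]
        simp
        linarith
      rw [this]
      have : 0 ≤ (n:ℝ) * l := by positivity
      linarith
    · rw [hv]; exact hxK

include hε in
/-- The region inequality in the original coordinates. -/
lemma region0 (hn : 2 ≤ n) (hε4 : ε * ((n:ℝ) * (n + 1) * (n + 2) * (n + 3)) ≤ 4) :
    0 ≤ ∫ x in (stdS n ∩ {x | ∀ i, 1 - ∑ j, x j ≤ x i}) \ K,
      (∑ i, (x i) ^ 2 + (1 - ∑ i, x i) ^ 2 - 2 / ((n:ℝ) + 1)) := by
  have hS := hK.subLin hε (by omega)
  have hmeas : MeasurableSet (stdS n \ {v : Fin n → ℝ | ∑ i, v i + (gauge (trans K) (mM v) - ∑ i, v i) ≤ 1}) := by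
    refine measurableSet_stdS.diff ?_
    have := hS.cont
    exact (isClosed_le (by fun_prop) continuous_const).measurableSet
  rw [← hK.image_theta hε, integral_image_affine _ _ (by rw [det_mMat]; positivity) hmeas]
  refine mul_nonneg (abs_nonneg _) ?_
  have := hS.solid hn hε4
  refine this.trans_eq (integral_congr_ae (Filter.Eventually.of_forall fun v => ?_))
  simp only [mMat_mulVec]
  have hsum : 1 - ∑ j, (mM v + bar n) j = (1 - ∑ i, v i) / (n + 1) := by
    simp only [Pi.add_apply, Finset.sum_add_distrib, sum_mM, sum_bar]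
    field_simp
    ring
  have hco : ∀ i, (mM v + bar n) i = v i + (1 - ∑ i, v i) / (n + 1) := by
    intro i
    simp only [Pi.add_apply, mM, bar]
    ring
  have hsq : ∑ i, ((mM v + bar n) i) ^ 2 = ∑ i, (v i) ^ 2 +
      2 * ((1 - ∑ i, v i) / (n + 1)) * ∑ i, v i + n * ((1 - ∑ i, v i) / (n + 1)) ^ 2 := by
    have h1 : ∀ i, ((mM v + bar n) i) ^ 2 = (v i) ^ 2 + 2 * ((1 - ∑ i, v i) / (n + 1)) * v i +
        ((1 - ∑ i, v i) / (n + 1)) ^ 2 := by intro i; rw [hco]; ring
    simp only [h1, Finset.sum_add_distrib, ← Finset.mul_sum, Finset.sum_const, Finset.card_univ,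
      Fintype.card_fin, nsmul_eq_mul]
  rw [hsum, hsq]
  field_simp
  ring

end Near

end Vale.Agent.P254
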