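import Vale.Agent.P254.Tame

open MeasureTheory Set Real Matrix
open scoped Pointwise

namespace Vale.Agent.P254

variable {n : ℕ}

/-- the shear `v ↦ v + v_k (1 - e_k)`. -/
def sh (k : Fin n) (v : Fin n → ℝ) : Fin n → ℝ := fun i => v i + if i = k then 0 else v k

/-- the sum of the coordinates of `sh k v`. -/
def lk (k : Fin n) (v : Fin n → ℝ) : ℝ := ∑ i, sh k v i

lemma sh_add (k : Fin n) (v w : Fin n → ℝ) : sh k (v + w) = sh k v + sh k w := by
  ext i; simp only [sh, Pi.add_apply]; split_ifs <;> ring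

lemma sh_smul (k : Fin n) (t : ℝ) (v : Fin n → ℝ) : sh k (t • v) = t • sh k v := by
  ext i; simp only [sh, Pi.smul_apply, smul_eq_mul]; split_ifs <;> ring

@[fun_prop]
lemma continuous_sh (k : Fin n) : Continuous (sh k) := by
  refine continuous_pi fun i => ?_
  by_cases h : i = k
  · simp only [sh, h, if_true]; fun_prop
  · simp only [sh, h, if_false]; fun_prop

lemma lk_eq (k : Fin n) (v : Fin n → ℝ) : lk k v = ∑ i, v i + (n - 1) * v k := by
  simp only [lk, sh, Finset.sum_add_distrib]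
  congr 1
  have : ∀ i : Fin n, (if i = k then (0:ℝ) else v k) = v k - if i = k then v k else 0 := by
    intro i; split_ifs <;> simp
  simp only [this, Finset.sum_sub_distrib, Finset.sum_const, Finset.card_univ, Fintype.card_fin,
    nsmul_eq_mul, Finset.sum_ite_eq', Finset.mem_univ, if_true]
  ring

@[fun_prop]
lemma continuous_lk (k : Fin n) : Continuous (lk k) := by
  have : lk k = fun v => ∑ i, v i + ((n:ℝ) - 1) * v k := funext (lk_eq k)
  rw [this]; fun_prop

lemma one_le_n (k : Fin n) : (1:ℝ) ≤ n := by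
  have : 1 ≤ n := k.pos
  exact_mod_cast this

lemma sum_le_lk (k : Fin n) {v : Fin n → ℝ} (hv : v ∈ orth n) : ∑ i, v i ≤ lk k v := by
  rw [lk_eq]
  have := hv k
  have h1 := one_le_n k
  nlinarith

lemma lk_le (k : Fin n) {v : Fin n → ℝ} (hv : v ∈ orth n) : lk k v ≤ n * ∑ i, v i := by
  rw [lk_eq]
  have h0 : v k ≤ ∑ i, v i := Finset.single_le_sum (fun i _ => hv i) (Finset.mem_univ k)
  have h1 := one_le_n k
  nlinarith

lemma lk_smul (k : Fin n) (t : ℝ) (v : Fin n → ℝ) : lk k (t • v) = t * lk k v := by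
  simp only [lk, sh_smul, Pi.smul_apply, smul_eq_mul, Finset.mul_sum]

lemma sh_mem_orth (k : Fin n) {v : Fin n → ℝ} (hv : v ∈ orth n) : sh k v ∈ orth n := by
  intro i
  simp only [sh]
  have h1 := hv i
  have h2 := hv k
  split_ifs <;> linarith

lemma sum_sq_sh (k : Fin n) (v : Fin n → ℝ) :
    ∑ i, (sh k v i) ^ 2 = ∑ i, (v i) ^ 2 + 2 * v k * (∑ i, v i - v k) + (n - 1) * v k ^ 2 := by
  have : ∀ i, (sh k v i) ^ 2 = (v i) ^ 2 + 2 * v k * v i + v k ^ 2
      - if i = k then 2 * v k * v k + v k ^ 2 else 0 := by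
    intro i
    simp only [sh]
    split_ifs with h
    · rw [h]; ring
    · ring
  simp only [this, Finset.sum_sub_distrib, Finset.sum_add_distrib, ← Finset.mul_sum,
    Finset.sum_const, Finset.card_univ, Fintype.card_fin, nsmul_eq_mul, Finset.sum_ite_eq',
    Finset.mem_univ, if_true]
  ring

lemma sum_update (j : Fin n) (v : Fin n → ℝ) (a : ℝ) :
    ∑ i, Function.update v j a i = ∑ i, v i - v j + a := by
  rw [← Finset.add_sum_erase _ _ (Finset.mem_univ j), ← Finset.add_sum_erase _ v (Finset.mem_univ j)]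
  have : ∑ i ∈ Finset.univ.erase j, Function.update v j a i = ∑ i ∈ Finset.univ.erase j, v i :=
    Finset.sum_congr rfl fun i hi => Function.update_of_ne (Finset.ne_of_mem_erase hi) _ _
  rw [this, Function.update_self]
  ring

lemma update_mem_orth (j : Fin n) {v : Fin n → ℝ} (hv : v ∈ orth n) {a : ℝ} (ha : 0 ≤ a) :
    Function.update v j a ∈ orth n := by
  intro i
  rcases eq_or_ne i j with rfl | h
  · simpa using ha
  · rw [Function.update_of_ne h]; exact hv i

lemma Tame.comp_update {f : (Fin n → ℝ) → ℝ} (hf : Tame f) (j : Fin n) {a : ℝ} (ha : 0 ≤ a) :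
    Tame (fun v => f (Function.update v j a)) := by
  obtain ⟨hc, C, k, hC, hb⟩ := hf
  refine ⟨hc.comp (continuous_id.update j continuous_const), C * (1 + a) ^ k, k, by positivity, fun v hv => ?_⟩
  have hs := sum_nonneg_of_orth hv
  refine (hb _ (update_mem_orth j hv ha)).trans ?_
  rw [sum_update, mul_assoc, ← mul_pow]
  have h1 := hv j
  have h2 : 0 ≤ ∑ i, v i - v j := by
    have := Finset.single_le_sum (fun i _ => hv i) (Finset.mem_univ j) (f := v)
    linarith
  gcongr
  nlinarith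

/-- weighted integral over the orthant -/
noncomputable def W (ℓ : (Fin n → ℝ) → ℝ) (f : (Fin n → ℝ) → ℝ) : ℝ :=
  ∫ v in orth n, f v * Real.exp (-ℓ v)

section W

variable {ℓ : (Fin n → ℝ) → ℝ} (hℓ : Continuous ℓ) (hℓs : ∀ v ∈ orth n, ∑ i, v i ≤ ℓ v)
include hℓ hℓs

lemma W_add {f g : (Fin n → ℝ) → ℝ} (hf : Tame f) (hg : Tame g) :
    W ℓ (fun v => f v + g v) = W ℓ f + W ℓ g := by
  simp only [W, add_mul]
  exact integral_add (hf.integrable hℓ hℓs) (hg.integrable hℓ hℓs)

lemma W_sub {f g : (Fin n → ℝ) → ℝ} (hf : Tame f) (hg : Tame g) :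
    W ℓ (fun v => f v - g v) = W ℓ f - W ℓ g := by
  simp only [W, sub_mul]
  exact integral_sub (hf.integrable hℓ hℓs) (hg.integrable hℓ hℓs)

omit hℓ hℓs in
lemma W_const_mul (c : ℝ) (f : (Fin n → ℝ) → ℝ) :
    W ℓ (fun v => c * f v) = c * W ℓ f := by
  simp only [W, mul_assoc]
  exact integral_const_mul _ _

lemma W_sum {ι : Type*} (s : Finset ι) {f : ι → (Fin n → ℝ) → ℝ} (hf : ∀ i ∈ s, Tame (f i)) :
    W ℓ (fun v => ∑ i ∈ s, f i v) = ∑ i ∈ s, W ℓ (f i) := by
  simp only [W, Finset.sum_mul]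
  exact integral_finsetSum _ fun i hi => (hf i hi).integrable hℓ hℓs

lemma W_mono {f g : (Fin n → ℝ) → ℝ} (hf : Tame f) (hg : Tame g) (h : ∀ v ∈ orth n, f v ≤ g v) :
    W ℓ f ≤ W ℓ g := by
  refine setIntegral_mono_on (hf.integrable hℓ hℓs) (hg.integrable hℓ hℓs) measurableSet_orth fun v hv => ?_
  exact mul_le_mul_of_nonneg_right (h v hv) (Real.exp_pos _).le

/-- homogeneity identity for tame functions -/
lemma W_homog (k : ℕ) {f : (Fin n → ℝ) → ℝ} (hf : Tame f)
    (hlin : ∀ t : ℝ, ∀ v, ℓ (t • v) = t * ℓ v) (hlt : Tame ℓ)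
    (hfh : ∀ t : ℝ, 0 < t → ∀ v ∈ orth n, f (t • v) = t ^ k * f v)
    (hfn : ∀ v ∈ orth n, 0 ≤ f v) :
    W ℓ (fun v => ℓ v * f v) = (n + k) * W ℓ f := by
  have h := homog_ibp ℓ f k hlin hfh hfn (hf.integrable hℓ hℓs)
    (by
      have := (hlt.mul hf).integrable hℓ hℓs
      refine this.congr_fun (fun v _ => ?_) measurableSet_orth
      ring)
  simp only [W]
  rw [← h]
  refine integral_congr_ae (Filter.Eventually.of_forall fun v => ?_)
  ring

end W

/-- Sublinear functions used in the argument. -/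
structure SubLin (G : (Fin n → ℝ) → ℝ) (ε : ℝ) : Prop where
  cont : Continuous G
  add : ∀ u v, G (u + v) ≤ G u + G v
  smul : ∀ t : ℝ, 0 ≤ t → ∀ u, G (t • u) = t * G u
  nonneg : ∀ u ∈ orth n, 0 ≤ G u
  one : G (fun _ => 1) ≤ 0
  le : ∀ u ∈ orth n, G u ≤ ε * ∑ i, u i

namespace SubLin

variable {G : (Fin n → ℝ) → ℝ} {ε : ℝ} (hG : SubLin G ε)
include hG

lemma tame_comp_sh (k : Fin n) : Tame (fun v => G (sh k v)) := by
  refine Tame.of_bound (hG.cont.comp (continuous_sh k)) (|ε| * n) fun v hv => ?_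
  have h1 := hG.nonneg _ (sh_mem_orth k hv)
  have h2 := hG.le _ (sh_mem_orth k hv)
  have h3 := lk_le k hv
  have h4 := sum_nonneg_of_orth hv
  have h5 := sum_nonneg_of_orth (sh_mem_orth k hv)
  rw [abs_of_nonneg h1]
  calc G (sh k v) ≤ ε * ∑ i, sh k v i := h2
    _ ≤ |ε| * ∑ i, sh k v i := by gcongr; exact le_abs_self _
    _ ≤ |ε| * (n * ∑ i, v i) := by gcongr; exact h3
    _ ≤ |ε| * n * (1 + ∑ i, v i) := by
        have : 0 ≤ |ε| * n := by positivity
        nlinarith

lemma tame : Tame G := by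
  refine Tame.of_bound hG.cont |ε| fun v hv => ?_
  rw [abs_of_nonneg (hG.nonneg v hv)]
  have h4 := sum_nonneg_of_orth hv
  calc G v ≤ ε * ∑ i, v i := hG.le v hv
    _ ≤ |ε| * ∑ i, v i := by gcongr; exact le_abs_self _
    _ ≤ |ε| * (1 + ∑ i, v i) := by
        have := abs_nonneg ε
        nlinarith

lemma convex_line (k j : Fin n) (v : Fin n → ℝ) :
    ConvexOn ℝ univ (fun t => G (sh k (Function.update v j t))) := by
  refine ⟨convex_univ, fun x _ y _ a b ha hb hab => ?_⟩
  have e : Function.update v j (a • x + b • y) =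
      a • Function.update v j x + b • Function.update v j y := by
    ext i
    rcases eq_or_ne i j with rfl | h
    · simp
    · simp only [Pi.add_apply, Pi.smul_apply, Function.update_of_ne h, smul_eq_mul]
      rw [← add_mul, hab, one_mul]
  simp only
  rw [e, sh_add, sh_smul, sh_smul]
  refine (hG.add _ _).trans ?_
  rw [hG.smul a ha, hG.smul b hb]
  rfl

lemma antitone_line (k : Fin n) (v : Fin n → ℝ) {h : ℝ} (hh : 0 ≤ h) :
    G (sh k (Function.update v k (v k + h))) ≤ G (sh k v) := by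
  have e : sh k (Function.update v k (v k + h)) = sh k v + h • (fun _ => (1:ℝ)) := by
    ext i
    simp only [sh, Pi.add_apply, Pi.smul_apply, smul_eq_mul, mul_one, Function.update_self]
    rcases eq_or_ne i k with rfl | hi
    · simp
    · rw [Function.update_of_ne hi, if_neg hi, if_neg hi]; ring
  rw [e]
  refine (hG.add _ _).trans ?_
  rw [hG.smul h hh]
  have := mul_nonpos_of_nonneg_of_nonpos hh hG.one
  linarith

end SubLin

end Vale.Agent.P254
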