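import Vale.Agent.P254.KeyIneq

open MeasureTheory Set Real Matrix
open scoped Pointwise

namespace Vale.Agent.P254

variable {n : ℕ}

lemma tame_lk (k : Fin n) : Tame (lk k) := by
  refine Tame.of_bound (continuous_lk k) n fun v hv => ?_
  have h1 := sum_nonneg_of_orth (sh_mem_orth k hv)
  have h2 := lk_le k hv
  have h3 := one_le_n k
  have : (∑ i, sh k v i) = lk k v := rfl
  rw [this] at h1
  rw [abs_of_nonneg h1]
  linarith

lemma one_dim_L : ∫ t in Ioi (0:ℝ), (t ^ 2 - 4 * t + 2) * Real.exp (-t) = 0 := by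
  have h0 := integral_Ioi_pow_mul_exp 0 (c := 1) one_pos
  have h1 := integral_Ioi_pow_mul_exp 1 (c := 1) one_pos
  have h2 := integral_Ioi_pow_mul_exp 2 (c := 1) one_pos
  have i0 := integrableOn_pow_mul_exp 0 (c := 1) one_pos
  have i1 := integrableOn_pow_mul_exp 1 (c := 1) one_pos
  have i2 := integrableOn_pow_mul_exp 2 (c := 1) one_pos
  have e : ∀ t : ℝ, (t ^ 2 - 4 * t + 2) * Real.exp (-t) =
      t ^ 2 * Real.exp (-(1 * t)) - 4 * (t ^ 1 * Real.exp (-(1 * t))) + 2 * (t ^ 0 * Real.exp (-(1 * t))) := by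
    intro t; rw [one_mul]; ring
  simp only [e]
  have i3 : IntegrableOn (fun t : ℝ => t ^ 2 * Real.exp (-(1 * t)) - 4 * (t ^ 1 * Real.exp (-(1 * t)))) (Ioi 0) :=
    i2.sub (i1.const_mul 4)
  rw [integral_add i3 (i0.const_mul 2), integral_sub i2 (i1.const_mul 4),
    integral_const_mul, integral_const_mul, h0, h1, h2]
  norm_num

lemma one_dim_tL : ∫ t in Ioi (0:ℝ), ((t ^ 2 - 4 * t + 2) * t) * Real.exp (-t) = 0 := by
  have h0 := integral_Ioi_pow_mul_exp 1 (c := 1) one_pos
  have h1 := integral_Ioi_pow_mul_exp 2 (c := 1) one_pos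
  have h2 := integral_Ioi_pow_mul_exp 3 (c := 1) one_pos
  have i0 := integrableOn_pow_mul_exp 1 (c := 1) one_pos
  have i1 := integrableOn_pow_mul_exp 2 (c := 1) one_pos
  have i2 := integrableOn_pow_mul_exp 3 (c := 1) one_pos
  have e : ∀ t : ℝ, ((t ^ 2 - 4 * t + 2) * t) * Real.exp (-t) =
      t ^ 3 * Real.exp (-(1 * t)) - 4 * (t ^ 2 * Real.exp (-(1 * t))) + 2 * (t ^ 1 * Real.exp (-(1 * t))) := by
    intro t; rw [one_mul]; ring
  simp only [e]
  have i3 : IntegrableOn (fun t : ℝ => t ^ 3 * Real.exp (-(1 * t)) - 4 * (t ^ 2 * Real.exp (-(1 * t)))) (Ioi 0) :=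
    i2.sub (i1.const_mul 4)
  rw [integral_add i3 (i0.const_mul 2), integral_sub i2 (i1.const_mul 4),
    integral_const_mul, integral_const_mul, h0, h1, h2]
  norm_num [Nat.factorial]

lemma one_dim_B1 {c : ℝ} (hc : 0 < c) : ∫ t in Ioi (0:ℝ), (1 - c * t) * Real.exp (-(c * t)) = 0 := by
  have h0 := integral_Ioi_pow_mul_exp 0 hc
  have h1 := integral_Ioi_pow_mul_exp 1 hc
  have i0 := integrableOn_pow_mul_exp 0 hc
  have i1 := integrableOn_pow_mul_exp 1 hc
  have e : ∀ t : ℝ, (1 - c * t) * Real.exp (-(c * t)) =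
      (t ^ 0 * Real.exp (-(c * t))) - c * (t ^ 1 * Real.exp (-(c * t))) := by
    intro t; ring
  simp only [e]
  rw [integral_sub i0 (i1.const_mul c), integral_const_mul, h0, h1]
  field_simp
  norm_num
  ring

lemma one_dim_B2 {c : ℝ} (hc : 0 < c) : ∫ t in Ioi (0:ℝ), (2 - (c * t) ^ 2) * Real.exp (-(c * t)) = 0 := by
  have h0 := integral_Ioi_pow_mul_exp 0 hc
  have h1 := integral_Ioi_pow_mul_exp 2 hc
  have i0 := integrableOn_pow_mul_exp 0 hc
  have i1 := integrableOn_pow_mul_exp 2 hc
  have e : ∀ t : ℝ, (2 - (c * t) ^ 2) * Real.exp (-(c * t)) =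
      2 * (t ^ 0 * Real.exp (-(c * t))) - c ^ 2 * (t ^ 2 * Real.exp (-(c * t))) := by
    intro t; ring
  simp only [e]
  rw [integral_sub (i0.const_mul 2) (i1.const_mul (c^2)), integral_const_mul, integral_const_mul, h0, h1]
  field_simp
  norm_num [Nat.factorial]
  ring

namespace SubLin

variable {G : (Fin n → ℝ) → ℝ} {ε : ℝ} (hG : SubLin G ε)
include hG

/-- coordinatewise convexity -/
lemma key_a {j k : Fin n} (hjk : j ≠ k) :
    0 ≤ W (lk k) (fun v => (v j ^ 2 - 4 * v j + 2) * G (sh k v)) := by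
  set a : ℝ := 2 - √2 with ha
  set b : ℝ := 2 + √2 with hb
  have hs2 : √2 * √2 = 2 := Real.mul_self_sqrt (by norm_num)
  have hs1 : 0 < √2 := by positivity
  have hs3 : √2 < 2 := by nlinarith
  have hab : a < b := by rw [ha, hb]; linarith
  have ha0 : 0 ≤ a := by rw [ha]; linarith
  have hb0 : 0 ≤ b := by linarith
  have hL : ∀ t : ℝ, t ^ 2 - 4 * t + 2 = (t - a) * (t - b) := by
    intro t; rw [ha, hb]; linear_combination hs2
  set P : (Fin n → ℝ) → ℝ := fun v => G (sh k v) with hP
  have hPt : Tame P := hG.tame_comp_sh k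
  have hPa : Tame (fun v => P (Function.update v j a)) := hPt.comp_update j ha0
  have hPb : Tame (fun v => P (Function.update v j b)) := hPt.comp_update j hb0
  set D : (Fin n → ℝ) → ℝ := fun v => (b - a)⁻¹ * (P (Function.update v j b) - P (Function.update v j a)) with hD
  have hDt : Tame D := (Tame.const _).mul (hPb.sub hPa)
  set E : (Fin n → ℝ) → ℝ := fun v => P (Function.update v j a) - a * D v with hE
  have hEt : Tame E := hPa.sub ((Tame.const _).mul hDt)
  have hLt : Tame (fun v : Fin n → ℝ => v j ^ 2 - 4 * v j + 2) :=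
    (((Tame.coord j).pow 2).sub ((Tame.const 4).mul (Tame.coord j))).add (Tame.const 2)
  have hDu : ∀ v t, D (Function.update v j t) = D v := by intro v t; simp [hD]
  have hEu : ∀ v t, E (Function.update v j t) = E v := by
    intro v t; simp only [hE, hDu]; simp
  have hlu : ∀ v t, lk k (Function.update v j t) - (Function.update v j t) j = lk k v - v j := by
    intro v t
    rw [lk_eq, lk_eq, sum_update, Function.update_self, Function.update_of_ne hjk.symm]
    ring
  -- the comparison function
  have h1 : W (lk k) (fun v => (v j ^ 2 - 4 * v j + 2) * (E v + v j * D v)) ≤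
      W (lk k) (fun v => (v j ^ 2 - 4 * v j + 2) * P v) := by
    refine W_mono (continuous_lk k) (fun v hv => sum_le_lk k hv)
      (hLt.mul (hEt.add ((Tame.coord j).mul hDt))) (hLt.mul hPt) fun v hv => ?_
    have h := convex_interp (hG.convex_line k j v) hab (v j)
    simp only [Function.update_eq_self] at h
    have e : (v j - a) * (v j - b) * (G (sh k v) - (G (sh k (Function.update v j a)) +
        (v j - a) / (b - a) * (G (sh k (Function.update v j b)) - G (sh k (Function.update v j a))))) =
        (v j ^ 2 - 4 * v j + 2) * P v - (v j ^ 2 - 4 * v j + 2) * (E v + v j * D v) := by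
      rw [hL (v j)]
      simp only [hE, hD, hP]
      ring
    rw [e] at h
    linarith
  have h2 : W (lk k) (fun v => (v j ^ 2 - 4 * v j + 2) * (E v + v j * D v)) = 0 := by
    have e1 : (fun v : Fin n → ℝ => (v j ^ 2 - 4 * v j + 2) * (E v + v j * D v)) =
        fun v => (v j ^ 2 - 4 * v j + 2) * E v + ((v j ^ 2 - 4 * v j + 2) * v j) * D v := by
      ext v; ring
    rw [e1, W_add (continuous_lk k) (fun v hv => sum_le_lk k hv) (hLt.mul hEt)
      ((hLt.mul (Tame.coord j)).mul hDt)]
    have z1 : W (lk k) (fun v => (v j ^ 2 - 4 * v j + 2) * E v) = 0 := by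
      have := integral_orth_mul_eq_zero j (fun t => (t ^ 2 - 4 * t + 2) * Real.exp (-t))
        (fun v => E v * Real.exp (-(lk k v - v j)))
        (by intro v t; simp only [hEu, hlu]) one_dim_L
      rw [← this]
      simp only [W]
      refine integral_congr_ae (Filter.Eventually.of_forall fun v => ?_)
      have : Real.exp (-lk k v) = Real.exp (-(v j)) * Real.exp (-(lk k v - v j)) := by
        rw [← Real.exp_add]; congr 1; ring
      beta_reduce
      rw [this]; ring
    have z2 : W (lk k) (fun v => ((v j ^ 2 - 4 * v j + 2) * v j) * D v) = 0 := by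
      have := integral_orth_mul_eq_zero j (fun t => ((t ^ 2 - 4 * t + 2) * t) * Real.exp (-t))
        (fun v => D v * Real.exp (-(lk k v - v j)))
        (by intro v t; simp only [hDu, hlu]) one_dim_tL
      rw [← this]
      simp only [W]
      refine integral_congr_ae (Filter.Eventually.of_forall fun v => ?_)
      have : Real.exp (-lk k v) = Real.exp (-(v j)) * Real.exp (-(lk k v - v j)) := by
        rw [← Real.exp_add]; congr 1; ring
      beta_reduce
      rw [this]; ring
    rw [z1, z2, add_zero]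
  rw [h2] at h1
  exact h1

/-- monotonicity in the direction of the minimal coordinate -/
lemma key_b (k : Fin n) (φ : ℝ → ℝ) {m0 : ℝ} (hm0 : 0 ≤ m0) (hsign : ∀ t : ℝ, 0 ≤ t → 0 ≤ φ t * (m0 - t))
    (hφt : Tame (fun v : Fin n → ℝ => φ (v k)))
    (hφ : ∫ t in Ioi (0:ℝ), φ t * Real.exp (-(n * t)) = 0) :
    0 ≤ W (lk k) (fun v => φ (v k) * G (sh k v)) := by
  set P : (Fin n → ℝ) → ℝ := fun v => G (sh k v) with hP
  have hPt : Tame P := hG.tame_comp_sh k
  have hPa : Tame (fun v => P (Function.update v k m0)) := hPt.comp_update k hm0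
  have h1 : W (lk k) (fun v => φ (v k) * P (Function.update v k m0)) ≤
      W (lk k) (fun v => φ (v k) * P v) := by
    refine W_mono (continuous_lk k) (fun v hv => sum_le_lk k hv) (hφt.mul hPa) (hφt.mul hPt) fun v hv => ?_
    have hs := hsign (v k) (hv k)
    rcases lt_trichotomy (v k) m0 with hlt | heq | hgt
    · have h2 : 0 ≤ φ (v k) := by
        by_contra hneg
        push Not at hneg
        have := mul_neg_of_neg_of_pos hneg (sub_pos.2 hlt)
        linarith
      have h3 := hG.antitone_line k v (h := m0 - v k) (by linarith)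
      rw [add_sub_cancel] at h3
      exact mul_le_mul_of_nonneg_left h3 h2
    · rw [← heq, Function.update_eq_self]
    · have h2 : φ (v k) ≤ 0 := by
        by_contra hpos
        push Not at hpos
        have := mul_neg_of_pos_of_neg hpos (sub_neg.2 hgt)
        linarith
      have h3 := hG.antitone_line k (Function.update v k m0) (h := v k - m0) (by linarith)
      simp only [Function.update_self, Function.update_idem, add_sub_cancel, Function.update_eq_self] at h3
      exact mul_le_mul_of_nonpos_left h3 h2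
  have h2 : W (lk k) (fun v => φ (v k) * P (Function.update v k m0)) = 0 := by
    have := integral_orth_mul_eq_zero k (fun t => φ t * Real.exp (-(n * t)))
      (fun v => P (Function.update v k m0) * Real.exp (-(∑ i, v i - v k)))
      (by
        intro v t
        simp only [Function.update_idem, Function.update_self, sum_update]
        congr 3
        ring) hφ
    rw [← this]
    simp only [W]
    refine integral_congr_ae (Filter.Eventually.of_forall fun v => ?_)
    have : Real.exp (-lk k v) = Real.exp (-(n * v k)) * Real.exp (-(∑ i, v i - v k)) := by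
      rw [← Real.exp_add, lk_eq]; congr 1; ring
    beta_reduce
    rw [this]; ring
  rw [h2] at h1
  exact h1

lemma key_region (hn : 2 ≤ n) (k : Fin n) :
    0 ≤ W (lk k) (fun v => (∑ i, (sh k v i) ^ 2 - 2 * ((n:ℝ) + 1) ^ 2 / n) * G (sh k v)) := by
  have hn' : (2:ℝ) ≤ n := by exact_mod_cast hn
  have hn0 : (0:ℝ) < n := by linarith
  set P : (Fin n → ℝ) → ℝ := fun v => G (sh k v) with hP
  have hPt : Tame P := hG.tame_comp_sh k
  have hc := continuous_lk k
  have hs : ∀ v ∈ orth n, ∑ i, v i ≤ lk k v := fun v hv => sum_le_lk k hv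
  have hPn : ∀ v ∈ orth n, 0 ≤ P v := fun v hv => hG.nonneg _ (sh_mem_orth k hv)
  -- the pieces
  have A : ∀ j ∈ Finset.univ.erase k, 0 ≤ W (lk k) (fun v => (v j ^ 2 - 4 * v j + 2) * P v) :=
    fun j hj => hG.key_a (Finset.ne_of_mem_erase hj)
  have B1 : 0 ≤ W (lk k) (fun v => (1 - n * v k) * P v) := by
    refine hG.key_b k (fun t => 1 - n * t) (m0 := 1 / n) (by positivity) (fun t ht => ?_)
      ((Tame.const 1).sub ((Tame.const _).mul (Tame.coord k))) (one_dim_B1 hn0)
    have : (1 - n * t) * (1 / n - t) = n * (1 / n - t) ^ 2 := by field_simp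
    rw [this]; positivity
  have B2 : 0 ≤ W (lk k) (fun v => (2 - (n * v k) ^ 2) * P v) := by
    refine hG.key_b k (fun t => 2 - (n * t) ^ 2) (m0 := √2 / n) (by positivity) (fun t ht => ?_)
      ((Tame.const 2).sub (((Tame.const _).mul (Tame.coord k)).pow 2)) (one_dim_B2 hn0)
    have hs2 : √2 * √2 = 2 := Real.mul_self_sqrt (by norm_num)
    have : (2 - (n * t) ^ 2) * (√2 / n - t) = (√2 + n * t) * n * (√2 / n - t) ^ 2 := by
      have : (2:ℝ) - (n * t) ^ 2 = (√2 + n * t) * (√2 - n * t) := by linear_combination (-1 : ℝ) * hs2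
      rw [this]
      field_simp
    rw [this]; positivity
  have N1 : W (lk k) (fun v => lk k v * P v) = (n + 1) * W (lk k) P := by
    have := W_homog hc hs 1 hPt (lk_smul k) (tame_lk k)
      (fun t ht v hv => by simp only [hP, sh_smul]; rw [hG.smul t ht.le, pow_one]) hPn
    simpa using this
  have N2 : W (lk k) (fun v => lk k v * (v k * P v)) = (n + 2) * W (lk k) (fun v => v k * P v) := by
    have := W_homog hc hs 2 ((Tame.coord k).mul hPt) (lk_smul k) (tame_lk k)
      (fun t ht v hv => by
        simp only [hP, sh_smul, Pi.smul_apply, smul_eq_mul]; rw [hG.smul t ht.le]; ring)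
      (fun v hv => mul_nonneg (hv k) (hPn v hv))
    simpa using this
  have e : (fun v : Fin n → ℝ => (∑ i, (sh k v i) ^ 2 - 2 * ((n:ℝ) + 1) ^ 2 / n) * P v) =
      fun v => ((∑ j ∈ Finset.univ.erase k, (v j ^ 2 - 4 * v j + 2) * P v)
        + ((1 / n) * ((2 - (n * v k) ^ 2) * P v) + (2 * (n - 2) / n) * ((1 - n * v k) * P v)))
        + (2 * (lk k v * (v k * P v) - (n + 2) * (v k * P v))
        + 4 * (lk k v * P v - (n + 1) * P v)) := by
    ext v
    have h1 : ∑ j ∈ Finset.univ.erase k, (v j ^ 2 - 4 * v j + 2) * P v =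
        (∑ i, (v i) ^ 2 - 4 * ∑ i, v i + 2 * n - (v k ^ 2 - 4 * v k + 2)) * P v := by
      rw [← Finset.sum_mul]
      congr 1
      have := Finset.add_sum_erase Finset.univ (fun j => v j ^ 2 - 4 * v j + 2) (Finset.mem_univ k)
      have h3 : ∑ j, (v j ^ 2 - 4 * v j + 2) = ∑ i, (v i) ^ 2 - 4 * ∑ i, v i + 2 * n := by
        rw [Finset.sum_add_distrib, Finset.sum_sub_distrib, ← Finset.mul_sum]
        simp
        ring
      rw [h3] at this
      linarith
    rw [h1, sum_sq_sh, lk_eq]
    field_simp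
    ring
  rw [e]
  have T1 : Tame (fun v => ∑ j ∈ Finset.univ.erase k, (v j ^ 2 - 4 * v j + 2) * P v) :=
    Tame.sum _ fun j _ => ((((Tame.coord j).pow 2).sub ((Tame.const 4).mul (Tame.coord j))).add
      (Tame.const 2)).mul hPt
  have T2 : Tame (fun v => (2 - (n * v k) ^ 2) * P v) :=
    ((Tame.const 2).sub (((Tame.const _).mul (Tame.coord k)).pow 2)).mul hPt
  have T3 : Tame (fun v => (1 - n * v k) * P v) :=
    ((Tame.const 1).sub ((Tame.const _).mul (Tame.coord k))).mul hPt
  have T4 : Tame (fun v => v k * P v) := (Tame.coord k).mul hPt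
  have T5 : Tame (fun v => lk k v * (v k * P v)) := (tame_lk k).mul T4
  have T6 : Tame (fun v => lk k v * P v) := (tame_lk k).mul hPt
  rw [W_add hc hs (T1.add (((Tame.const _).mul T2).add ((Tame.const _).mul T3)))
    (((Tame.const 2).mul (T5.sub ((Tame.const _).mul T4))).add ((Tame.const 4).mul (T6.sub ((Tame.const _).mul hPt)))),
    W_add hc hs T1 (((Tame.const _).mul T2).add ((Tame.const _).mul T3)),
    W_add hc hs ((Tame.const _).mul T2) ((Tame.const _).mul T3),
    W_add hc hs ((Tame.const 2).mul (T5.sub ((Tame.const _).mul T4))) ((Tame.const 4).mul (T6.sub ((Tame.const _).mul hPt))),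
    W_const_mul, W_const_mul, W_const_mul, W_const_mul,
    W_sub hc hs T5 ((Tame.const _).mul T4), W_sub hc hs T6 ((Tame.const _).mul hPt),
    W_const_mul, W_const_mul, N1, N2, sub_self, sub_self, mul_zero, mul_zero, add_zero, add_zero,
    W_sum hc hs _ (fun j _ => ((((Tame.coord j).pow 2).sub ((Tame.const 4).mul (Tame.coord j))).add
      (Tame.const 2)).mul hPt)]
  have h1 := Finset.sum_nonneg A
  have h2 : 0 ≤ (1 / (n:ℝ)) * W (lk k) (fun v => (2 - (n * v k) ^ 2) * P v) := by positivity
  have h3 : 0 ≤ (2 * ((n:ℝ) - 2) / n) * W (lk k) (fun v => (1 - n * v k) * P v) := by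
    refine mul_nonneg (div_nonneg (by linarith) hn0.le) B1
  linarith

end SubLin

end Vale.Agent.P254
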