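import Vale.Agent.P254.Basic

open MeasureTheory Set Real
open scoped Pointwise

namespace Vale.Agent.P254

variable {n : ℕ}

lemma integral_Ioi_pow_mul_exp (k : ℕ) {c : ℝ} (hc : 0 < c) :
    ∫ t in Ioi (0:ℝ), t ^ k * Real.exp (-(c * t)) = k.factorial / c ^ (k + 1) := by
  have h := Real.integral_rpow_mul_exp_neg_mul_Ioi (a := (k:ℝ) + 1) (r := c) (by positivity) hc
  rw [Real.Gamma_nat_eq_factorial] at h
  have e : (fun t : ℝ => t ^ ((k:ℝ) + 1 - 1) * Real.exp (-(c * t))) = fun t => t ^ k * Real.exp (-(c * t)) := by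
    ext t
    rw [add_sub_cancel_right, Real.rpow_natCast]
  rw [e] at h
  rw [h]
  have : (1 / c) ^ ((k:ℝ) + 1) = (1 / c) ^ (k + 1) := by
    rw [← Real.rpow_natCast]; push_cast; rfl
  rw [this]
  rw [one_div, inv_pow]
  field_simp

lemma integrableOn_pow_mul_exp (k : ℕ) {c : ℝ} (hc : 0 < c) :
    IntegrableOn (fun t : ℝ => t ^ k * Real.exp (-(c * t))) (Ioi 0) := by
  have h := integrableOn_rpow_mul_exp_neg_mul_rpow (s := (k:ℝ)) (p := 1) (b := c)
    (by have := k.cast_nonneg (α := ℝ); linarith) one_pos hc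
  refine h.congr_fun (fun t ht => ?_) measurableSet_Ioi
  simp

lemma integral_Ici_ind_exp {a : ℝ} (ha : 0 ≤ a) :
    ∫ t in Ioi (0:ℝ), (Ici a).indicator (fun t => Real.exp (-t)) t = Real.exp (-a) := by
  rw [setIntegral_indicator measurableSet_Ici]
  have : ∫ t in Ioi (0:ℝ) ∩ Ici a, Real.exp (-t) = ∫ t in Ioi a, Real.exp (-t) := by
    refine setIntegral_congr_set ?_
    have h1 : (Ioi (0:ℝ) ∩ Ici a : Set ℝ) =ᵐ[volume] (Ici (0:ℝ) ∩ Ici a : Set ℝ) :=
      (Ioi_ae_eq_Ici).inter (Filter.EventuallyEq.refl _ _)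
    have h2 : (Ici (0:ℝ) ∩ Ici a : Set ℝ) = Ici a := by
      rw [Ici_inter_Ici, sup_eq_right.2 ha]
    rw [h2] at h1
    exact h1.trans Ioi_ae_eq_Ici.symm
  rw [this]
  exact integral_exp_neg_Ioi a

/-- Layer cake formula for homogeneous functions. -/
lemma layer_cake (g h : (Fin n → ℝ) → ℝ) (d : ℕ) (hgm : Measurable g) (hhm : Measurable h)
    (hg : ∀ t : ℝ, 0 < t → ∀ v ∈ orth n, g (t • v) = t * g v)
    (hgn : ∀ v ∈ orth n, 0 ≤ g v)
    (hh : ∀ t : ℝ, 0 < t → ∀ v ∈ orth n, h (t • v) = t ^ d * h v)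
    (hi : IntegrableOn (fun v => h v * Real.exp (-g v)) (orth n)) :
    ∫ v in orth n, h v * Real.exp (-g v) =
      ((n + d).factorial : ℝ) * ∫ v in orth n ∩ {v | g v ≤ 1}, h v := by
  set F : (Fin n → ℝ) → ℝ → ℝ := fun v t => h v * (Ici (g v)).indicator (fun t => Real.exp (-t)) t with hF
  have hFm : Measurable (Function.uncurry F) := by
    have : Function.uncurry F = fun p : (Fin n → ℝ) × ℝ => h p.1 *
        ({p : (Fin n → ℝ) × ℝ | g p.1 ≤ p.2}.indicator (fun p => Real.exp (-p.2)) p) := by
      ext p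
      rfl
    rw [this]
    refine (hhm.comp measurable_fst).mul (Measurable.indicator (by fun_prop) ?_)
    exact measurableSet_le (hgm.comp measurable_fst) measurable_snd
  have e1 : ∫ v in orth n, h v * Real.exp (-g v) = ∫ v in orth n, ∫ t in Ioi (0:ℝ), F v t := by
    refine setIntegral_congr_fun measurableSet_orth fun v hv => ?_
    simp only [hF]
    rw [integral_const_mul, integral_Ici_ind_exp (hgn v hv)]
  have hint : Integrable (Function.uncurry F) ((volume.restrict (orth n)).prod (volume.restrict (Ioi (0:ℝ)))) := by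
    rw [integrable_prod_iff hFm.aestronglyMeasurable]
    constructor
    · refine Filter.Eventually.of_forall fun v => ?_
      simp only [Function.uncurry, hF]
      refine Integrable.const_mul ?_ _
      refine Integrable.indicator ?_ measurableSet_Ici
      have := integrableOn_pow_mul_exp 0 (c := 1) one_pos
      simp only [pow_zero, one_mul] at this
      exact this
    · have : IntegrableOn (fun v => |h v * Real.exp (-g v)|) (orth n) := hi.abs
      refine IntegrableOn.congr_fun this (fun v hv => ?_) measurableSet_orth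
      simp only [Function.uncurry, hF, norm_mul, Real.norm_eq_abs]
      rw [integral_const_mul, abs_mul, abs_of_pos (Real.exp_pos _)]
      congr 1
      rw [← integral_Ici_ind_exp (hgn v hv)]
      refine integral_congr_ae (Filter.Eventually.of_forall fun t => ?_)
      simp only
      by_cases ht : t ∈ Ici (g v)
      · rw [indicator_of_mem ht, abs_of_pos (Real.exp_pos _)]
      · rw [indicator_of_notMem ht, abs_zero]
  rw [e1, integral_integral_swap hint]
  have e2 : ∀ t ∈ Ioi (0:ℝ), ∫ v in orth n, F v t =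
      t ^ (n + d) * Real.exp (-(1 * t)) * ∫ v in orth n ∩ {v | g v ≤ 1}, h v := by
    intro t ht
    have ht : 0 < t := ht
    have hs := integral_scale (f := fun v => {v | g v ≤ 1}.indicator h v) (n := n) (inv_pos.2 ht)
    rw [setIntegral_indicator (measurableSet_le hgm measurable_const)] at hs
    have e3 : ∫ v in orth n, {v | g v ≤ 1}.indicator h (t⁻¹ • v) =
        (t ^ d)⁻¹ * (Real.exp t * ∫ v in orth n, F v t) := by
      rw [← integral_const_mul, ← integral_const_mul]
      refine setIntegral_congr_fun measurableSet_orth fun v hv => ?_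
      have hiff : g (t⁻¹ • v) ≤ 1 ↔ g v ≤ t := by
        rw [hg _ (inv_pos.2 ht) v hv, inv_mul_le_iff₀ ht, mul_one]
      simp only [hF]
      by_cases hc : g v ≤ t
      · rw [indicator_of_mem (show t⁻¹ • v ∈ {v | g v ≤ 1} from hiff.2 hc),
          indicator_of_mem (show t ∈ Ici (g v) from hc), hh _ (inv_pos.2 ht) v hv,
          inv_pow, mul_comm (h v) (Real.exp (-t)), ← mul_assoc (Real.exp t), ← Real.exp_add, add_neg_cancel,
          Real.exp_zero, one_mul]
      · rw [indicator_of_notMem (show t⁻¹ • v ∉ {v | g v ≤ 1} from fun h => hc (hiff.1 h)),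
          indicator_of_notMem (show t ∉ Ici (g v) from hc)]
        simp
    rw [e3] at hs
    have h1 : t ^ d ≠ 0 := by positivity
    have h2 : t ^ n ≠ 0 := by positivity
    rw [inv_pow, inv_inv] at hs
    rw [one_mul, Real.exp_neg, pow_add]
    have h3 := Real.exp_ne_zero t
    field_simp
    field_simp at hs
    linarith
  rw [setIntegral_congr_fun measurableSet_Ioi e2, integral_mul_const, integral_Ioi_pow_mul_exp _ one_pos]
  simp

end Vale.Agent.P254
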