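import Vale.Agent.P254.Layer

open MeasureTheory Set Real Matrix
open scoped Pointwise

namespace Vale.Agent.P254

variable {n : ℕ}

lemma det_rank_one (u v : Fin n → ℝ) : (1 + vecMulVec u v).det = 1 + ∑ i, v i * u i := by
  have h := det_one_add_replicateCol_mul_replicateRow (ι := Unit) u v
  have e : vecMulVec u v = replicateCol Unit u * replicateRow Unit v := by
    ext i j
    simp [vecMulVec, Matrix.mul_apply]
  rw [e, h]
  rfl

lemma integral_image_affine (A : Matrix (Fin n) (Fin n) ℝ) (b : Fin n → ℝ) (hA : A.det ≠ 0)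
    {s : Set (Fin n → ℝ)} (hs : MeasurableSet s) (f : (Fin n → ℝ) → ℝ) :
    ∫ x in (fun v => A *ᵥ v + b) '' s, f x = |A.det| * ∫ x in s, f (A *ᵥ x + b) := by
  have hd : ∀ x ∈ s, HasFDerivWithinAt (fun v => A *ᵥ v + b)
      (LinearMap.toContinuousLinearMap (Matrix.toLin' A)) s x := by
    intro x _
    have h := (LinearMap.toContinuousLinearMap (Matrix.toLin' A)).hasFDerivAt (x := x)
    exact (h.add_const b).hasFDerivWithinAt
  have hinj : InjOn (fun v => A *ᵥ v + b) s := by
    intro x _ y _ hxy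
    have h1 : A *ᵥ x = A *ᵥ y := add_right_cancel hxy
    exact Matrix.mulVec_injective_of_isUnit ((Matrix.isUnit_iff_isUnit_det _).2 hA.isUnit) h1
  have := integral_image_eq_integral_abs_det_fderiv_smul volume hs hd hinj f
  rw [this]
  simp only [LinearMap.det_toContinuousLinearMap, LinearMap.det_toLin', smul_eq_mul]
  rw [integral_const_mul]

lemma volume_image_affine (A : Matrix (Fin n) (Fin n) ℝ) (b : Fin n → ℝ)
    (s : Set (Fin n → ℝ)) :
    volume ((fun v => A *ᵥ v + b) '' s) = ENNReal.ofReal |A.det| * volume s := by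
  have h1 : (fun v => A *ᵥ v + b) '' s = (fun v => v + b) '' ((Matrix.toLin' A) '' s) := by
    rw [Set.image_image]; rfl
  rw [h1, image_add_right, measure_preimage_add_right, Measure.addHaar_image_linearMap,
    LinearMap.det_toLin']

/-- Partition of a set by the index of the smallest of finitely many functions. -/
lemma integral_argmin {m : ℕ} (hm : 0 < m) (φ : Fin m → (Fin n → ℝ) → ℝ)
    (hφ : ∀ i, Continuous (φ i))
    (hne : ∀ i j, i ≠ j → volume {x | φ i x = φ j x} = 0)
    {s : Set (Fin n → ℝ)} (hs : MeasurableSet s) {f : (Fin n → ℝ) → ℝ} (hf : IntegrableOn f s) :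
    ∫ x in s, f x = ∑ k, ∫ x in s ∩ {x | ∀ i, φ k x ≤ φ i x}, f x := by
  have hmeas : ∀ k, MeasurableSet (s ∩ {x | ∀ i, φ k x ≤ φ i x}) := by
    intro k
    refine hs.inter ?_
    have : {x | ∀ i, φ k x ≤ φ i x} = ⋂ i, {x | φ k x ≤ φ i x} := by ext; simp
    rw [this]
    exact MeasurableSet.iInter fun i => (isClosed_le (hφ k) (hφ i)).measurableSet
  have hU : s = ⋃ k, (s ∩ {x | ∀ i, φ k x ≤ φ i x}) := by
    ext x
    simp only [mem_iUnion, mem_inter_iff, mem_ofPred_eq]
    constructor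
    · intro hx
      haveI : Nonempty (Fin m) := ⟨⟨0, hm⟩⟩
      obtain ⟨k, hk⟩ := Finite.exists_min (fun i => φ i x)
      exact ⟨k, hx, hk⟩
    · rintro ⟨k, hx, -⟩
      exact hx
  have hd : Pairwise (Function.onFun (AEDisjoint volume) fun k => s ∩ {x | ∀ i, φ k x ≤ φ i x}) := by
    intro i j hij
    refine measure_mono_null (t := {x | φ i x = φ j x}) ?_ (hne i j hij)
    rintro x ⟨⟨-, h1⟩, ⟨-, h2⟩⟩
    exact le_antisymm (h1 j) (h2 i)
  conv_lhs => rw [hU]
  rw [integral_iUnion_ae (fun k => (hmeas k).nullMeasurableSet) hd]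
  · rw [tsum_fintype]
  · rw [← hU]; exact hf

end Vale.Agent.P254
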