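import Vale.Agent.P254.Assembly

open MeasureTheory Set Matrix Filter Topology
open scoped Pointwise

namespace Vale.Agent.P254

variable {n : ℕ} {K : Set (Fin n → ℝ)}

lemma regionStatement (hn : 0 < n) {ε : ℝ} (hε : 0 ≤ ε)
    (hε4 : ε * ((n : ℝ) * (n + 1) * (n + 2) * (n + 3)) ≤ 4) : RegionStatement n ε := by
  intro K hKc hKv hsub h0 hj hnear
  rcases Nat.lt_or_ge n 2 with h2 | h2
  · -- dimension one: `K` is the whole segment
    have h1 : n = 1 := by omega
    subst h1
    have : stdS 1 ⊆ K := by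
      intro x hx
      have hx0 := hx.1 0
      have hx1 : x 0 ≤ 1 := by have := hx.2; simpa using this
      have := hKv (hj 0) h0 (sub_nonneg.mpr hx1) hx0 (by ring)
      convert this using 1
      ext i
      have hi : i = 0 := Subsingleton.elim _ _
      subst hi
      simp
    have e : stdS 1 \ K = ∅ := sdiff_eq_empty.mpr this
    rw [e]
    simp
  · have hP : Pos K ε := by
      refine ⟨hKv, hKc.isClosed, hsub, h0, hj, fun x hx => ?_⟩
      have := hnear x hx
      convert this using 1
      ext i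
      simp only [bar, Pi.add_apply, Pi.smul_apply, Pi.sub_apply, smul_eq_mul]
      ring
    have := hP.total h2 hε hε4
    exact this

/-- **The simplex is a strict local maximizer of the isotropic constant.** -/
theorem main (hn : 1 ≤ n) {T S : Set (Fin n → ℝ)} (hK : IsConvexBody K) (hT : IsSimplex T)
    (hKT : K ⊆ T)
    (hvol : (1 - 1 / ((n : ℝ) + 2) ^ (5 * n)) * (volume T).toReal ≤ (volume K).toReal)
    (hS : IsSimplex S) :
    isoConst K ≤ isoConst S ∧ (isoConst K = isoConst S ↔ IsSimplex K) := by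
  have hn0 : (0 : ℝ) < n := by exact_mod_cast hn
  set ε : ℝ := 4 / ((n : ℝ) * (n + 1) * (n + 2) * (n + 3)) with hεd
  have hε : 0 < ε := by positivity
  have hε4 : ε * ((n : ℝ) * (n + 1) * (n + 2) * (n + 3)) ≤ 4 := by
    rw [hεd, div_mul_cancel₀]
    positivity
  refine assembly hn hε (regionStatement hn hε.le hε4) ?_ hK hT hKT hvol hS
  have e1 : ε / (n + 1 + ε) = 4 / (((n : ℝ) + 1) * (n * (n + 1) * (n + 2) * (n + 3)) + 4) := by
    rw [hεd]; field_simp
  have h1 : 1 / ((n : ℝ) + 2) ^ 5 < ε / (n + 1 + ε) := by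
    rw [e1, div_lt_div_iff₀ (by positivity) (by positivity)]
    nlinarith [pow_pos hn0 2, pow_pos hn0 3, pow_pos hn0 4, pow_pos hn0 5]
  have h2 : 1 / ((n : ℝ) + 2) ^ (5 * n) = (1 / ((n : ℝ) + 2) ^ 5) ^ n := by
    rw [div_pow, one_pow, pow_mul]
  rw [h2]
  exact pow_lt_pow_left₀ h1 (by positivity) (by omega)

end Vale.Agent.P254
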