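import Vale.Agent.P254.Simplex

open MeasureTheory Set Matrix Filter Topology
open scoped Pointwise

namespace Vale.Agent.P254

variable {n : ℕ} {K : Set (Fin n → ℝ)}

lemma aff_aff (A A' : Matrix (Fin n) (Fin n) ℝ) (b b' x : Fin n → ℝ) :
    aff A b (aff A' b' x) = aff (A * A') (A *ᵥ b' + b) x := by
  simp only [aff, mulVec_add, mulVec_mulVec, add_assoc]

/-- A position of `K` inside the standard simplex of maximal volume. -/
lemma exists_maxPos (hn : 0 < n) (hK : IsConvexBody K) :
    ∃ (A : Matrix (Fin n) (Fin n) ℝ) (b : Fin n → ℝ), A.det ≠ 0 ∧ aff A b '' K ⊆ stdS n ∧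
      ∀ (A' : Matrix (Fin n) (Fin n) ℝ) (b' : Fin n → ℝ), aff A' b' '' K ⊆ stdS n →
        |A'.det| ≤ |A.det| := by
  obtain ⟨-, hKc, x0, hx0⟩ := hK
  obtain ⟨r, hr, hball⟩ := Metric.isOpen_iff.mp isOpen_interior x0 hx0
  have hball' : Metric.ball x0 r ⊆ K := hball.trans interior_subset
  set ρ := r / 2 with hρ
  have hρ0 : 0 < ρ := by positivity
  have hpt : ∀ j : Fin n, x0 + Pi.single j ρ ∈ K ∧ x0 - Pi.single j ρ ∈ K := by
    intro j
    have hnorm : ‖(Pi.single j ρ : Fin n → ℝ)‖ < r := by
      rw [Pi.norm_single, Real.norm_eq_abs, abs_of_pos hρ0]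
      linarith
    constructor
    · apply hball'; simpa [Metric.mem_ball, dist_eq_norm] using hnorm
    · apply hball'; simpa [Metric.mem_ball, dist_eq_norm] using hnorm
  set S : Set (Matrix (Fin n) (Fin n) ℝ × (Fin n → ℝ)) := {p | ∀ x ∈ K, aff p.1 p.2 x ∈ stdS n} with hS
  set M1 : ℝ := 1 / (2 * ρ) with hM1
  set M2 : ℝ := 1 + ∑ j, M1 * |x0 j| with hM2
  have hcomp : IsCompact ((univ.pi (fun _ : Fin n => univ.pi (fun _ : Fin n => Icc (-M1) M1))) ×ˢ
      (univ.pi (fun _ : Fin n => Icc (-M2) M2)) : Set ((Fin n → Fin n → ℝ) × (Fin n → ℝ))) :=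
    (isCompact_univ_pi (fun _ => isCompact_univ_pi (fun _ => isCompact_Icc))).prod
      (isCompact_univ_pi (fun _ => isCompact_Icc))
  have hclosed : IsClosed S := by
    have : S = ⋂ x ∈ K, {p : Matrix (Fin n) (Fin n) ℝ × (Fin n → ℝ) | aff p.1 p.2 x ∈ stdS n} := by
      ext p; simp [hS]
    rw [this]
    refine isClosed_biInter (fun x _ => isClosed_stdS.preimage ?_)
    unfold aff
    fun_prop
  have hsub : S ⊆ ((univ.pi (fun _ : Fin n => univ.pi (fun _ : Fin n => Icc (-M1) M1))) ×ˢ
      (univ.pi (fun _ : Fin n => Icc (-M2) M2)) : Set ((Fin n → Fin n → ℝ) × (Fin n → ℝ))) := by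
    rintro ⟨A, b⟩ hp
    have hA : ∀ i j, |A i j| ≤ M1 := by
      intro i j
      have h1 := stdS_subset_Icc (hp _ (hpt j).1)
      have h2 := stdS_subset_Icc (hp _ (hpt j).2)
      have h3 : aff A b (x0 + Pi.single j ρ) i - aff A b (x0 - Pi.single j ρ) i = 2 * ρ * A i j := by
        simp only [aff_apply, Pi.add_apply, Pi.sub_apply, mul_add, mul_sub, Finset.sum_add_distrib,
          Finset.sum_sub_distrib]
        have : ∑ k, A i k * (Pi.single j ρ : Fin n → ℝ) k = A i j * ρ := by
          simp [Pi.single_apply]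
        rw [this]; ring
      have h4 := h1.1 i; have h5 := h1.2 i; have h6 := h2.1 i; have h7 := h2.2 i
      simp only [Pi.zero_apply, Pi.one_apply] at h4 h5 h6 h7
      have h8 : |2 * ρ * A i j| ≤ 1 := by
        rw [← h3, abs_le]; constructor <;> linarith
      rw [abs_mul, abs_of_pos (by positivity : 0 < 2 * ρ)] at h8
      rw [hM1, le_div_iff₀ (by positivity)]
      linarith
    have hb : ∀ i, |b i| ≤ M2 := by
      intro i
      have hx0K : x0 ∈ K := interior_subset hx0
      have h1 := stdS_subset_Icc (hp _ hx0K)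
      have h4 := h1.1 i; have h5 := h1.2 i
      simp only [Pi.zero_apply, Pi.one_apply] at h4 h5
      have h2 : b i = aff A b x0 i - ∑ j, A i j * x0 j := by rw [aff_apply]; ring
      rw [h2]
      calc |aff A b x0 i - ∑ j, A i j * x0 j| ≤ |aff A b x0 i| + |∑ j, A i j * x0 j| := abs_sub _ _
        _ ≤ 1 + ∑ j, |A i j * x0 j| := by
            gcongr
            · rw [abs_of_nonneg h4]; exact h5
            · exact Finset.abs_sum_le_sum_abs _ _
        _ ≤ M2 := by
            rw [hM2]
            gcongr with j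
            rw [abs_mul]
            gcongr
            exact hA i j
    refine ⟨fun i _ j _ => ?_, fun i _ => ?_⟩
    · exact abs_le.mp (hA i j)
    · exact abs_le.mp (hb i)
  have hScomp : IsCompact S := hcomp.of_isClosed_subset hclosed hsub
  have hne : S.Nonempty := by
    refine ⟨(0, 0), fun x _ => ?_⟩
    simp only [aff, zero_mulVec, add_zero]
    exact ⟨fun i => le_refl _, by simp⟩
  have hcont : ContinuousOn (fun p : Matrix (Fin n) (Fin n) ℝ × (Fin n → ℝ) => |p.1.det|) S := by
    have : Continuous (fun p : Matrix (Fin n) (Fin n) ℝ × (Fin n → ℝ) => |p.1.det|) :=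
      (continuous_fst.matrix_det).abs
    exact this.continuousOn
  obtain ⟨⟨A, b⟩, hAb, hmax⟩ := hScomp.exists_isMaxOn hne hcont
  refine ⟨A, b, ?_, ?_, ?_⟩
  · -- det A ≠ 0
    obtain ⟨R, hR⟩ := hKc.isBounded.subset_closedBall 0
    set R' := max R 1 with hR'
    have hR'0 : 0 < R' := lt_of_lt_of_le one_pos (le_max_right _ _)
    have hn0 : (0 : ℝ) < n := by exact_mod_cast hn
    set c : ℝ := 1 / (2 * R' * n) with hc
    have hc0 : 0 < c := by positivity
    have hmem : ((c • (1 : Matrix (Fin n) (Fin n) ℝ), fun _ => c * R') :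
        Matrix (Fin n) (Fin n) ℝ × (Fin n → ℝ)) ∈ S := by
      intro x hx
      have hx' : ∀ i, |x i| ≤ R' := by
        intro i
        have := hR hx
        rw [mem_closedBall_zero_iff] at this
        have h2 := norm_le_pi_norm x i
        rw [Real.norm_eq_abs] at h2
        exact h2.trans (this.trans (le_max_left _ _))
      have hval : ∀ i, aff (c • (1 : Matrix (Fin n) (Fin n) ℝ)) (fun _ => c * R') x i
          = c * (x i + R') := by
        intro i
        simp [aff, smul_mulVec]
        ring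
      refine ⟨fun i => ?_, ?_⟩
      · rw [hval]
        have := (abs_le.mp (hx' i)).1
        exact mul_nonneg hc0.le (by linarith)
      · simp_rw [hval]
        calc ∑ i, c * (x i + R') ≤ ∑ _i : Fin n, c * (2 * R') := by
              gcongr with i
              have := (abs_le.mp (hx' i)).2
              linarith
          _ = 1 := by
              simp only [Finset.sum_const, Finset.card_univ, Fintype.card_fin, nsmul_eq_mul]
              rw [hc]; field_simp
          _ ≤ 1 := le_refl _
    have := hmax hmem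
    simp only [mem_ofPred_eq] at this
    rw [det_smul, det_one, mul_one, Fintype.card_fin] at this
    have h2 : 0 < |c ^ n| := by positivity
    exact abs_pos.mp (h2.trans_le this)
  · rintro _ ⟨x, hx, rfl⟩; exact hAb x hx
  · intro A' b' h
    exact hmax (show ((A', b') : Matrix (Fin n) (Fin n) ℝ × (Fin n → ℝ)) ∈ S from
      fun x hx => h (mem_image_of_mem _ hx))

/-- If `∑ a_i > 0`, then `∏ (1 + η a_i) > 1` for all small `η > 0`. -/
lemma eventually_prod_gt {a : Fin n → ℝ} (ha : 0 < ∑ i, a i) :
    ∀ᶠ η in 𝓝[>] (0 : ℝ), 1 < ∏ i, (1 + η * a i) := by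
  have hd : HasDerivAt (fun η : ℝ => ∏ i, (1 + η * a i)) (∑ i, a i) 0 := by
    have h1 : ∀ i ∈ (Finset.univ : Finset (Fin n)),
        HasDerivAt (fun η : ℝ => 1 + η * a i) (a i) 0 := by
      intro i _
      have := ((hasDerivAt_id (0 : ℝ)).mul_const (a i)).const_add 1
      simpa using this
    have := HasDerivAt.fun_finsetProd h1
    simpa using this
  have h2 := hasDerivAt_iff_tendsto_slope.mp hd
  have h3 : ∀ᶠ η in 𝓝[≠] (0 : ℝ), 0 < slope (fun η : ℝ => ∏ i, (1 + η * a i)) 0 η :=
    h2.eventually (lt_mem_nhds ha)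
  have h4 : 𝓝[>] (0 : ℝ) ≤ 𝓝[≠] 0 := nhdsWithin_mono _ (fun x hx => ne_of_gt hx)
  filter_upwards [h4 h3, self_mem_nhdsWithin] with η hη hpos
  have hpos : 0 < η := hpos
  rw [slope_def_field] at hη
  simp only [zero_mul, add_zero, Finset.prod_const_one, sub_zero] at hη
  have := (div_pos_iff_of_pos_right hpos).mp hη
  linarith

/-- `K` is in maximal position inside the standard simplex. -/
def IsMaxPos (K : Set (Fin n → ℝ)) : Prop :=
  K ⊆ stdS n ∧ ∀ (A : Matrix (Fin n) (Fin n) ℝ) (b : Fin n → ℝ), aff A b '' K ⊆ stdS n → |A.det| ≤ 1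

lemma IsMaxPos.centroid_mem (hn : 0 < n) (hKc : IsCompact K) (hKv : Convex ℝ K)
    (h : IsMaxPos K) : (fun _ => 1 / (n : ℝ)) ∈ K := by
  by_contra hc
  have hn0 : (0 : ℝ) < n := by exact_mod_cast hn
  obtain ⟨f, u, hf1, hf2⟩ := geometric_hahn_banach_closed_point hKv hKc.isClosed hc
  set β : Fin n → ℝ := fun i => f (Pi.single i 1) with hβ
  have hfx : ∀ x : Fin n → ℝ, f x = ∑ i, x i * β i := by
    intro x
    have : x = ∑ i, x i • (Pi.single i (1 : ℝ) : Fin n → ℝ) := by
      ext j; rw [Finset.sum_apply]; simp [Pi.single_apply]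
    conv_lhs => rw [this]
    rw [map_sum]
    simp [hβ]
  have hsum : 0 < ∑ i, (β i - u) := by
    rw [hfx, ← Finset.mul_sum] at hf2
    rw [Finset.sum_sub_distrib]
    simp only [Finset.sum_const, Finset.card_univ, Fintype.card_fin, nsmul_eq_mul]
    have h1 : n * u < n * (1 / (n : ℝ) * ∑ i, β i) := mul_lt_mul_of_pos_left hf2 hn0
    have h2 : (n : ℝ) * (1 / (n : ℝ) * ∑ i, β i) = ∑ i, β i := by field_simp
    linarith
  have e1 := eventually_prod_gt hsum
  have e2 : ∀ᶠ η in 𝓝[>] (0 : ℝ), ∀ i, 0 < 1 + η * (β i - u) := by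
    rw [eventually_all]
    intro i
    have : Tendsto (fun η : ℝ => 1 + η * (β i - u)) (𝓝 0) (𝓝 (1 + 0 * (β i - u))) :=
      (tendsto_id.mul_const _).const_add 1
    rw [zero_mul, add_zero] at this
    exact (this.eventually (lt_mem_nhds one_pos)).filter_mono nhdsWithin_le_nhds
  have e3 : ∀ᶠ η in 𝓝[>] (0 : ℝ), η * u < 1 := by
    have : Tendsto (fun η : ℝ => η * u) (𝓝 0) (𝓝 (0 * u)) := tendsto_id.mul_const _
    rw [zero_mul] at this
    exact (this.eventually (gt_mem_nhds one_pos)).filter_mono nhdsWithin_le_nhds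
  obtain ⟨η, h1, h2, h3, hη⟩ := (e1.and (e2.and (e3.and self_mem_nhdsWithin))).exists
  have hη : 0 < η := hη
  have hdet := h.2 (Matrix.diagonal (fun i => 1 + η * (β i - u))) 0 (by
    rintro _ ⟨x, hx, rfl⟩
    have hxS := h.1 hx
    have hval : ∀ i, aff (Matrix.diagonal (fun i => 1 + η * (β i - u))) 0 x i
        = (1 + η * (β i - u)) * x i := by
      intro i; simp [aff, mulVec_diagonal]
    refine ⟨fun i => ?_, ?_⟩
    · rw [hval]; exact mul_nonneg (h2 i).le (hxS.1 i)
    · simp_rw [hval]
      have e : ∑ i, (1 + η * (β i - u)) * x i = ∑ i, x i + η * (f x - u * ∑ i, x i) := by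
        rw [hfx, Finset.mul_sum, ← Finset.sum_sub_distrib, Finset.mul_sum, ← Finset.sum_add_distrib]
        refine Finset.sum_congr rfl (fun i _ => ?_)
        ring
      rw [e]
      have h4 := hf1 x hx
      have h5 := hxS.2
      nlinarith [mul_lt_mul_of_pos_left h4 hη, mul_nonneg (sub_nonneg.mpr h5) (sub_nonneg.mpr h3.le)])
  rw [det_diagonal, abs_of_pos (by linarith)] at hdet
  linarith

/-- The affine symmetry of the standard simplex exchanging the barycentric coordinates
`0` and `j`. -/
noncomputable def Smat (j : Fin n) : Matrix (Fin n) (Fin n) ℝ :=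
  fun i k => if i = j then -1 else if i = k then 1 else 0

/-- The affine symmetry of the standard simplex exchanging the barycentric coordinates
`0` and `j`. -/
noncomputable def sg (j : Fin n) (x : Fin n → ℝ) : Fin n → ℝ := Function.update x j (1 - ∑ k, x k)

lemma sg_eq_aff (j : Fin n) (x : Fin n → ℝ) : sg j x = aff (Smat j) (Pi.single j 1) x := by
  ext i
  rw [aff_apply]
  by_cases h : i = j
  · subst h
    simp [sg, Smat]
    ring
  · simp [sg, Smat, h]

lemma sum_sg (j : Fin n) (x : Fin n → ℝ) : ∑ k, sg j x k = 1 - x j := by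
  have h1 := Finset.add_sum_erase Finset.univ (sg j x) (Finset.mem_univ j)
  have h2 := Finset.add_sum_erase Finset.univ x (Finset.mem_univ j)
  have h3 : ∑ k ∈ Finset.univ.erase j, sg j x k = ∑ k ∈ Finset.univ.erase j, x k := by
    refine Finset.sum_congr rfl (fun k hk => ?_)
    simp [sg, Finset.ne_of_mem_erase hk]
  have h4 : sg j x j = 1 - ∑ k, x k := by simp [sg]
  rw [← h1, h3, h4, ← h2]
  ring

lemma sg_sg (j : Fin n) (x : Fin n → ℝ) : sg j (sg j x) = x := by
  ext i
  by_cases h : i = j
  · subst h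
    have : sg i (sg i x) i = 1 - ∑ k, sg i x k := by simp [sg]
    rw [this, sum_sg]; ring
  · simp [sg, h]

lemma sg_mem (j : Fin n) {x : Fin n → ℝ} (hx : x ∈ stdS n) : sg j x ∈ stdS n := by
  refine ⟨fun i => ?_, ?_⟩
  · by_cases h : i = j
    · subst h; simp only [sg, Function.update_self]; linarith [hx.2]
    · simp only [sg, ne_eq, h, not_false_eq_true, Function.update_of_ne]; exact hx.1 i
  · rw [sum_sg]; linarith [hx.1 j]

lemma Smat_mul_self (j : Fin n) : Smat j * Smat j = 1 := by
  ext i k
  rw [mul_apply]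
  by_cases h : i = j
  · subst h
    have : ∀ l, Smat i i l * Smat i l k = (if l = i then 1 else 0) - (if l = i then 0 else if l = k then 1 else 0) := by
      intro l
      simp only [Smat, if_true]
      split_ifs <;> ring
    simp_rw [this]
    rw [Finset.sum_sub_distrib]
    simp only [Finset.sum_ite_eq', Finset.mem_univ, if_true]
    by_cases hk : k = i
    · subst hk
      have : ∀ x, (if x = k then (0 : ℝ) else if x = k then 1 else 0) = 0 := by
        intro x; split_ifs <;> rfl
      simp [this]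
    · have : ∀ x, (if x = i then (0 : ℝ) else if x = k then 1 else 0) = if x = k then 1 else 0 := by
        intro x; split_ifs with h1 h2
        · subst h1; exact absurd h2.symm hk
        · rfl
        · rfl
        · rfl
      simp [this, one_apply, Ne.symm hk]
  · have : ∀ l, Smat j i l * Smat j l k = if i = l then Smat j i k else 0 := by
      intro l
      by_cases hl : i = l
      · subst hl; simp [Smat, h]
      · simp [Smat, h, hl]
    simp_rw [this]
    simp [Smat, h, one_apply]

lemma abs_det_Smat (j : Fin n) : |(Smat j).det| = 1 := by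
  have h := congrArg Matrix.det (Smat_mul_self j)
  rw [det_mul, det_one] at h
  have h2 : |(Smat j).det| * |(Smat j).det| = 1 := by rw [← abs_mul, h, abs_one]
  nlinarith [abs_nonneg (Smat j).det]

lemma IsMaxPos.image_sg (h : IsMaxPos K) (j : Fin n) : IsMaxPos (sg j '' K) := by
  refine ⟨?_, fun A b hAb => ?_⟩
  · rintro _ ⟨x, hx, rfl⟩; exact sg_mem j (h.1 hx)
  · have h2 := h.2 (A * Smat j) (A *ᵥ (Pi.single j 1) + b) (by
      rintro _ ⟨x, hx, rfl⟩
      rw [← aff_aff, ← sg_eq_aff]
      exact hAb (mem_image_of_mem _ (mem_image_of_mem _ hx)))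
    rwa [det_mul, abs_mul, abs_det_Smat, mul_one] at h2

/-- In maximal position, all the facet centroids of the simplex belong to `K`. -/
lemma IsMaxPos.centroids_mem (hn : 0 < n) (hKc : IsCompact K) (hKv : Convex ℝ K)
    (h : IsMaxPos K) (j : Fin n) : Function.update (fun _ => 1 / (n : ℝ)) j 0 ∈ K := by
  have hn0 : (0 : ℝ) < n := by exact_mod_cast hn
  have e : sg j '' K = affMap (Smat j) (Pi.single j 1) '' K := by
    rw [coe_affMap]
    exact image_congr (fun x _ => sg_eq_aff j x)
  have h1 : IsCompact (sg j '' K) := by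
    rw [e, coe_affMap]; exact isCompact_aff_image _ _ hKc
  have h2 : Convex ℝ (sg j '' K) := by
    rw [e]; exact hKv.affine_image _
  obtain ⟨x, hx, hxe⟩ := (h.image_sg j).centroid_mem hn h1 h2
  have : x = Function.update (fun _ => 1 / (n : ℝ)) j 0 := by
    rw [← sg_sg j x, hxe]
    simp only [sg, Finset.sum_const, Finset.card_univ, Fintype.card_fin, nsmul_eq_mul]
    congr 1
    field_simp
    ring
  rwa [← this]

lemma volume_pos_of_interior (h : (interior K).Nonempty) (hKc : IsCompact K) :
    0 < (volume K).toReal :=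
  ENNReal.toReal_pos (MeasureTheory.Measure.measure_pos_of_nonempty_interior _ h).ne' hKc.measure_ne_top

/-- **Summary.** Every convex body has an affine image in maximal position; that image
is at least as large relative to the standard simplex as `K` is relative to any simplex
containing it. -/
lemma exists_position (hn : 0 < n) (hK : IsConvexBody K) :
    ∃ (A : Matrix (Fin n) (Fin n) ℝ) (b : Fin n → ℝ), A.det ≠ 0 ∧ IsMaxPos (aff A b '' K) ∧
      ∀ T : Set (Fin n → ℝ), IsSimplex T → K ⊆ T →
        (volume K).toReal * (volume (stdS n)).toReal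
          ≤ (volume (aff A b '' K)).toReal * (volume T).toReal := by
  obtain ⟨A, b, hA, hsub, hmax⟩ := exists_maxPos hn hK
  refine ⟨A, b, hA, ⟨hsub, fun A' b' h => ?_⟩, fun T hT hKT => ?_⟩
  · have := hmax (A' * A) (A' *ᵥ b + b') (by
      rintro _ ⟨x, hx, rfl⟩
      rw [← aff_aff]
      exact h (mem_image_of_mem _ (mem_image_of_mem _ hx)))
    rw [det_mul, abs_mul] at this
    have hp : 0 < |A.det| := abs_pos.mpr hA
    exact le_of_mul_le_mul_right (by linarith) hp
  · obtain ⟨A0, b0, hA0, rfl⟩ := hT.exists_aff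
    have hu : IsUnit A0.det := isUnit_iff_ne_zero.mpr hA0
    have h1 := hmax A0⁻¹ (-(A0⁻¹ *ᵥ b0)) (by
      rintro _ ⟨x, hx, rfl⟩
      obtain ⟨y, hy, rfl⟩ := hKT hx
      rw [aff_aff, nonsing_inv_mul _ hu]
      simpa [aff] using hy)
    rw [det_nonsing_inv, Ring.inverse_eq_inv', abs_inv] at h1
    rw [volume_aff_image hA b hK.2.1.measurableSet,
      volume_aff_image hA0 b0 isCompact_stdS.measurableSet]
    have hp : 0 < |A0.det| := abs_pos.mpr hA0
    have h2 : 1 ≤ |A.det| * |A0.det| := by
      rwa [inv_le_iff_one_le_mul₀ hp] at h1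
    have h3 : 0 ≤ (volume K).toReal * (volume (stdS n)).toReal := by positivity
    calc (volume K).toReal * (volume (stdS n)).toReal
        ≤ (|A.det| * |A0.det|) * ((volume K).toReal * (volume (stdS n)).toReal) :=
          le_mul_of_one_le_left h3 h2
      _ = _ := by ring

end Vale.Agent.P254
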