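import Vale.Agent.P254.Total

open MeasureTheory Set
open scoped Pointwise

namespace Vale.Agent.P254

variable {n : ℕ}

lemma stdS_eq : stdS n = orth n ∩ {v | ∑ i, v i ≤ 1} := rfl

lemma convex_stdS : Convex ℝ (stdS n) := by
  intro x hx y hy a b ha hb hab
  refine ⟨fun i => ?_, ?_⟩
  · simp only [Pi.add_apply, Pi.smul_apply, smul_eq_mul]
    have := hx.1 i
    have := hy.1 i
    positivity
  · simp only [Pi.add_apply, Pi.smul_apply, smul_eq_mul]
    rw [Finset.sum_add_distrib, ← Finset.mul_sum, ← Finset.mul_sum]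
    nlinarith [hx.2, hy.2]

lemma restrict_orth (n : ℕ) :
    (volume : Measure (Fin n → ℝ)).restrict (orth n)
      = Measure.pi (fun _ => (volume : Measure ℝ).restrict (Ici 0)) := by
  have : orth n = Set.pi univ (fun _ => Ici (0 : ℝ)) := by
    ext u; simp only [orth, mem_ofPred_eq, mem_univ_pi, mem_Ici]
  rw [this, volume_pi, Measure.restrict_pi_pi]

lemma integral_orth_monomial (k : Fin n → ℕ) :
    ∫ v in orth n, (∏ i, v i ^ k i) * Real.exp (-∑ i, v i) = ∏ i, ((k i).factorial : ℝ) := by
  rw [restrict_orth]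
  have h1 : ∀ v : Fin n → ℝ, (∏ i, v i ^ k i) * Real.exp (-∑ i, v i)
      = ∏ i, (v i ^ k i * Real.exp (-(1 * v i))) := by
    intro v
    rw [Finset.prod_mul_distrib, ← Real.exp_sum]
    simp
  simp_rw [h1]
  rw [integral_fintype_prod_eq_prod (fun i (x : ℝ) => x ^ k i * Real.exp (-(1 * x)))]
  refine Finset.prod_congr rfl (fun i _ => ?_)
  rw [integral_Ici_eq_integral_Ioi, integral_Ioi_pow_mul_exp _ one_pos]
  simp

lemma integral_stdS_monomial (k : Fin n → ℕ) :
    ∫ v in stdS n, (∏ i, v i ^ k i)
      = (∏ i, ((k i).factorial : ℝ)) / ((n + ∑ i, k i).factorial : ℝ) := by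
  have h := layer_cake (n := n) (fun v => ∑ i, v i) (fun v => ∏ i, v i ^ k i) (∑ i, k i)
    (by fun_prop) (by fun_prop)
    (fun t _ v _ => by simp [Finset.mul_sum])
    (fun v hv => sum_nonneg_of_orth hv)
    (fun t _ v _ => by
      simp only [Pi.smul_apply, smul_eq_mul, mul_pow]
      rw [Finset.prod_mul_distrib, Finset.prod_pow_eq_pow_sum])
    (by
      refine integrableOn_of_bound (by fun_prop) 1 (∑ i, k i) (fun v hv => ?_)
      have hs := sum_nonneg_of_orth hv
      rw [abs_mul, abs_of_pos (Real.exp_pos _), one_mul]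
      gcongr
      rw [Finset.abs_prod, ← Finset.prod_pow_eq_pow_sum]
      refine Finset.prod_le_prod (fun i _ => abs_nonneg _) (fun i _ => ?_)
      rw [abs_pow, abs_of_nonneg (hv i)]
      refine pow_le_pow_left₀ (hv i) ?_ _
      have := Finset.single_le_sum (f := v) (fun j _ => hv j) (Finset.mem_univ i)
      linarith)
  rw [integral_orth_monomial] at h
  rw [stdS_eq, h, mul_div_assoc, mul_comm, div_mul_cancel₀]
  positivity

lemma volume_stdS : (volume (stdS n)).toReal = 1 / (n.factorial : ℝ) := by
  have := integral_stdS_monomial (n := n) (fun _ => 0)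
  simp only [pow_zero, Finset.prod_const_one, Nat.factorial_zero, Nat.cast_one,
    Finset.sum_const_zero, add_zero] at this
  simpa [Measure.real] using this

lemma volume_stdS_pos : 0 < (volume (stdS n)).toReal := by
  rw [volume_stdS]; positivity

lemma integral_stdS_x (i : Fin n) :
    ∫ v in stdS n, v i = 1 / ((n + 1).factorial : ℝ) := by
  have := integral_stdS_monomial (n := n) (Pi.single i 1)
  rw [Finset.sum_pi_single' ] at this
  have h1 : ∀ v : Fin n → ℝ, ∏ j, v j ^ (Pi.single i 1 : Fin n → ℕ) j = v i := by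
    intro v
    rw [Finset.prod_eq_single i]
    · simp
    · intro j _ hj; simp [hj]
    · simp
  have h2 : ∏ j, (((Pi.single i 1 : Fin n → ℕ) j).factorial : ℝ) = 1 := by
    refine Finset.prod_eq_one (fun j _ => ?_)
    by_cases hj : j = i
    · subst hj; simp
    · simp [hj]
  simp_rw [h1] at this
  rw [this, h2]
  simp

lemma integral_stdS_xx (i j : Fin n) :
    ∫ v in stdS n, v i * v j = (if i = j then 2 else 1) / ((n + 2).factorial : ℝ) := by
  have := integral_stdS_monomial (n := n) (Pi.single i 1 + Pi.single j 1)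
  have hs : ∑ k, (Pi.single i 1 + Pi.single j 1 : Fin n → ℕ) k = 2 := by
    simp [Finset.sum_add_distrib]
  rw [hs] at this
  have h1 : ∀ v : Fin n → ℝ, ∏ k, v k ^ (Pi.single i 1 + Pi.single j 1 : Fin n → ℕ) k = v i * v j := by
    intro v
    simp only [Pi.add_apply, pow_add]
    rw [Finset.prod_mul_distrib]
    congr 1
    · rw [Finset.prod_eq_single i]
      · simp
      · intro k _ hk; simp [hk]
      · simp
    · rw [Finset.prod_eq_single j]
      · simp
      · intro k _ hk; simp [hk]
      · simp
  have h2 : ∏ k, (((Pi.single i 1 + Pi.single j 1 : Fin n → ℕ) k).factorial : ℝ)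
      = if i = j then 2 else 1 := by
    split_ifs with h
    · subst h
      rw [Finset.prod_eq_single i]
      · simp
      · intro k _ hk; simp [hk]
      · simp
    · refine Finset.prod_eq_one (fun k _ => ?_)
      by_cases hi : k = i
      · subst hi; simp [Pi.single_eq_of_ne h]
      · by_cases hj : k = j
        · subst hj; simp [hi]
        · simp [hi, hj]
  simp_rw [h1] at this
  rw [this, h2]

end Vale.Agent.P254
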