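import Vale.Agent.P254.Total

open MeasureTheory Set Real Matrix
open scoped Pointwise

namespace Vale.Agent.P254

variable {n : ℕ}

namespace SubLin

variable {G : (Fin n → ℝ) → ℝ} {ε : ℝ} (hG : SubLin G ε)
include hG

/-- second order version with a linear gain -/
lemma second_order_q (hn : 2 ≤ n) (hε : ε * (((n:ℝ) + 3) * (n + 1) ^ 2) ≤ 1) :
    (1 / (n:ℝ)) * (∫ v in orth n, (Real.exp (-∑ i, v i) - Real.exp (-(∑ i, v i + G v)))) ≤
    ∫ v in orth n, (∑ i, (v i) ^ 2 - (∑ i, v i) ^ 2 / (n + 1) - (n + 2)) *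
      (Real.exp (-∑ i, v i) - Real.exp (-(∑ i, v i + G v))) := by
  have hn' : (2:ℝ) ≤ n := by exact_mod_cast hn
  have hn0 : (0:ℝ) < n := by linarith
  set s : (Fin n → ℝ) → ℝ := fun v => ∑ i, v i with hs
  have hsc : Continuous s := by rw [hs]; fun_prop
  have hss : ∀ v ∈ orth n, ∑ i, v i ≤ s v := fun v _ => le_rfl
  have hst : Tame s := Tame.sum _ fun i _ => Tame.coord i
  have hGt : Tame G := hG.tame
  have hlin : ∀ t : ℝ, ∀ v, s (t • v) = t * s v := by intro t v; simp [hs, Finset.mul_sum]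
  have hGh : ∀ t : ℝ, 0 < t → ∀ v ∈ orth n, G (t • v) = t ^ 1 * G v := by
    intro t ht v _; rw [hG.smul t ht.le, pow_one]
  have hsn : ∀ v ∈ orth n, 0 ≤ s v := fun v hv => sum_nonneg_of_orth hv
  set I := W s G with hI
  have hI0 : 0 ≤ I := by
    refine setIntegral_nonneg measurableSet_orth fun v hv => ?_
    exact mul_nonneg (hG.nonneg v hv) (Real.exp_pos _).le
  have J1 : W s (fun v => s v * G v) = (n + 1) * I := by
    have := W_homog hsc hss 1 hGt hlin hst hGh hG.nonneg
    simpa using this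
  have J2 : W s (fun v => s v * (s v * G v)) = (n + 2) * ((n + 1) * I) := by
    have := W_homog hsc hss 2 (hst.mul hGt) hlin hst
      (fun t ht v hv => by rw [hlin, hGh t ht v hv]; ring)
      (fun v hv => mul_nonneg (hsn v hv) (hG.nonneg v hv))
    rw [this, J1]; norm_num
  have hq : Tame (fun v : Fin n → ℝ => ∑ i, (v i) ^ 2) := Tame.sum _ fun i _ => (Tame.coord i).pow 2
  set Kq := W s (fun v => (∑ i, (v i) ^ 2) * G v) with hKq
  have K1 : 2 * ((n:ℝ) + 1) ^ 2 / n * I ≤ Kq := by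
    have := hG.key_ineq hn
    have e : (fun v => (∑ i, (v i) ^ 2 - 2 * ((n:ℝ) + 1) ^ 2 / n) * G v) =
        fun v => (∑ i, (v i) ^ 2) * G v - 2 * ((n:ℝ) + 1) ^ 2 / n * G v := by
      ext v; ring
    rw [e, W_sub hsc hss (hq.mul hGt) ((Tame.const _).mul hGt), W_const_mul] at this
    linarith
  have J3 : W s (fun v => s v * ((∑ i, (v i) ^ 2) * G v)) = (n + 3) * Kq := by
    have := W_homog hsc hss 3 (hq.mul hGt) hlin hst
      (fun t ht v hv => by
        rw [hGh t ht v hv]
        simp only [Pi.smul_apply, smul_eq_mul, mul_pow, ← Finset.mul_sum]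
        ring)
      (fun v hv => mul_nonneg (Finset.sum_nonneg fun i _ => sq_nonneg _) (hG.nonneg v hv))
    rw [this, ← hKq]; norm_num
  -- lower bound
  set f : (Fin n → ℝ) → ℝ := fun v => (((∑ i, (v i) ^ 2) * G v - (1 / ((n:ℝ) + 1)) * (s v * (s v * G v)))
    - (n + 2) * G v) - ε / 2 * (s v * ((∑ i, (v i) ^ 2) * G v)) with hf
  have hft : Tame f := (((hq.mul hGt).sub ((Tame.const _).mul (hst.mul (hst.mul hGt)))).sub
    ((Tame.const _).mul hGt)).sub ((Tame.const _).mul (hst.mul (hq.mul hGt)))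
  have hWf : 1 / n * I ≤ W s f := by
    rw [hf, W_sub hsc hss (((hq.mul hGt).sub ((Tame.const _).mul (hst.mul (hst.mul hGt)))).sub
      ((Tame.const _).mul hGt)) ((Tame.const _).mul (hst.mul (hq.mul hGt))),
      W_sub hsc hss ((hq.mul hGt).sub ((Tame.const _).mul (hst.mul (hst.mul hGt)))) ((Tame.const _).mul hGt),
      W_sub hsc hss (hq.mul hGt) ((Tame.const _).mul (hst.mul (hst.mul hGt))),
      W_const_mul, W_const_mul, W_const_mul, J2, J3]
    have hI2 : W s G = I := rfl
    have hKq2 : W s (fun v => (∑ i, (v i) ^ 2) * G v) = Kq := rfl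
    rw [hI2, hKq2]
    have hc : 0 ≤ 1 - ε / 2 * (n + 3) := by
      have h1 : ε * (n + 3) ≤ 1 := by
        rcases le_or_gt ε 0 with h | h
        · have : ε * (n + 3) ≤ 0 := mul_nonpos_of_nonpos_of_nonneg h (by positivity)
          linarith
        · have : ε * (n + 3) ≤ ε * ((n + 3) * (n + 1) ^ 2) := by
            refine mul_le_mul_of_nonneg_left ?_ h.le
            nlinarith
          linarith
      linarith
    have h3 : (1 - ε / 2 * (n + 3)) * (2 * ((n:ℝ) + 1) ^ 2 / n * I) ≤ (1 - ε / 2 * (n + 3)) * Kq :=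
      mul_le_mul_of_nonneg_left K1 hc
    have h4 : (1 - ε / 2 * (n + 3)) * (2 * ((n:ℝ) + 1) ^ 2 / n * I) - 2 * (n + 2) * I =
        (2 - ε * ((n + 3) * (n + 1) ^ 2)) * (I / n) := by
      field_simp
      ring
    have h5 : 1 * (I / n) ≤ (2 - ε * ((n + 3) * (n + 1) ^ 2)) * (I / n) := by
      refine mul_le_mul_of_nonneg_right (by linarith) (by positivity)
    have h6 : 1 / ((n:ℝ) + 1) * ((n + 2) * ((n + 1) * I)) = (n + 2) * I := by
      field_simp
    rw [h6]
    have h7 : 1 / (n:ℝ) * I = 1 * (I / n) := by ring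
    rw [h7]
    linarith
  have hup : ∀ v, 1 - Real.exp (-G v) ≤ G v := by
    intro v
    have := Real.add_one_le_exp (-G v); linarith
  have e1 : ∀ v : Fin n → ℝ, Real.exp (-∑ i, v i) - Real.exp (-(∑ i, v i + G v)) =
      (1 - Real.exp (-G v)) * Real.exp (-s v) := by
    intro v
    rw [sub_mul, one_mul, ← Real.exp_add]
    congr 2
    simp only [hs]; ring
  have hexpi : IntegrableOn (fun v : Fin n → ℝ => Real.exp (-∑ i, v i) - Real.exp (-(∑ i, v i + G v))) (orth n) := by
    have hT : Tame (fun _ : Fin n → ℝ => (1:ℝ)) := Tame.const 1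
    have h1 := hT.integrable (ℓ := fun v => ∑ i, v i) (by fun_prop) (fun v _ => le_rfl)
    have h2 := hT.integrable (ℓ := fun v => ∑ i, v i + G v) (by have := hG.cont; fun_prop)
      (fun v hv => by have := hG.nonneg v hv; linarith)
    refine (h1.sub h2).congr_fun (fun v _ => ?_) measurableSet_orth
    simp only [Pi.sub_apply, one_mul]
  have hIle : (∫ v in orth n, (Real.exp (-∑ i, v i) - Real.exp (-(∑ i, v i + G v)))) ≤ I := by
    refine setIntegral_mono_on hexpi (hGt.integrable hsc hss) measurableSet_orth fun v hv => ?_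
    rw [e1]
    exact mul_le_mul_of_nonneg_right (hup v) (Real.exp_pos _).le
  refine (mul_le_mul_of_nonneg_left hIle (by positivity)).trans (hWf.trans ?_)
  have hgi : IntegrableOn (fun v => (∑ i, (v i) ^ 2 - (∑ i, v i) ^ 2 / (n + 1) - (n + 2)) *
      (Real.exp (-∑ i, v i) - Real.exp (-(∑ i, v i + G v)))) (orth n) := by
    have hT : Tame (fun v : Fin n → ℝ => ∑ i, (v i) ^ 2 - (∑ i, v i) ^ 2 / (n + 1) - (n + 2)) := by
      have := (hq.sub ((Tame.const (1 / ((n:ℝ)+1))).mul (hst.pow 2))).sub (Tame.const ((n:ℝ) + 2))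
      refine (by
        convert this using 2
        simp only [hs]
        ring)
    have h1 := hT.integrable (ℓ := fun v => ∑ i, v i) (by fun_prop) (fun v _ => le_rfl)
    have h2 := hT.integrable (ℓ := fun v => ∑ i, v i + G v) (by have := hG.cont; fun_prop)
      (fun v hv => by have := hG.nonneg v hv; linarith)
    refine (h1.sub h2).congr_fun (fun v _ => ?_) measurableSet_orth
    simp only [Pi.sub_apply]
    ring
  refine setIntegral_mono_on (hft.integrable hsc hss) hgi measurableSet_orth fun v hv => ?_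
  have hG0 := hG.nonneg v hv
  have hG1 := hG.le v hv
  have hs0 := hsn v hv
  rw [e1, ← mul_assoc]
  refine mul_le_mul_of_nonneg_right ?_ (Real.exp_pos _).le
  have hlo : G v - (G v) ^ 2 / 2 ≤ 1 - Real.exp (-G v) := by
    have h1 := Real.quadratic_le_exp_of_nonneg hG0
    have h2 : Real.exp (-G v) * Real.exp (G v) = 1 := by rw [← Real.exp_add]; simp
    have h3 := Real.exp_pos (-G v)
    have h4 : Real.exp (-G v) ≤ 1 - G v + G v ^ 2 / 2 := by
      by_contra hcon
      push Not at hcon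
      have h5 : 0 < 1 - G v + G v ^ 2 / 2 := by nlinarith [sq_nonneg (G v - 1)]
      have h6 : (1 - G v + G v ^ 2 / 2) * (1 + G v + G v ^ 2 / 2) < Real.exp (-G v) * Real.exp (G v) :=
        mul_lt_mul hcon h1 (by positivity) h3.le
      rw [h2] at h6
      nlinarith [sq_nonneg (G v), sq_nonneg (G v ^ 2)]
    linarith
  set q := ∑ i, (v i) ^ 2 with hqd
  have hq0 : 0 ≤ q := Finset.sum_nonneg fun i _ => sq_nonneg _
  have hr : 0 ≤ (∑ i, v i) ^ 2 / ((n:ℝ) + 1) + (n + 2) := by positivity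
  have h7 : q * (G v - (G v) ^ 2 / 2) ≤ q * (1 - Real.exp (-G v)) := mul_le_mul_of_nonneg_left hlo hq0
  have h8 : ((∑ i, v i) ^ 2 / ((n:ℝ) + 1) + (n + 2)) * (1 - Real.exp (-G v)) ≤
      ((∑ i, v i) ^ 2 / ((n:ℝ) + 1) + (n + 2)) * G v := mul_le_mul_of_nonneg_left (hup v) hr
  have h9 : q * (G v) ^ 2 ≤ ε * (s v * (q * G v)) := by
    calc q * (G v) ^ 2 = q * G v * G v := by ring
      _ ≤ q * G v * (ε * s v) := by gcongr
      _ = _ := by ring
  simp only [hf]
  have h10 : (∑ i, v i) = s v := rfl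
  rw [h10] at h8 ⊢
  have e2 : 1 / ((n:ℝ) + 1) * (s v * (s v * G v)) = (s v) ^ 2 / (n + 1) * G v := by ring
  rw [e2]
  nlinarith

/-- The solid version of the quantitative second order inequality. -/
lemma solid_q (hn : 2 ≤ n) (hε : ε * (((n:ℝ) + 3) * (n + 1) ^ 2) ≤ 1) :
    (1 / ((n:ℝ) * (n + 1) * (n + 2))) * (∫ _v in stdS n \ {v | ∑ i, v i + G v ≤ 1}, (1:ℝ)) ≤
    ∫ v in stdS n \ {v | ∑ i, v i + G v ≤ 1}, (∑ i, (v i) ^ 2 - (1 + (∑ i, v i) ^ 2) / (n + 1)) := by
  have hn' : (2:ℝ) ≤ n := by exact_mod_cast hn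
  have hn0 : (0:ℝ) < n := by linarith
  set s : (Fin n → ℝ) → ℝ := fun v => ∑ i, v i with hs
  have hsc : Continuous s := by rw [hs]; fun_prop
  set g : (Fin n → ℝ) → ℝ := fun v => s v + G v with hg
  have hgc : Continuous g := by rw [hg]; have := hG.cont; fun_prop
  set F : (Fin n → ℝ) → ℝ := fun v => ∑ i, (v i) ^ 2 - (1 + (s v) ^ 2) / (n + 1) with hF
  have hFc : Continuous F := by rw [hF]; fun_prop
  have hcomp : ∀ A : Set (Fin n → ℝ), A ⊆ stdS n → IntegrableOn F A := by
    intro A hA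
    exact (hFc.continuousOn.integrableOn_compact isCompact_stdS).mono_set hA
  -- difference of integrals
  have hA : orth n ∩ {v | g v ≤ 1} ⊆ stdS n := by
    rintro v ⟨hv, hgv⟩
    refine ⟨hv, ?_⟩
    have h1 : s v + G v ≤ 1 := hgv
    have h2 := hG.nonneg v hv
    show s v ≤ 1
    linarith
  have e1 : stdS n \ {v | ∑ i, v i + G v ≤ 1} = stdS n \ (orth n ∩ {v | g v ≤ 1}) := by
    ext v
    simp only [mem_sdiff, mem_ofPred_eq, mem_inter_iff, not_and]
    constructor
    · rintro ⟨h1, h2⟩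
      exact ⟨h1, fun _ => h2⟩
    · rintro ⟨h1, h2⟩
      exact ⟨h1, h2 h1.1⟩
  have hone : ∀ A : Set (Fin n → ℝ), A ⊆ stdS n → IntegrableOn (fun _ => (1:ℝ)) A := by
    intro A hA
    exact (continuous_const.continuousOn.integrableOn_compact isCompact_stdS).mono_set hA
  have hmeasA : MeasurableSet (orth n ∩ {v | g v ≤ 1}) :=
    isClosed_orth.measurableSet.inter (measurableSet_le hgc.measurable measurable_const)
  rw [e1, setIntegral_sdiff hmeasA (hcomp _ subset_rfl) hA, setIntegral_sdiff hmeasA (hone _ subset_rfl) hA]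
  -- layer cake
  have T0 : Tame (fun _ : Fin n → ℝ => (1:ℝ)) := Tame.const 1
  have T1 : Tame (fun v : Fin n → ℝ => ∑ i, (v i) ^ 2) := Tame.sum _ fun i _ => (Tame.coord i).pow 2
  have T2 : Tame (fun v : Fin n → ℝ => (s v) ^ 2) := (Tame.sum _ fun i _ => Tame.coord i).pow 2
  have H0 : ∀ g : (Fin n → ℝ) → ℝ, Continuous g → (∀ t : ℝ, 0 < t → ∀ v ∈ orth n, g (t • v) = t * g v) →
      (∀ v ∈ orth n, s v ≤ g v) →
      (n.factorial : ℝ) * ∫ v in orth n ∩ {v | g v ≤ 1}, (1:ℝ) = ∫ v in orth n, 1 * Real.exp (-g v) := by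
    intro g hgc hgh hgs
    have hgn : ∀ v ∈ orth n, 0 ≤ g v := fun v hv => (sum_nonneg_of_orth hv).trans (hgs v hv)
    have L0 := layer_cake g (fun _ => 1) 0 hgc.measurable measurable_const hgh hgn
      (fun t _ v _ => by simp) (T0.integrable hgc hgs)
    rw [L0]; rfl
  have H : ∀ g : (Fin n → ℝ) → ℝ, Continuous g → (∀ t : ℝ, 0 < t → ∀ v ∈ orth n, g (t • v) = t * g v) →
      (∀ v ∈ orth n, s v ≤ g v) →
      ((n + 2).factorial : ℝ) * ∫ v in orth n ∩ {v | g v ≤ 1}, F v =
        ∫ v in orth n, (∑ i, (v i) ^ 2 - (s v) ^ 2 / (n + 1) - (n + 2)) * Real.exp (-g v) := by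
    intro g hgc hgh hgs
    have hgn : ∀ v ∈ orth n, 0 ≤ g v := fun v hv => (sum_nonneg_of_orth hv).trans (hgs v hv)
    have L0 := layer_cake g (fun _ => 1) 0 hgc.measurable measurable_const hgh hgn
      (fun t _ v _ => by simp) (T0.integrable hgc hgs)
    have L1 := layer_cake g (fun v => ∑ i, (v i) ^ 2) 2 hgc.measurable (by fun_prop) hgh hgn
      (fun t _ v _ => by simp [mul_pow, Finset.mul_sum]) (T1.integrable hgc hgs)
    have L2 := layer_cake g (fun v => (s v) ^ 2) 2 hgc.measurable (by fun_prop) hgh hgn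
      (fun t _ v _ => by simp [hs, mul_pow, ← Finset.mul_sum]) (T2.integrable hgc hgs)
    have hsub : orth n ∩ {v | g v ≤ 1} ⊆ stdS n := by
      rintro v ⟨hv, hgv⟩
      exact ⟨hv, (hgs v hv).trans hgv⟩
    have i0 : IntegrableOn (fun _ : Fin n → ℝ => (1:ℝ)) (orth n ∩ {v | g v ≤ 1}) :=
      (continuous_const.continuousOn.integrableOn_compact isCompact_stdS).mono_set hsub
    have i1 : IntegrableOn (fun v : Fin n → ℝ => ∑ i, (v i) ^ 2) (orth n ∩ {v | g v ≤ 1}) :=
      (ContinuousOn.integrableOn_compact isCompact_stdS (by fun_prop)).mono_set hsub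
    have i2 : IntegrableOn (fun v : Fin n → ℝ => (s v) ^ 2) (orth n ∩ {v | g v ≤ 1}) :=
      (ContinuousOn.integrableOn_compact isCompact_stdS (by fun_prop)).mono_set hsub
    have e2 : ∫ v in orth n ∩ {v | g v ≤ 1}, F v =
        (∫ v in orth n ∩ {v | g v ≤ 1}, ∑ i, (v i) ^ 2) -
        (1 / ((n:ℝ) + 1)) * ((∫ v in orth n ∩ {v | g v ≤ 1}, (1:ℝ)) + ∫ v in orth n ∩ {v | g v ≤ 1}, (s v) ^ 2) := by
      have i02 : IntegrableOn (fun v => (1 / ((n:ℝ) + 1)) * (1 + (s v) ^ 2)) (orth n ∩ {v | g v ≤ 1}) :=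
        (i0.add i2).const_mul _
      rw [← integral_add i0 i2, ← integral_const_mul, ← integral_sub i1 i02]
      refine integral_congr_ae (Filter.Eventually.of_forall fun v => ?_)
      simp only [hF]
      ring
    have j0 := T0.integrable hgc hgs
    have j1 := T1.integrable hgc hgs
    have j2 := T2.integrable hgc hgs
    have e3 : ∫ v in orth n, (∑ i, (v i) ^ 2 - (s v) ^ 2 / (n + 1) - (n + 2)) * Real.exp (-g v) =
        (∫ v in orth n, (∑ i, (v i) ^ 2) * Real.exp (-g v)) -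
        (1 / ((n:ℝ) + 1)) * (∫ v in orth n, (s v) ^ 2 * Real.exp (-g v)) -
        (n + 2) * ∫ v in orth n, 1 * Real.exp (-g v) := by
      have j12 : IntegrableOn (fun v => (∑ i, (v i) ^ 2) * Real.exp (-g v) -
          (1 / ((n:ℝ) + 1)) * ((s v) ^ 2 * Real.exp (-g v))) (orth n) := j1.sub (j2.const_mul _)
      rw [← integral_const_mul, ← integral_const_mul, ← integral_sub j1 (j2.const_mul _),
        ← integral_sub j12 (j0.const_mul _)]
      refine integral_congr_ae (Filter.Eventually.of_forall fun v => ?_)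
      ring
    rw [e2, e3, L0, L1, L2]
    have hfac : ((n + 2).factorial : ℝ) = (n + 2) * ((n + 1) * (n + 0).factorial) := by
      rw [Nat.factorial_succ, Nat.factorial_succ]; push_cast; ring
    have hfac2 : (((n + 0).factorial : ℕ) : ℝ) ≠ 0 := by positivity
    rw [hfac]
    field_simp
    ring
  have hsh : ∀ t : ℝ, 0 < t → ∀ v ∈ orth n, s (t • v) = t * s v :=
    fun t ht v _ => by simp [hs, Finset.mul_sum]
  have hgh : ∀ t : ℝ, 0 < t → ∀ v ∈ orth n, g (t • v) = t * g v := fun t ht v _ => by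
    simp only [hg]
    rw [hG.smul t ht.le]
    simp [hs, Finset.mul_sum, mul_add]
  have hgs : ∀ v ∈ orth n, s v ≤ g v := fun v hv => by have := hG.nonneg v hv; simp only [hg]; linarith
  have HU := H s hsc hsh (fun v _ => le_rfl)
  have HA := H g hgc hgh hgs
  have HU0 := H0 s hsc hsh (fun v _ => le_rfl)
  have HA0 := H0 g hgc hgh hgs
  have hst : stdS n = orth n ∩ {v | s v ≤ 1} := rfl
  have key := hG.second_order_q hn hε
  have e4 : ∫ v in orth n, (∑ i, (v i) ^ 2 - (∑ i, v i) ^ 2 / (n + 1) - (n + 2)) *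
      (Real.exp (-∑ i, v i) - Real.exp (-(∑ i, v i + G v))) =
      (∫ v in orth n, (∑ i, (v i) ^ 2 - (s v) ^ 2 / (n + 1) - (n + 2)) * Real.exp (-s v)) -
      ∫ v in orth n, (∑ i, (v i) ^ 2 - (s v) ^ 2 / (n + 1) - (n + 2)) * Real.exp (-g v) := by
    have hT : Tame (fun v : Fin n → ℝ => ∑ i, (v i) ^ 2 - (s v) ^ 2 / (n + 1) - (n + 2)) := by
      have := (T1.sub ((Tame.const (1 / ((n:ℝ)+1))).mul T2)).sub (Tame.const ((n:ℝ) + 2))
      convert this using 2
      ring
    rw [← integral_sub (hT.integrable hsc fun v _ => le_rfl)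
      (hT.integrable hgc fun v hv => by have := hG.nonneg v hv; simp only [hg]; linarith)]
    refine integral_congr_ae (Filter.Eventually.of_forall fun v => ?_)
    simp only [hs, hg]
    ring
  have e5 : ∫ v in orth n, (Real.exp (-∑ i, v i) - Real.exp (-(∑ i, v i + G v))) =
      (∫ v in orth n, 1 * Real.exp (-s v)) - ∫ v in orth n, 1 * Real.exp (-g v) := by
    rw [← integral_sub (T0.integrable hsc fun v _ => le_rfl)
      (T0.integrable hgc fun v hv => by have := hG.nonneg v hv; simp only [hg]; linarith)]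
    refine integral_congr_ae (Filter.Eventually.of_forall fun v => ?_)
    simp only [hs, hg]
    ring
  rw [e4, e5, ← HU, ← HA, ← HU0, ← HA0, ← hst] at key
  have hpos : (0:ℝ) < ((n + 2).factorial : ℝ) := by positivity
  have hfac : ((n + 2).factorial : ℝ) = (n + 2) * ((n + 1) * n.factorial) := by
    rw [Nat.factorial_succ, Nat.factorial_succ]; push_cast; ring
  have hfac2 : ((n.factorial : ℕ) : ℝ) ≠ 0 := by positivity
  have h1 : ((n + 2).factorial : ℝ) * ((1 / ((n:ℝ) * (n + 1) * (n + 2))) *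
      ((∫ v in stdS n, (1:ℝ)) - ∫ v in orth n ∩ {v | g v ≤ 1}, (1:ℝ))) =
      1 / n * ((n.factorial : ℝ) * (∫ v in stdS n, (1:ℝ)) -
        (n.factorial : ℝ) * ∫ v in orth n ∩ {v | g v ≤ 1}, (1:ℝ)) := by
    rw [hfac]
    field_simp
  have h2 : ((n + 2).factorial : ℝ) * ((1 / ((n:ℝ) * (n + 1) * (n + 2))) *
      ((∫ v in stdS n, (1:ℝ)) - ∫ v in orth n ∩ {v | g v ≤ 1}, (1:ℝ))) ≤
      ((n + 2).factorial : ℝ) * ((∫ v in stdS n, F v) - ∫ v in orth n ∩ {v | g v ≤ 1}, F v) := by
    rw [h1]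
    linarith
  exact le_of_mul_le_mul_left h2 hpos

end SubLin

namespace Near

variable {K : Set (Fin n → ℝ)} {ε : ℝ} (hK : Near K ε)
include hK

/-- The region inequality in the original coordinates. -/
lemma region0_q (hε : 0 ≤ ε) (hn : 2 ≤ n) (hε4 : ε * (((n:ℝ) + 3) * (n + 1) ^ 2) ≤ 1) :
    (1 / ((n:ℝ) * (n + 1) * (n + 2))) *
      (∫ _x in (stdS n ∩ {x | ∀ i, 1 - ∑ j, x j ≤ x i}) \ K, (1:ℝ)) ≤
    ∫ x in (stdS n ∩ {x | ∀ i, 1 - ∑ j, x j ≤ x i}) \ K,
      (∑ i, (x i) ^ 2 + (1 - ∑ i, x i) ^ 2 - 2 / ((n:ℝ) + 1)) := by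
  have hS := hK.subLin hε (by omega)
  have hmeas : MeasurableSet (stdS n \ {v : Fin n → ℝ | ∑ i, v i + (gauge (trans K) (mM v) - ∑ i, v i) ≤ 1}) := by
    refine measurableSet_stdS.diff ?_
    have := hS.cont
    exact (isClosed_le (by fun_prop) continuous_const).measurableSet
  rw [← hK.image_theta hε, integral_image_affine _ _ (by rw [det_mMat]; positivity) hmeas,
    integral_image_affine _ _ (by rw [det_mMat]; positivity) hmeas]
  have := hS.solid_q hn hε4
  have h0 : 0 ≤ |(mMat n).det| := abs_nonneg _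
  have h1 := mul_le_mul_of_nonneg_left this h0
  rw [← mul_assoc, mul_comm |(mMat n).det| (1 / _), mul_assoc] at h1
  refine h1.trans_eq ?_
  congr 1
  refine integral_congr_ae (Filter.Eventually.of_forall fun v => ?_)
  simp only [mMat_mulVec]
  have hsum : 1 - ∑ j, (mM v + bar n) j = (1 - ∑ i, v i) / (n + 1) := by
    simp only [Pi.add_apply, Finset.sum_add_distrib, sum_mM, sum_bar]
    field_simp
    ring
  have hco : ∀ i, (mM v + bar n) i = v i + (1 - ∑ i, v i) / (n + 1) := by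
    intro i
    simp only [Pi.add_apply, mM, bar]
    ring
  have hsq : ∑ i, ((mM v + bar n) i) ^ 2 = ∑ i, (v i) ^ 2 +
      2 * ((1 - ∑ i, v i) / (n + 1)) * ∑ i, v i + n * ((1 - ∑ i, v i) / (n + 1)) ^ 2 := by
    have h1 : ∀ i, ((mM v + bar n) i) ^ 2 = (v i) ^ 2 + 2 * ((1 - ∑ i, v i) / (n + 1)) * v i +
        ((1 - ∑ i, v i) / (n + 1)) ^ 2 := by intro i; rw [hco]; ring
    simp only [h1, Finset.sum_add_distrib, ← Finset.mul_sum, Finset.sum_const, Finset.card_univ,
      Fintype.card_fin, nsmul_eq_mul]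
  rw [hsum, hsq]
  field_simp
  ring

end Near

namespace Pos

variable {K : Set (Fin n → ℝ)} {ε : ℝ} (hK : Pos K ε)
include hK

lemma total_q (hn : 2 ≤ n) (hε : 0 ≤ ε) (hε4 : ε * (((n:ℝ) + 3) * (n + 1) ^ 2) ≤ 1) :
    (1 / ((n:ℝ) * (n + 1) * (n + 2))) * (∫ _x in stdS n \ K, (1:ℝ)) ≤ ∫ x in stdS n \ K, FF x := by
  set φ : Fin (n + 1) → (Fin n → ℝ) → ℝ := fun i x => Fin.cases (1 - ∑ i, x i) (fun j => x j) i with hφ
  have hφ0 : ∀ x, φ 0 x = 1 - ∑ i, x i := fun x => rfl
  have hφs : ∀ j : Fin n, ∀ x, φ j.succ x = x j := fun j x => rfl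
  have hc : ∀ i, Continuous (φ i) := by
    intro i
    refine Fin.cases ?_ (fun j => ?_) i
    · show Continuous fun x : Fin n → ℝ => 1 - ∑ i, x i
      fun_prop
    · exact continuous_apply j
  have hnull : ∀ j : Fin n, volume {x : Fin n → ℝ | 1 - ∑ i, x i = x j} = 0 := by
    intro j
    have h := null_hyperplane (fun i => 1 + (Pi.single j (1:ℝ) : Fin n → ℝ) i) (by
      intro h
      have := congrFun h j
      simp at this) 1
    refine measure_mono_null (fun x hx => ?_) h
    simp only [mem_ofPred_eq] at hx ⊢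
    simp only [add_mul, one_mul, Finset.sum_add_distrib]
    have : ∑ i, (Pi.single j (1:ℝ) : Fin n → ℝ) i * x i = x j := by simp [Pi.single_apply]
    rw [this]
    linarith
  have hne : ∀ i j, i ≠ j → volume {x | φ i x = φ j x} = 0 := by
    intro i j
    refine Fin.cases ?_ (fun i' => ?_) i <;> refine Fin.cases ?_ (fun j' => ?_) j
    · intro h; exact absurd rfl h
    · intro _; exact hnull j'
    · intro _
      have := hnull i'
      refine measure_mono_null (fun x hx => ?_) this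
      exact (Eq.symm hx)
    · intro h
      exact null_eq_coord (fun hij : i' = j' => h (congrArg Fin.succ hij))
  have hs : MeasurableSet (stdS n \ K) := measurableSet_stdS.diff hK.closed.measurableSet
  have hint : IntegrableOn FF (stdS n \ K) :=
    (continuous_FF.continuousOn.integrableOn_compact isCompact_stdS).mono_set sdiff_subset
  have hint1 : IntegrableOn (fun _ : Fin n → ℝ => (1:ℝ)) (stdS n \ K) :=
    (continuous_const.continuousOn.integrableOn_compact isCompact_stdS).mono_set sdiff_subset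
  rw [integral_argmin (by omega) φ hc hne hs hint, integral_argmin (by omega) φ hc hne hs hint1,
    Finset.mul_sum]
  refine Finset.sum_le_sum fun i _ => ?_
  refine Fin.cases ?_ (fun j => ?_) i
  · -- region 0
    have h := hK.toNear.region0_q hε hn hε4
    have e : (stdS n \ K) ∩ {x | ∀ i, φ 0 x ≤ φ i x} = (stdS n ∩ {x | ∀ i, 1 - ∑ j, x j ≤ x i}) \ K := by
      ext x
      simp only [mem_inter_iff, mem_sdiff, mem_ofPred_eq]
      constructor
      · rintro ⟨⟨h1, h2⟩, h3⟩
        exact ⟨⟨h1, fun i => h3 i.succ⟩, h2⟩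
      · rintro ⟨⟨h1, h3⟩, h2⟩
        refine ⟨⟨h1, h2⟩, fun i => ?_⟩
        refine Fin.cases le_rfl (fun j => h3 j) i
    rw [e]
    exact h
  · have h := (hK.near_sig j).region0_q hε hn hε4
    have e : (stdS n \ K) ∩ {x | ∀ i, φ j.succ x ≤ φ i x} =
        (fun x => sigMat j *ᵥ x + Pi.single j 1) '' ((stdS n ∩ {x | ∀ i, 1 - ∑ j, x j ≤ x i}) \ (sig j ⁻¹' K)) := by
      have hf : (fun x => sigMat j *ᵥ x + Pi.single j 1) = sig j := funext (sigMat_mulVec j)
      rw [hf]
      ext x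
      simp only [mem_inter_iff, mem_sdiff, mem_ofPred_eq, mem_image, mem_preimage]
      constructor
      · rintro ⟨⟨h1, h2⟩, h3⟩
        refine ⟨sig j x, ⟨⟨sig_stdS j h1, fun i => ?_⟩, ?_⟩, sig_sig j x⟩
        · rw [sum_sig]
          have h4 : x j ≤ 1 - ∑ i, x i := h3 0
          rcases eq_or_ne i j with rfl | hij
          · rw [sig_self]; linarith
          · rw [sig_ne hij]
            have : x j ≤ x i := h3 i.succ
            linarith
        · rw [sig_sig]; exact h2
      · rintro ⟨y, ⟨⟨h1, h2⟩, h3⟩, rfl⟩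
        refine ⟨⟨sig_stdS j h1, h3⟩, fun i => ?_⟩
        rw [hφs, sig_self]
        refine Fin.cases ?_ (fun i' => ?_) i
        · rw [hφ0, sum_sig]
          have := h2 j
          linarith
        · rw [hφs]
          rcases eq_or_ne i' j with rfl | hij
          · rw [sig_self]
          · rw [sig_ne hij]; exact h2 i'
    have hmeas : MeasurableSet ((stdS n ∩ {x | ∀ i, 1 - ∑ j, x j ≤ x i}) \ (sig j ⁻¹' K)) := by
      refine (measurableSet_stdS.inter ?_).diff (hK.closed.preimage (continuous_sig j)).measurableSet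
      have : {x : Fin n → ℝ | ∀ i, 1 - ∑ j, x j ≤ x i} = ⋂ i, {x | 1 - ∑ j, x j ≤ x i} := by ext; simp
      rw [this]
      exact MeasurableSet.iInter fun i => (isClosed_le (by fun_prop) (by fun_prop)).measurableSet
    rw [e, integral_image_affine _ _ (by rw [det_sigMat]; norm_num) hmeas,
      integral_image_affine _ _ (by rw [det_sigMat]; norm_num) hmeas, det_sigMat]
    simp only [sigMat_mulVec, FF_sig]
    simpa [FF] using h

end Pos

end Vale.Agent.P254
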