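import Vale.Agent.P254.Facet

open MeasureTheory Set Real Matrix
open scoped Pointwise

namespace Vale.Agent.P254

variable {n : ℕ}

/-- The standard corner simplex. -/
def stdS (n : ℕ) : Set (Fin n → ℝ) := {x | (∀ i, 0 ≤ x i) ∧ ∑ i, x i ≤ 1}

lemma isClosed_stdS : IsClosed (stdS n) := by
  have : stdS n = orth n ∩ {x | ∑ i, x i ≤ 1} := rfl
  rw [this]
  exact isClosed_orth.inter (isClosed_le (by fun_prop) continuous_const)

lemma measurableSet_stdS : MeasurableSet (stdS n) := isClosed_stdS.measurableSet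

lemma stdS_subset_Icc : stdS n ⊆ Icc 0 1 := by
  intro x hx
  refine ⟨fun i => hx.1 i, fun i => ?_⟩
  have h := Finset.single_le_sum (fun i _ => hx.1 i) (Finset.mem_univ i) (f := x)
  exact h.trans hx.2

lemma isCompact_stdS : IsCompact (stdS n) :=
  isCompact_Icc.of_isClosed_subset isClosed_stdS stdS_subset_Icc

namespace SubLin

variable {G : (Fin n → ℝ) → ℝ} {ε : ℝ} (hG : SubLin G ε)
include hG

/-- The solid version of the second order inequality. -/
lemma solid (hn : 2 ≤ n) (hε : ε * ((n:ℝ) * (n + 1) * (n + 2) * (n + 3)) ≤ 4) :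
    0 ≤ ∫ v in stdS n \ {v | ∑ i, v i + G v ≤ 1}, (∑ i, (v i) ^ 2 - (1 + (∑ i, v i) ^ 2) / (n + 1)) := by
  set s : (Fin n → ℝ) → ℝ := fun v => ∑ i, v i with hs
  have hsc : Continuous s := by rw [hs]; fun_prop
  set g : (Fin n → ℝ) → ℝ := fun v => s v + G v with hg
  have hgc : Continuous g := by rw [hg]; have := hG.cont; fun_prop
  set F : (Fin n → ℝ) → ℝ := fun v => ∑ i, (v i) ^ 2 - (1 + (s v) ^ 2) / (n + 1) with hF
  have hFc : Continuous F := by rw [hF]; fun_prop
  have hcomp : ∀ A : Set (Fin n → ℝ), A ⊆ stdS n → IntegrableOn F A := by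
    intro A hA
    exact (hFc.continuousOn.integrableOn_compact isCompact_stdS).mono_set hA
  -- difference of integrals
  have hA : orth n ∩ {v | g v ≤ 1} ⊆ stdS n := by
    rintro v ⟨hv, hgv⟩
    refine ⟨hv, ?_⟩
    have h1 : s v + G v ≤ 1 := hgv
    have h2 := hG.nonneg v hv
    show s v ≤ 1
    linarith
  have e1 : stdS n \ {v | ∑ i, v i + G v ≤ 1} = stdS n \ (orth n ∩ {v | g v ≤ 1}) := by
    ext v
    simp only [mem_sdiff, mem_ofPred_eq, mem_inter_iff, not_and]
    constructor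
    · rintro ⟨h1, h2⟩
      exact ⟨h1, fun _ => h2⟩
    · rintro ⟨h1, h2⟩
      exact ⟨h1, h2 h1.1⟩
  rw [e1, setIntegral_sdiff (isClosed_orth.measurableSet.inter (measurableSet_le hgc.measurable measurable_const))
    (hcomp _ subset_rfl) hA]
  -- layer cake
  have T0 : Tame (fun _ : Fin n → ℝ => (1:ℝ)) := Tame.const 1
  have T1 : Tame (fun v : Fin n → ℝ => ∑ i, (v i) ^ 2) := Tame.sum _ fun i _ => (Tame.coord i).pow 2
  have T2 : Tame (fun v : Fin n → ℝ => (s v) ^ 2) := (Tame.sum _ fun i _ => Tame.coord i).pow 2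
  have H : ∀ g : (Fin n → ℝ) → ℝ, Continuous g → (∀ t : ℝ, 0 < t → ∀ v ∈ orth n, g (t • v) = t * g v) →
      (∀ v ∈ orth n, s v ≤ g v) →
      ((n + 2).factorial : ℝ) * ∫ v in orth n ∩ {v | g v ≤ 1}, F v =
        ∫ v in orth n, (∑ i, (v i) ^ 2 - (s v) ^ 2 / (n + 1) - (n + 2)) * Real.exp (-g v) := by
    intro g hgc hgh hgs
    have hgn : ∀ v ∈ orth n, 0 ≤ g v := fun v hv => (sum_nonneg_of_orth hv).trans (hgs v hv)
    have L0 := layer_cake g (fun _ => 1) 0 hgc.measurable measurable_const hgh hgn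
      (fun t _ v _ => by simp) (T0.integrable hgc hgs)
    have L1 := layer_cake g (fun v => ∑ i, (v i) ^ 2) 2 hgc.measurable (by fun_prop) hgh hgn
      (fun t _ v _ => by simp [mul_pow, Finset.mul_sum]) (T1.integrable hgc hgs)
    have L2 := layer_cake g (fun v => (s v) ^ 2) 2 hgc.measurable (by fun_prop) hgh hgn
      (fun t _ v _ => by simp [hs, mul_pow, ← Finset.mul_sum]) (T2.integrable hgc hgs)
    have hsub : orth n ∩ {v | g v ≤ 1} ⊆ stdS n := by
      rintro v ⟨hv, hgv⟩
      exact ⟨hv, (hgs v hv).trans hgv⟩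
    have i0 : IntegrableOn (fun _ : Fin n → ℝ => (1:ℝ)) (orth n ∩ {v | g v ≤ 1}) :=
      (continuous_const.continuousOn.integrableOn_compact isCompact_stdS).mono_set hsub
    have i1 : IntegrableOn (fun v : Fin n → ℝ => ∑ i, (v i) ^ 2) (orth n ∩ {v | g v ≤ 1}) :=
      (ContinuousOn.integrableOn_compact isCompact_stdS (by fun_prop)).mono_set hsub
    have i2 : IntegrableOn (fun v : Fin n → ℝ => (s v) ^ 2) (orth n ∩ {v | g v ≤ 1}) :=
      (ContinuousOn.integrableOn_compact isCompact_stdS (by fun_prop)).mono_set hsub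
    have e2 : ∫ v in orth n ∩ {v | g v ≤ 1}, F v =
        (∫ v in orth n ∩ {v | g v ≤ 1}, ∑ i, (v i) ^ 2) -
        (1 / ((n:ℝ) + 1)) * ((∫ v in orth n ∩ {v | g v ≤ 1}, (1:ℝ)) + ∫ v in orth n ∩ {v | g v ≤ 1}, (s v) ^ 2) := by
      have i02 : IntegrableOn (fun v => (1 / ((n:ℝ) + 1)) * (1 + (s v) ^ 2)) (orth n ∩ {v | g v ≤ 1}) :=
        (i0.add i2).const_mul _
      rw [← integral_add i0 i2, ← integral_const_mul, ← integral_sub i1 i02]
      refine integral_congr_ae (Filter.Eventually.of_forall fun v => ?_)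
      simp only [hF]
      ring
    have j0 := T0.integrable hgc hgs
    have j1 := T1.integrable hgc hgs
    have j2 := T2.integrable hgc hgs
    have e3 : ∫ v in orth n, (∑ i, (v i) ^ 2 - (s v) ^ 2 / (n + 1) - (n + 2)) * Real.exp (-g v) =
        (∫ v in orth n, (∑ i, (v i) ^ 2) * Real.exp (-g v)) -
        (1 / ((n:ℝ) + 1)) * (∫ v in orth n, (s v) ^ 2 * Real.exp (-g v)) -
        (n + 2) * ∫ v in orth n, 1 * Real.exp (-g v) := by
      have j12 : IntegrableOn (fun v => (∑ i, (v i) ^ 2) * Real.exp (-g v) -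
          (1 / ((n:ℝ) + 1)) * ((s v) ^ 2 * Real.exp (-g v))) (orth n) := j1.sub (j2.const_mul _)
      rw [← integral_const_mul, ← integral_const_mul, ← integral_sub j1 (j2.const_mul _),
        ← integral_sub j12 (j0.const_mul _)]
      refine integral_congr_ae (Filter.Eventually.of_forall fun v => ?_)
      ring
    rw [e2, e3, L0, L1, L2]
    have hfac : ((n + 2).factorial : ℝ) = (n + 2) * ((n + 1) * (n + 0).factorial) := by
      rw [Nat.factorial_succ, Nat.factorial_succ]; push_cast; ring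
    have hfac2 : (((n + 0).factorial : ℕ) : ℝ) ≠ 0 := by positivity
    rw [hfac]
    field_simp
    ring
  have HU := H s hsc (fun t ht v _ => by simp [hs, Finset.mul_sum]) (fun v _ => le_rfl)
  have HA := H g hgc (fun t ht v _ => by
    simp only [hg]
    rw [hG.smul t ht.le]
    simp [hs, Finset.mul_sum, mul_add]) (fun v hv => by have := hG.nonneg v hv; simp only [hg]; linarith)
  have hst : stdS n = orth n ∩ {v | s v ≤ 1} := rfl
  have key := hG.second_order hn hε
  have e4 : ∫ v in orth n, (∑ i, (v i) ^ 2 - (∑ i, v i) ^ 2 / (n + 1) - (n + 2)) *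
      (Real.exp (-∑ i, v i) - Real.exp (-(∑ i, v i + G v))) =
      (∫ v in orth n, (∑ i, (v i) ^ 2 - (s v) ^ 2 / (n + 1) - (n + 2)) * Real.exp (-s v)) -
      ∫ v in orth n, (∑ i, (v i) ^ 2 - (s v) ^ 2 / (n + 1) - (n + 2)) * Real.exp (-g v) := by
    have hT : Tame (fun v : Fin n → ℝ => ∑ i, (v i) ^ 2 - (s v) ^ 2 / (n + 1) - (n + 2)) := by
      have := (T1.sub ((Tame.const (1 / ((n:ℝ)+1))).mul T2)).sub (Tame.const ((n:ℝ) + 2))
      convert this using 2
      ring
    rw [← integral_sub (hT.integrable hsc fun v _ => le_rfl)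
      (hT.integrable hgc fun v hv => by have := hG.nonneg v hv; simp only [hg]; linarith)]
    refine integral_congr_ae (Filter.Eventually.of_forall fun v => ?_)
    simp only [hs, hg]
    ring
  rw [e4, ← HU, ← HA, ← hst] at key
  have hpos : (0:ℝ) < ((n + 2).factorial : ℝ) := by positivity
  have : 0 ≤ ((n + 2).factorial : ℝ) * ((∫ v in stdS n, F v) - ∫ v in orth n ∩ {v | g v ≤ 1}, F v) := by
    linarith
  exact nonneg_of_mul_nonneg_right this hpos

end SubLin

end Vale.Agent.P254
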