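import Vale.Agent.P254.Affine

open MeasureTheory Set Matrix
open scoped Pointwise

namespace Vale.Agent.P254

variable {n : ℕ} {K : Set (Fin n → ℝ)}

/-- `aff A b` as an affine map. -/
noncomputable def affMap (A : Matrix (Fin n) (Fin n) ℝ) (b : Fin n → ℝ) :
    (Fin n → ℝ) →ᵃ[ℝ] (Fin n → ℝ) :=
  (Matrix.toLin' A).toAffineMap + AffineMap.const ℝ _ b

lemma affMap_apply (A : Matrix (Fin n) (Fin n) ℝ) (b x : Fin n → ℝ) :
    affMap A b x = aff A b x := by
  simp [affMap, aff]

lemma coe_affMap (A : Matrix (Fin n) (Fin n) ℝ) (b : Fin n → ℝ) :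
    (affMap A b : (Fin n → ℝ) → (Fin n → ℝ)) = aff A b := by
  ext1 x; exact affMap_apply A b x

/-- Vertices of the standard simplex. -/
noncomputable def stdV (n : ℕ) : Fin (n + 1) → (Fin n → ℝ) :=
  Fin.cons 0 (fun k => Pi.single k 1)

lemma stdV_zero : stdV n 0 = 0 := rfl

lemma stdV_succ (k : Fin n) : stdV n k.succ = Pi.single k 1 := rfl

lemma stdS_eq_convexHull : stdS n = convexHull ℝ (range (stdV n)) := by
  apply Subset.antisymm
  · intro x hx
    have h := (convex_convexHull ℝ (range (stdV n))).sum_mem (t := Finset.univ)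
      (w := fun i : Fin (n + 1) => (Fin.cons (1 - ∑ k, x k) x : Fin (n + 1) → ℝ) i)
      (z := stdV n)
      (by
        intro i _
        refine Fin.cases ?_ (fun k => ?_) i
        · simp only [Fin.cons_zero]; linarith [hx.2]
        · simp only [Fin.cons_succ]; exact hx.1 k)
      (by rw [Fin.sum_univ_succ]; simp)
      (fun i _ => subset_convexHull ℝ _ (mem_range_self i))
    rw [Fin.sum_univ_succ] at h
    simp only [Fin.cons_zero, stdV_zero, smul_zero, zero_add, Fin.cons_succ, stdV_succ] at h
    have e : ∑ k, x k • (Pi.single k (1 : ℝ) : Fin n → ℝ) = x := by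
      ext j
      rw [Finset.sum_apply]
      simp [Pi.single_apply]
    rwa [e] at h
  · refine convexHull_min ?_ convex_stdS
    rintro _ ⟨i, rfl⟩
    refine Fin.cases ?_ (fun k => ?_) i
    · rw [stdV_zero]; exact ⟨fun i => le_refl _, by simp⟩
    · rw [stdV_succ]
      refine ⟨fun j => ?_, by simp⟩
      by_cases h : j = k
      · subst h; simp
      · simp [h]

lemma image_stdS (A : Matrix (Fin n) (Fin n) ℝ) (b : Fin n → ℝ) :
    aff A b '' stdS n = convexHull ℝ (range (fun i => aff A b (stdV n i))) := by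
  rw [stdS_eq_convexHull, ← coe_affMap, AffineMap.image_convexHull, ← range_comp]
  rfl

lemma affineIndependent_stdV : AffineIndependent ℝ (stdV n) := by
  rw [affineIndependent_iff_linearIndependent_vsub ℝ _ (0 : Fin (n + 1))]
  have h : LinearIndependent ℝ (fun k : Fin n => (Pi.single k (1 : ℝ) : Fin n → ℝ)) := by
    have := (Pi.basisFun ℝ (Fin n)).linearIndependent
    convert this using 1
    ext k
    simp
  have h2 := h.comp (fun i : {x : Fin (n + 1) // x ≠ 0} => i.1.pred i.2)
    (by
      intro a b hab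
      have := Fin.pred_inj.mp hab
      exact Subtype.ext this)
  have h3 : (fun i : {x : Fin (n + 1) // x ≠ 0} => (stdV n i.1 -ᵥ stdV n 0 : Fin n → ℝ))
      = (fun k : Fin n => (Pi.single k (1 : ℝ) : Fin n → ℝ)) ∘ fun i => i.1.pred i.2 := by
    ext1 i
    obtain ⟨i, hi⟩ := i
    obtain ⟨k, rfl⟩ := Fin.exists_succ_eq.mpr hi
    simp [stdV_succ, stdV_zero]
  rw [h3]
  exact h2

lemma isSimplex_image {A : Matrix (Fin n) (Fin n) ℝ} (hA : A.det ≠ 0) (b : Fin n → ℝ) :
    IsSimplex (aff A b '' stdS n) := by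
  refine ⟨fun i => aff A b (stdV n i), ?_, image_stdS A b⟩
  have hinj : Function.Injective (affMap A b) := by
    rw [coe_affMap]; exact aff_injective hA b
  have := (affineIndependent_stdV (n := n)).map' (affMap A b) hinj
  rw [coe_affMap] at this
  exact this

lemma IsSimplex.exists_aff {T : Set (Fin n → ℝ)} (hT : IsSimplex T) :
    ∃ (A : Matrix (Fin n) (Fin n) ℝ) (b : Fin n → ℝ), A.det ≠ 0 ∧ T = aff A b '' stdS n := by
  obtain ⟨v, hv, rfl⟩ := hT
  set A : Matrix (Fin n) (Fin n) ℝ := fun i k => v k.succ i - v 0 i with hA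
  have e : (fun i => aff A (v 0) (stdV n i)) = v := by
    ext i j
    refine Fin.cases ?_ (fun k => ?_) i
    · simp [stdV_zero, aff]
    · rw [stdV_succ, aff_apply]
      simp [hA, Pi.single_apply]
  refine ⟨A, v 0, ?_, ?_⟩
  · rw [affineIndependent_iff_linearIndependent_vsub ℝ _ (0 : Fin (n + 1))] at hv
    have h1 : LinearIndependent ℝ (fun k : Fin n => v k.succ - v 0) := by
      have := hv.comp (fun k : Fin n => (⟨k.succ, Fin.succ_ne_zero k⟩ : {x : Fin (n + 1) // x ≠ 0}))
        (by
          intro a b hab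
          simpa using hab)
      exact this
    have h2 : LinearIndependent ℝ (Aᵀ).row := by
      have : (Aᵀ).row = fun k : Fin n => v k.succ - v 0 := by
        ext k j; rfl
      rw [this]
      exact h1
    have h3 := Matrix.linearIndependent_rows_iff_isUnit.mp h2
    rw [Matrix.isUnit_iff_isUnit_det, det_transpose] at h3
    exact h3.ne_zero
  · rw [image_stdS, e]

end Vale.Agent.P254
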