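import Vale.Agent.P254.Linear

open MeasureTheory Set Real Matrix
open scoped Pointwise

namespace Vale.Agent.P254

variable {n : ℕ}

/-- Continuous functions of polynomial growth on the orthant. -/
def Tame (f : (Fin n → ℝ) → ℝ) : Prop :=
  Continuous f ∧ ∃ C : ℝ, ∃ k : ℕ, 0 ≤ C ∧ ∀ v ∈ orth n, |f v| ≤ C * (1 + ∑ i, v i) ^ k

lemma Tame.of_bound {f : (Fin n → ℝ) → ℝ} (hf : Continuous f) (C : ℝ)
    (h : ∀ v ∈ orth n, |f v| ≤ C * (1 + ∑ i, v i)) : Tame f := by
  refine ⟨hf, |C|, 1, abs_nonneg _, fun v hv => ?_⟩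
  have := sum_nonneg_of_orth hv
  rw [pow_one]
  refine (h v hv).trans ?_
  gcongr
  exact le_abs_self C

lemma Tame.const (c : ℝ) : Tame (fun _ : Fin n → ℝ => c) := by
  refine Tame.of_bound continuous_const |c| fun v hv => ?_
  have := sum_nonneg_of_orth hv
  nlinarith [abs_nonneg c]

lemma Tame.coord (j : Fin n) : Tame (fun v : Fin n → ℝ => v j) := by
  refine Tame.of_bound (continuous_apply j) 1 fun v hv => ?_
  have h1 : v j ≤ ∑ i, v i := Finset.single_le_sum (fun i _ => hv i) (Finset.mem_univ j)
  rw [abs_of_nonneg (hv j)]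
  linarith

lemma Tame.add {f g : (Fin n → ℝ) → ℝ} (hf : Tame f) (hg : Tame g) : Tame (fun v => f v + g v) := by
  obtain ⟨hfc, C, k, hC, hCb⟩ := hf
  obtain ⟨hgc, D, l, hD, hDb⟩ := hg
  refine ⟨hfc.add hgc, C + D, k + l, by positivity, fun v hv => ?_⟩
  have hs := sum_nonneg_of_orth hv
  have h1 : (1:ℝ) ≤ 1 + ∑ i, v i := by linarith
  calc |f v + g v| ≤ |f v| + |g v| := abs_add_le _ _
    _ ≤ C * (1 + ∑ i, v i) ^ k + D * (1 + ∑ i, v i) ^ l := add_le_add (hCb v hv) (hDb v hv)
    _ ≤ C * (1 + ∑ i, v i) ^ (k + l) + D * (1 + ∑ i, v i) ^ (k + l) := by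
        gcongr <;> simp
    _ = _ := by ring

lemma Tame.mul {f g : (Fin n → ℝ) → ℝ} (hf : Tame f) (hg : Tame g) : Tame (fun v => f v * g v) := by
  obtain ⟨hfc, C, k, hC, hCb⟩ := hf
  obtain ⟨hgc, D, l, hD, hDb⟩ := hg
  refine ⟨hfc.mul hgc, C * D, k + l, by positivity, fun v hv => ?_⟩
  have hs := sum_nonneg_of_orth hv
  calc |f v * g v| = |f v| * |g v| := abs_mul _ _
    _ ≤ (C * (1 + ∑ i, v i) ^ k) * (D * (1 + ∑ i, v i) ^ l) :=
        mul_le_mul (hCb v hv) (hDb v hv) (abs_nonneg _) (by positivity)
    _ = _ := by ring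

lemma Tame.neg {f : (Fin n → ℝ) → ℝ} (hf : Tame f) : Tame (fun v => -f v) := by
  have := (Tame.const (-1)).mul hf
  simpa using this

lemma Tame.sub {f g : (Fin n → ℝ) → ℝ} (hf : Tame f) (hg : Tame g) : Tame (fun v => f v - g v) := by
  have := hf.add hg.neg
  simpa [sub_eq_add_neg] using this

lemma Tame.sum {ι : Type*} (s : Finset ι) {f : ι → (Fin n → ℝ) → ℝ} (hf : ∀ i ∈ s, Tame (f i)) :
    Tame (fun v => ∑ i ∈ s, f i v) := by
  classical
  induction s using Finset.induction_on with
  | empty => simpa using Tame.const 0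
  | insert a s ha ih =>
    simp only [Finset.sum_insert ha]
    exact (hf a (Finset.mem_insert_self a s)).add (ih fun i hi => hf i (Finset.mem_insert_of_mem hi))

lemma Tame.pow {f : (Fin n → ℝ) → ℝ} (hf : Tame f) (k : ℕ) : Tame (fun v => f v ^ k) := by
  induction k with
  | zero => simpa using Tame.const 1
  | succ k ih => simpa only [pow_succ] using ih.mul hf

lemma Tame.integrable {f : (Fin n → ℝ) → ℝ} (hf : Tame f) {ℓ : (Fin n → ℝ) → ℝ} (hℓ : Continuous ℓ)
    (hℓs : ∀ v ∈ orth n, ∑ i, v i ≤ ℓ v) :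
    IntegrableOn (fun v => f v * Real.exp (-ℓ v)) (orth n) := by
  obtain ⟨hfc, C, k, hC, hCb⟩ := hf
  refine integrableOn_of_bound (Continuous.aestronglyMeasurable (by fun_prop)) C k fun v hv => ?_
  have hs := sum_nonneg_of_orth hv
  rw [abs_mul, abs_of_pos (Real.exp_pos _)]
  refine mul_le_mul (hCb v hv) ?_ (Real.exp_pos _).le (by positivity)
  exact Real.exp_le_exp.2 (neg_le_neg (hℓs v hv))

/-- Fubini in one coordinate. -/
lemma integral_orth_mul_eq_zero (j : Fin n) (φ : ℝ → ℝ) (Q : (Fin n → ℝ) → ℝ)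
    (hQ : ∀ v t, Q (Function.update v j t) = Q v) (hφ : ∫ t in Ioi (0:ℝ), φ t = 0) :
    ∫ v in orth n, φ (v j) * Q v = 0 := by
  rcases n with _ | m
  · exact j.elim0
  have hmp := volume_preserving_piFinSuccAbove (fun _ : Fin (m+1) => ℝ) j
  set F : ℝ × (Fin m → ℝ) → ℝ := fun p =>
    (Ici (0:ℝ)).indicator φ p.1 * (orth m).indicator (fun w => Q (j.insertNth 0 w)) p.2 with hF
  have h1 := hmp.integral_comp' F
  have h2 : ∫ p, F p ∂(volume : Measure (ℝ × (Fin m → ℝ))) = 0 := by
    have : (volume : Measure (ℝ × (Fin m → ℝ))) = (volume : Measure ℝ).prod volume := rfl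
    rw [this, hF]
    rw [integral_prod_mul ((Ici (0:ℝ)).indicator φ) ((orth m).indicator (fun w => Q (j.insertNth 0 w)))]
    rw [integral_indicator measurableSet_Ici, integral_Ici_eq_integral_Ioi, hφ, zero_mul]
  rw [h2] at h1
  rw [← integral_indicator measurableSet_orth, ← h1]
  refine integral_congr_ae (Filter.Eventually.of_forall fun v => ?_)
  have h3 : (MeasurableEquiv.piFinSuccAbove (fun _ : Fin (m+1) => ℝ) j) v = (v j, j.removeNth v) := rfl
  beta_reduce
  rw [h3]
  simp only [hF]
  have h4 : Q (j.insertNth 0 (j.removeNth v)) = Q v := by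
    rw [Fin.insertNth_removeNth, hQ]
  by_cases hj : 0 ≤ v j
  · by_cases hr : j.removeNth v ∈ orth m
    · have hv : v ∈ orth (m+1) := by
        intro i
        rcases Fin.eq_self_or_eq_succAbove j i with rfl | ⟨i', rfl⟩
        · exact hj
        · exact hr i'
      rw [indicator_of_mem hv, indicator_of_mem (show v j ∈ Ici (0:ℝ) from hj), indicator_of_mem hr, h4]
    · have hv : v ∉ orth (m+1) := fun hv => hr fun i => hv _
      rw [indicator_of_notMem hv, indicator_of_notMem hr, mul_zero]
  · have hv : v ∉ orth (m+1) := fun hv => hj (hv j)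
    rw [indicator_of_notMem hv, indicator_of_notMem (show v j ∉ Ici (0:ℝ) from hj), zero_mul]

lemma convex_interp {h : ℝ → ℝ} (hc : ConvexOn ℝ univ h) {a b : ℝ} (hab : a < b) (t : ℝ) :
    0 ≤ (t - a) * (t - b) * (h t - (h a + (t - a) / (b - a) * (h b - h a))) := by
  have hba : 0 < b - a := by linarith
  have key : 0 ≤ (t - a) * (t - b) * ((b - a) * h t - ((b - a) * h a + (t - a) * (h b - h a))) := by
    rcases lt_trichotomy t a with h1 | h1 | h1
    · -- t < a < b
      have h2 := hc.2 (mem_univ t) (mem_univ b) (show 0 ≤ (b - a) / (b - t) by apply div_nonneg <;> linarith)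
        (show 0 ≤ (a - t) / (b - t) by apply div_nonneg <;> linarith)
        (by rw [← add_div]; rw [div_eq_one_iff_eq (by linarith)]; ring)
      have h3 : ((b - a) / (b - t)) • t + ((a - t) / (b - t)) • b = a := by
        have : b - t ≠ 0 := by linarith
        simp only [smul_eq_mul]; field_simp; ring
      rw [h3] at h2
      simp only [smul_eq_mul] at h2
      have h4 : (b - t) * h a ≤ (b - a) * h t + (a - t) * h b := by
        have hbt : 0 < b - t := by linarith
        have := mul_le_mul_of_nonneg_left h2 hbt.le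
        calc (b - t) * h a ≤ (b - t) * ((b - a) / (b - t) * h t + (a - t) / (b - t) * h b) := this
          _ = _ := by field_simp
      have h5 : 0 ≤ (b - a) * h t - ((b - a) * h a + (t - a) * (h b - h a)) := by nlinarith
      exact mul_nonneg (mul_nonneg_of_nonpos_of_nonpos (by linarith) (by linarith)) h5
    · subst h1; simp
    · rcases lt_trichotomy t b with h6 | h6 | h6
      · -- a < t < b
        have h2 := hc.2 (mem_univ a) (mem_univ b) (show 0 ≤ (b - t) / (b - a) by apply div_nonneg <;> linarith)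
          (show 0 ≤ (t - a) / (b - a) by apply div_nonneg <;> linarith)
          (by rw [← add_div]; rw [div_eq_one_iff_eq (by linarith)]; ring)
        have h3 : ((b - t) / (b - a)) • a + ((t - a) / (b - a)) • b = t := by
          simp only [smul_eq_mul]; field_simp; ring
        rw [h3] at h2
        simp only [smul_eq_mul] at h2
        have h4 : (b - a) * h t ≤ (b - t) * h a + (t - a) * h b := by
          have := mul_le_mul_of_nonneg_left h2 hba.le
          calc (b - a) * h t ≤ (b - a) * ((b - t) / (b - a) * h a + (t - a) / (b - a) * h b) := this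
            _ = _ := by field_simp
        have h5 : (b - a) * h t - ((b - a) * h a + (t - a) * (h b - h a)) ≤ 0 := by nlinarith
        exact mul_nonneg_of_nonpos_of_nonpos (mul_nonpos_of_nonneg_of_nonpos (by linarith) (by linarith)) h5
      · subst h6; simp
      · -- a < b < t
        have h2 := hc.2 (mem_univ a) (mem_univ t) (show 0 ≤ (t - b) / (t - a) by apply div_nonneg <;> linarith)
          (show 0 ≤ (b - a) / (t - a) by apply div_nonneg <;> linarith)
          (by rw [← add_div]; rw [div_eq_one_iff_eq (by linarith)]; ring)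
        have h3 : ((t - b) / (t - a)) • a + ((b - a) / (t - a)) • t = b := by
          have : t - a ≠ 0 := by linarith
          simp only [smul_eq_mul]; field_simp; ring
        rw [h3] at h2
        simp only [smul_eq_mul] at h2
        have h4 : (t - a) * h b ≤ (t - b) * h a + (b - a) * h t := by
          have hta : 0 < t - a := by linarith
          have := mul_le_mul_of_nonneg_left h2 hta.le
          calc (t - a) * h b ≤ (t - a) * ((t - b) / (t - a) * h a + (b - a) / (t - a) * h t) := this
            _ = _ := by field_simp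
        have h5 : 0 ≤ (b - a) * h t - ((b - a) * h a + (t - a) * (h b - h a)) := by nlinarith
        exact mul_nonneg (mul_nonneg (by linarith) (by linarith)) h5
  have h6 : (t - a) * (t - b) * (h t - (h a + (t - a) / (b - a) * (h b - h a))) =
      ((t - a) * (t - b) * ((b - a) * h t - ((b - a) * h a + (t - a) * (h b - h a)))) / (b - a) := by
    field_simp
  rw [h6]
  positivity

end Vale.Agent.P254
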