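import Vale.Agent.P254.Gauge

open MeasureTheory Set Real Matrix
open scoped Pointwise Topology

namespace Vale.Agent.P254

variable {n : ℕ}

/-- the affine symmetry of the standard simplex exchanging `λ₀` and `λ_j`. -/
noncomputable def sig (j : Fin n) (x : Fin n → ℝ) : Fin n → ℝ := Function.update x j (1 - ∑ i, x i)

lemma sum_sig (j : Fin n) (x : Fin n → ℝ) : ∑ i, sig j x i = 1 - x j := by
  rw [sig, sum_update]; ring

lemma sig_self (j : Fin n) (x : Fin n → ℝ) : sig j x j = 1 - ∑ i, x i := by simp [sig]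

lemma sig_ne {i j : Fin n} (h : i ≠ j) (x : Fin n → ℝ) : sig j x i = x i := by
  simp [sig, Function.update_of_ne h]

lemma sig_sig (j : Fin n) (x : Fin n → ℝ) : sig j (sig j x) = x := by
  ext i
  rcases eq_or_ne i j with rfl | h
  · rw [sig_self, sum_sig]; ring
  · rw [sig_ne h, sig_ne h]

@[fun_prop]
lemma continuous_sig (j : Fin n) : Continuous (sig j) := by
  unfold sig
  exact continuous_id.update j (by fun_prop)

lemma sig_stdS (j : Fin n) {x : Fin n → ℝ} (hx : x ∈ stdS n) : sig j x ∈ stdS n := by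
  refine ⟨fun i => ?_, ?_⟩
  · rcases eq_or_ne i j with rfl | h
    · rw [sig_self]; linarith [hx.2]
    · rw [sig_ne h]; exact hx.1 i
  · rw [sum_sig]; linarith [hx.1 j]

lemma sig_affine (j : Fin n) (x y : Fin n → ℝ) {a b : ℝ} (hab : a + b = 1) :
    sig j (a • x + b • y) = a • sig j x + b • sig j y := by
  ext i
  rcases eq_or_ne i j with rfl | h
  · simp only [sig_self, Pi.add_apply, Pi.smul_apply, smul_eq_mul, Finset.sum_add_distrib, ← Finset.mul_sum]
    linear_combination -hab
  · simp only [sig_ne h, Pi.add_apply, Pi.smul_apply]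

lemma sig_bar (j : Fin n) : sig j (bar n) = bar n := by
  ext i
  rcases eq_or_ne i j with rfl | h
  · rw [sig_self, sum_bar]
    simp only [bar]
    field_simp
    ring
  · rw [sig_ne h]

/-- matrix of the linear part of `sig j`. -/
noncomputable def sigMat (j : Fin n) : Matrix (Fin n) (Fin n) ℝ :=
  1 + vecMulVec (Pi.single j 1) (fun i => -1 - (Pi.single j (1:ℝ) : Fin n → ℝ) i)

lemma sigMat_mulVec (j : Fin n) (x : Fin n → ℝ) : sigMat j *ᵥ x + Pi.single j 1 = sig j x := by
  ext i
  simp only [sigMat, add_mulVec, one_mulVec, Pi.add_apply, vecMulVec_mulVec]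
  have h : (fun i => -1 - (Pi.single j (1:ℝ) : Fin n → ℝ) i) ⬝ᵥ x = -(∑ i, x i) - x j := by
    simp only [dotProduct, sub_mul, Finset.sum_sub_distrib]
    congr 1
    · simp [Finset.sum_neg_distrib]
    · simp [Pi.single_apply]
  rw [h]
  rcases eq_or_ne i j with rfl | hij
  · rw [sig_self]; simp; ring
  · rw [sig_ne hij]; simp [hij]

lemma det_sigMat (j : Fin n) : (sigMat j).det = -1 := by
  rw [sigMat, det_rank_one]
  have : ∀ i : Fin n, (-1 - (Pi.single j (1:ℝ) : Fin n → ℝ) i) * (Pi.single j (1:ℝ) : Fin n → ℝ) i =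
      if i = j then -2 else 0 := by
    intro i
    by_cases h : i = j <;> simp [h]
    norm_num
  simp only [this, Finset.sum_ite_eq', Finset.mem_univ, if_true]
  norm_num

/-- the integrand -/
noncomputable def FF (x : Fin n → ℝ) : ℝ := ∑ i, (x i) ^ 2 + (1 - ∑ i, x i) ^ 2 - 2 / ((n:ℝ) + 1)

lemma FF_sig (j : Fin n) (x : Fin n → ℝ) : FF (sig j x) = FF x := by
  simp only [FF]
  rw [sum_sig]
  have h1 : ∑ i, (sig j x i) ^ 2 = ∑ i, (x i) ^ 2 - (x j) ^ 2 + (1 - ∑ i, x i) ^ 2 := by
    have : (fun i => (sig j x i) ^ 2) = Function.update (fun i => (x i) ^ 2) j ((1 - ∑ i, x i) ^ 2) := by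
      ext i
      rcases eq_or_ne i j with rfl | h
      · rw [sig_self]; simp
      · rw [sig_ne h, Function.update_of_ne h]
    calc ∑ i, (sig j x i) ^ 2 = ∑ i, Function.update (fun i => (x i) ^ 2) j ((1 - ∑ i, x i) ^ 2) i := by
          rw [← this]
      _ = _ := by rw [sum_update]
  rw [h1]
  ring

lemma continuous_FF : Continuous (FF : (Fin n → ℝ) → ℝ) := by unfold FF; fun_prop

/-- Assumptions on the body in position. -/
structure Pos (K : Set (Fin n → ℝ)) (ε : ℝ) : Prop where
  convex : Convex ℝ K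
  closed : IsClosed K
  sub : K ⊆ stdS n
  c0 : (fun _ => 1 / (n:ℝ)) ∈ K
  cj : ∀ j, Function.update (fun _ => 1 / (n:ℝ)) j 0 ∈ K
  near : ∀ x ∈ stdS n, bar n + (1 + ε)⁻¹ • (x - bar n) ∈ K

namespace Pos

variable {K : Set (Fin n → ℝ)} {ε : ℝ} (hK : Pos K ε)
include hK

lemma toNear : Near K ε := ⟨hK.convex, hK.closed, hK.sub, hK.c0, hK.near⟩

lemma near_sig (j : Fin n) : Near (sig j ⁻¹' K) ε := by
  refine ⟨?_, hK.closed.preimage (continuous_sig j), ?_, ?_, ?_⟩
  · intro x hx y hy a b ha hb hab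
    show sig j (a • x + b • y) ∈ K
    rw [sig_affine j x y hab]
    exact hK.convex hx hy ha hb hab
  · intro x hx
    have := sig_stdS j (hK.sub hx)
    rwa [sig_sig] at this
  · show sig j (fun _ => 1 / (n:ℝ)) ∈ K
    have : sig j (fun _ => 1 / (n:ℝ)) = Function.update (fun _ => 1 / (n:ℝ)) j 0 := by
      have hn : (n:ℝ) ≠ 0 := by
        have := j.pos
        positivity
      simp only [sig]
      congr 1
      simp
      field_simp
      ring
    rw [this]
    exact hK.cj j
  · intro x hx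
    have h1 := hK.near _ (sig_stdS j hx)
    show sig j (bar n + (1 + ε)⁻¹ • (x - bar n)) ∈ K
    have e1 : bar n + (1 + ε)⁻¹ • (x - bar n) = (1 - (1 + ε)⁻¹) • bar n + (1 + ε)⁻¹ • x := by
      ext i; simp; ring
    have e2 : bar n + (1 + ε)⁻¹ • (sig j x - bar n) = (1 - (1 + ε)⁻¹) • bar n + (1 + ε)⁻¹ • sig j x := by
      ext i; simp; ring
    rw [e1, sig_affine j _ _ (by ring), sig_bar, ← e2]
    exact h1

lemma total (hn : 2 ≤ n) (hε : 0 ≤ ε) (hε4 : ε * ((n:ℝ) * (n + 1) * (n + 2) * (n + 3)) ≤ 4) :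
    0 ≤ ∫ x in stdS n \ K, FF x := by
  set φ : Fin (n + 1) → (Fin n → ℝ) → ℝ := fun i x => Fin.cases (1 - ∑ i, x i) (fun j => x j) i with hφ
  have hφ0 : ∀ x, φ 0 x = 1 - ∑ i, x i := fun x => rfl
  have hφs : ∀ j : Fin n, ∀ x, φ j.succ x = x j := fun j x => rfl
  have hc : ∀ i, Continuous (φ i) := by
    intro i
    refine Fin.cases ?_ (fun j => ?_) i
    · show Continuous fun x : Fin n → ℝ => 1 - ∑ i, x i
      fun_prop
    · exact continuous_apply j
  have hnull : ∀ j : Fin n, volume {x : Fin n → ℝ | 1 - ∑ i, x i = x j} = 0 := by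
    intro j
    have h := null_hyperplane (fun i => 1 + (Pi.single j (1:ℝ) : Fin n → ℝ) i) (by
      intro h
      have := congrFun h j
      simp at this) 1
    refine measure_mono_null (fun x hx => ?_) h
    simp only [mem_ofPred_eq] at hx ⊢
    simp only [add_mul, one_mul, Finset.sum_add_distrib]
    have : ∑ i, (Pi.single j (1:ℝ) : Fin n → ℝ) i * x i = x j := by simp [Pi.single_apply]
    rw [this]
    linarith
  have hne : ∀ i j, i ≠ j → volume {x | φ i x = φ j x} = 0 := by
    intro i j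
    refine Fin.cases ?_ (fun i' => ?_) i <;> refine Fin.cases ?_ (fun j' => ?_) j
    · intro h; exact absurd rfl h
    · intro _; exact hnull j'
    · intro _
      have := hnull i'
      refine measure_mono_null (fun x hx => ?_) this
      exact (Eq.symm hx)
    · intro h
      exact null_eq_coord (fun hij : i' = j' => h (congrArg Fin.succ hij))
  have hs : MeasurableSet (stdS n \ K) := measurableSet_stdS.diff hK.closed.measurableSet
  have hint : IntegrableOn FF (stdS n \ K) :=
    (continuous_FF.continuousOn.integrableOn_compact isCompact_stdS).mono_set sdiff_subset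
  rw [integral_argmin (by omega) φ hc hne hs hint]
  refine Finset.sum_nonneg fun i _ => ?_
  refine Fin.cases ?_ (fun j => ?_) i
  · -- region 0
    have h := hK.toNear.region0 hε hn hε4
    have e : (stdS n \ K) ∩ {x | ∀ i, φ 0 x ≤ φ i x} = (stdS n ∩ {x | ∀ i, 1 - ∑ j, x j ≤ x i}) \ K := by
      ext x
      simp only [mem_inter_iff, mem_sdiff, mem_ofPred_eq]
      constructor
      · rintro ⟨⟨h1, h2⟩, h3⟩
        exact ⟨⟨h1, fun i => h3 i.succ⟩, h2⟩
      · rintro ⟨⟨h1, h3⟩, h2⟩
        refine ⟨⟨h1, h2⟩, fun i => ?_⟩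
        refine Fin.cases le_rfl (fun j => h3 j) i
    rw [e]
    exact h
  · have h := (hK.near_sig j).region0 hε hn hε4
    have e : (stdS n \ K) ∩ {x | ∀ i, φ j.succ x ≤ φ i x} =
        (fun x => sigMat j *ᵥ x + Pi.single j 1) '' ((stdS n ∩ {x | ∀ i, 1 - ∑ j, x j ≤ x i}) \ (sig j ⁻¹' K)) := by
      have hf : (fun x => sigMat j *ᵥ x + Pi.single j 1) = sig j := funext (sigMat_mulVec j)
      rw [hf]
      ext x
      simp only [mem_inter_iff, mem_sdiff, mem_ofPred_eq, mem_image, mem_preimage]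
      constructor
      · rintro ⟨⟨h1, h2⟩, h3⟩
        refine ⟨sig j x, ⟨⟨sig_stdS j h1, fun i => ?_⟩, ?_⟩, sig_sig j x⟩
        · rw [sum_sig]
          have h4 : x j ≤ 1 - ∑ i, x i := h3 0
          rcases eq_or_ne i j with rfl | hij
          · rw [sig_self]; linarith
          · rw [sig_ne hij]
            have : x j ≤ x i := h3 i.succ
            linarith
        · rw [sig_sig]; exact h2
      · rintro ⟨y, ⟨⟨h1, h2⟩, h3⟩, rfl⟩
        refine ⟨⟨sig_stdS j h1, h3⟩, fun i => ?_⟩
        rw [hφs, sig_self]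
        refine Fin.cases ?_ (fun i' => ?_) i
        · rw [hφ0, sum_sig]
          have := h2 j
          linarith
        · rw [hφs]
          rcases eq_or_ne i' j with rfl | hij
          · rw [sig_self]
          · rw [sig_ne hij]; exact h2 i'
    have hmeas : MeasurableSet ((stdS n ∩ {x | ∀ i, 1 - ∑ j, x j ≤ x i}) \ (sig j ⁻¹' K)) := by
      refine (measurableSet_stdS.inter ?_).diff (hK.closed.preimage (continuous_sig j)).measurableSet
      have : {x : Fin n → ℝ | ∀ i, 1 - ∑ j, x j ≤ x i} = ⋂ i, {x | 1 - ∑ j, x j ≤ x i} := by ext; simp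
      rw [this]
      exact MeasurableSet.iInter fun i => (isClosed_le (by fun_prop) (by fun_prop)).measurableSet
    rw [e, integral_image_affine _ _ (by rw [det_sigMat]; norm_num) hmeas, det_sigMat]
    simp only [sigMat_mulVec, FF_sig]
    simpa [FF] using h

end Pos

end Vale.Agent.P254
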